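import Vale.Agent.P100.Orbit.Increase

/-!
# P100: the phase variables through the centre, and their bounds on the whole orbit
-/

namespace Vale.Agent.P100.Orbit

open MeasureTheory Set Filter Topology intervalIntegral

noncomputable section

variable {N p q T₁ T₀ T : ℝ} {U V : ℝ → ℝ}

theorem above_on {f f' : ℝ → ℝ} {S b c : ℝ} (hd : ∀ x ∈ Ico S b, HasDerivAt f (f' x) x)
    (h0 : c ≤ f S) (hb : ∀ x ∈ Ico S b, f x = c → 0 < f' x) : ∀ x ∈ Ioo S b, c < f x := by
  intro x hx
  by_contra hbad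
  push Not at hbad
  have hsub : Icc S x ⊆ Ico S b := fun y hy => ⟨hy.1, hy.2.trans_lt hx.2⟩
  have h := lt_of_barrier (f := fun y => -f (-y)) (R := -x) (T₀ := -S) (c := -c)
    (fun y hy => by
      have hy' : -y ∈ Ico S b := hsub ⟨by linarith [hy.2], by linarith [hy.1]⟩
      exact (((hd _ hy').comp y (hasDerivAt_neg y)).continuousAt.neg).continuousWithinAt)
  rcases h0.lt_or_eq with h0 | h0
  · have := h (by simpa using neg_lt_neg h0) (fun y hy hye => ?_) (-x) ⟨le_rfl, by linarith [hx.1]⟩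
    · simp only [neg_neg, neg_lt_neg_iff] at this
      linarith
    have hy' : -y ∈ Ico S b := hsub ⟨by linarith [hy.2], by linarith [hy.1]⟩
    have he : f (-y) = c := neg_injective hye
    refine Eventually.frequently ?_
    have hd' := ((hd _ hy').comp y (hasDerivAt_neg y)).neg
    have hpos := hb _ hy' he
    filter_upwards [(eventually_lt_of_deriv_neg hd'.neg (by linarith)).1] with z hz
    simp only [Function.comp_apply, Pi.neg_apply, neg_neg, he] at hz
    linarith
  · obtain ⟨y, hy1, hy2⟩ := ((eventually_lt_of_deriv_neg (hd S ⟨le_rfl, hx.1.trans hx.2⟩).neg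
      (neg_neg_of_pos (hb S ⟨le_rfl, hx.1.trans hx.2⟩ h0.symm))).1.and (Ioo_mem_nhdsGT hx.1)).exists
    simp only [Pi.neg_apply] at hy1
    have h2 := lt_of_barrier (f := fun z => -f (-z)) (R := -x) (T₀ := -y) (c := -c)
      (fun z hz => by
        have hz' : -z ∈ Ico S b := hsub ⟨by linarith [hz.2, hy2.1], by linarith [hz.1]⟩
        exact (((hd _ hz').comp z (hasDerivAt_neg z)).continuousAt.neg).continuousWithinAt)
      (by simp only [neg_neg]; linarith) (fun z hz hze => ?_) (-x) ⟨le_rfl, by linarith [hy2.2]⟩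
    · simp only [neg_neg, neg_lt_neg_iff] at h2
      linarith
    have hz' : -z ∈ Ico S b := hsub ⟨by linarith [hz.2, hy2.1], by linarith [hz.1]⟩
    have he : f (-z) = c := neg_injective hze
    refine Eventually.frequently ?_
    have hd' := ((hd _ hz').comp z (hasDerivAt_neg z)).neg
    have hpos := hb _ hz' he
    filter_upwards [(eventually_lt_of_deriv_neg hd'.neg (by linarith)).1] with v hv
    simp only [Function.comp_apply, Pi.neg_apply, neg_neg, he] at hv
    linarith

theorem tendsto_quot_zero {A B : ℝ → ℝ} {a b : ℝ} (hA : HasDerivAt A a 0) (hB : HasDerivAt B b 0)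
    (hA0 : A 0 = 0) (hB0 : B 0 = 0) (hb : b ≠ 0) :
    Tendsto (fun x => A x / B x) (𝓝[≠] 0) (𝓝 (a / b)) := by
  refine ((hasDerivAt_iff_tendsto_slope.1 hA).div (hasDerivAt_iff_tendsto_slope.1 hB) hb).congr' ?_
  filter_upwards [self_mem_nhdsWithin] with x hx
  simp only [Pi.div_apply, slope_def_field, hA0, hB0, sub_zero]
  rw [div_div_div_cancel_right₀ hx]

namespace CriticalOrbit

variable (hN : 2 < N) (hp : 0 < p) (hq : 0 < q) (o : CriticalOrbit N p q T₁ T₀ U V)
include hN hp hq o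

omit hp hq in
theorem zero_mem : T₁ < 0 := o.T₁_lt.trans o.T₀_neg

omit hp hq in
theorem hasDerivAt_xi_zero : HasDerivAt (qX N p U V) (2 * du N p V 0 / U 0) 0 := by
  have h0 := o.zero_mem hN
  refine ((((hasDerivAt_id (0 : ℝ)).const_mul 2).mul (o.deriv_du_u 0 h0).hasDerivAt).div
    (o.deriv_u 0 h0) (o.pos_u 0 h0.le).ne').congr_deriv ?_
  simp only [id_eq, Pi.mul_apply, mul_one, mul_zero, zero_mul, add_zero]
  have := (o.pos_u 0 h0.le).ne'
  field_simp
  ring

omit hp hq in
theorem hasDerivAt_yv_zero : HasDerivAt (qX N q V U) (2 * du N q U 0 / V 0) 0 := by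
  have h0 := o.zero_mem hN
  refine ((((hasDerivAt_id (0 : ℝ)).const_mul 2).mul (o.deriv_du_v 0 h0).hasDerivAt).div
    (o.deriv_v 0 h0) (o.pos_v 0 h0.le).ne').congr_deriv ?_
  simp only [id_eq, Pi.mul_apply, mul_one, mul_zero, zero_mul, add_zero]
  have := (o.pos_v 0 h0.le).ne'
  field_simp
  ring

omit hq in
theorem exists_zv_deriv : qZ N p V 0 = N ∧ ∃ d, HasDerivAt (fun x => N - qZ N p V x) d 0 := by
  have h0 := o.zero_mem hN
  refine ⟨?_, _, ((((o.deriv_v 0 h0).rpow_const (p := p) (Or.inl (o.pos_v 0 h0.le).ne')).div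
    (o.deriv_du_u 0 h0).hasDerivAt (o.du_u_pos 0 h0.le).ne')).const_sub N⟩
  have : 0 < V 0 ^ p := Real.rpow_pos_of_pos (o.pos_v 0 h0.le) p
  have : N ≠ 0 := by linarith
  unfold qZ
  rw [du_zero hN]
  field_simp

theorem exists_center : ∃ w₀, Tendsto (pW N p q U V) (𝓝[≠] 0) (𝓝 w₀) ∧
    ∃ z₀, Tendsto (pZeta N p q U V) (𝓝[≠] 0) (𝓝 z₀) := by
  have h0 := o.zero_mem hN
  obtain ⟨hZ0, d, hd⟩ := o.exists_zv_deriv hN hp
  refine ⟨_, tendsto_quot_zero hd ((o.hasDerivAt_xi_zero hN).const_mul (q + 1)) (by rw [hZ0, sub_self])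
    (by simp [qX]) ?_, _, tendsto_quot_zero hd ((o.hasDerivAt_yv_zero hN).const_mul (p + 1))
      (by rw [hZ0, sub_self]) (by simp [qX]) ?_⟩
  · have := o.du_u_pos 0 h0.le
    have := o.pos_u 0 h0.le
    positivity
  · have := o.du_v_pos 0 h0.le
    have := o.pos_v 0 h0.le
    positivity

variable (hqp : q < p) (hc : N / (p + 1) + N / (q + 1) = N - 2)
include hqp hc

/-- `ζ → ζ₀` from both sides. -/
theorem tendsto_zeta_center : Tendsto (pZeta N p q U V) (𝓝[≠] 0) (𝓝 (zeta0 N p)) := by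
  obtain ⟨-, -, z₀, hz⟩ := o.exists_center hN hp hq
  have := tendsto_nhds_unique (hz.mono_left (nhdsWithin_mono 0 (show Ioi (0 : ℝ) ⊆ {0}ᶜ from fun x hx => ne_of_gt hx)))
    ((o.toGround hN hp hq).tendsto_pZeta_zero hN hp hq hqp hc)
  rwa [this] at hz

/-- The central value of `w₁` is below `α/S`. -/
theorem exists_w_center : ∃ w₀ < N / (q + 1) / (N - 2), Tendsto (pW N p q U V) (𝓝[≠] 0) (𝓝 w₀) := by
  obtain ⟨w₀, hw, -⟩ := o.exists_center hN hp hq
  refine ⟨w₀, lt_of_le_of_lt (b := pW N p q U V 1) ?_ ((o.toGround hN hp hq).pW_lt hN hp hq hqp hc one_pos), hw⟩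
  refine le_of_tendsto (hw.mono_left (nhdsWithin_mono 0 (show Ioi (0 : ℝ) ⊆ {0}ᶜ from fun x hx => ne_of_gt hx))) ?_
  filter_upwards [Ioo_mem_nhdsGT one_pos] with x hx
  exact (o.toGround hN hp hq).monotoneOn_pW hN hp hq hqp hc hx.1 (Set.mem_Ioi.2 one_pos) hx.2.le

/-- `w₁ < α/S` on the backward part. -/
theorem back_w_lt (hT : T₀ ≤ T) (hT0 : T < 0) : pW N p q U V T < N / (q + 1) / (N - 2) := by
  set c := N / (q + 1) / (N - 2)
  have hN0 : 0 < N := by linarith
  have hS : 0 < N - 2 := by linarith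
  by_contra hle
  push Not at hle
  obtain ⟨w₀, hw₀, hlim⟩ := o.exists_w_center hN hp hq hqp hc
  set f' : ℝ → ℝ := fun x => pW N p q U V x * ((N + 2) * (zeta0 N p - pZeta N p q U V x) / pZeta N p q U V x
      + qX N p U V x * (2 * N * pZeta N p q U V x * pW N p q U V x - (N / (q + 1) + 2) * pW N p q U V x
        - N / (q + 1) * pZeta N p q U V x) / (N / (q + 1) * pZeta N p q U V x)) / (2 * x)
  have hz0 : 0 < zeta0 N p := by unfold zeta0; positivity
  have hd : ∀ x ∈ Ico T 0, HasDerivAt (pW N p q U V) (f' x) x := fun x hx =>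
    o.hasDerivAt_w hN hp hq hc (o.T₁_lt.trans_le (hT.trans hx.1)) hx.2.ne
      (hz0.trans_le (o.zeta0_le hN hp hq (hT.trans hx.1) hx.2)).ne'
  by_cases hcase : ∀ x ∈ Ico T 0, pW N p q U V x = c → 0 < f' x
  · have habove := above_on hd hle hcase
    have : c ≤ w₀ := ge_of_tendsto (hlim.mono_left (nhdsWithin_mono 0 (show Iio (0 : ℝ) ⊆ {0}ᶜ from fun x hx => ne_of_lt hx)))
      (mem_of_superset (Ioo_mem_nhdsLT hT0) fun x hx => (habove x hx).le)
    linarith
  push Not at hcase
  obtain ⟨x, hx, hxc, hxd⟩ := hcase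
  have hzx := o.zeta0_le hN hp hq (hT.trans hx.1) hx.2
  have hX := o.qX_neg hN hp hq (o.T₁_lt.le.trans (hT.trans hx.1)) hx.2
  set ζ := pZeta N p q U V x
  set α := N / (q + 1)
  set X := qX N p U V x
  have hα : 0 < α := by positivity
  have e1 : (N + 2) * zeta0 N p = α + 2 := by
    rw [Ground.zeta0_eq hN hp hq hqp hc]; simp only [α]; field_simp
  have e : f' x = c * ((N - 2 - X) * ((α + 2) - (N + 2) * ζ) / ((N - 2) * ζ)) / (2 * x) := by
    have hζ : ζ ≠ 0 := (hz0.trans_le hzx).ne'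
    simp only [f']
    rw [hxc, show pZeta N p q U V x = ζ from rfl, show qX N p U V x = X from rfl]
    congr 2
    rw [show c = α / (N - 2) from rfl, mul_sub (N + 2), e1, show N / (q + 1) = α from rfl]
    field_simp
    ring
  -- at the centre value `ζ = ζ₀` the derivative vanishes; strictness comes from `ζ₀ < ζ`
  rcases hzx.lt_or_eq with h | h
  · have : 0 < f' x := by
      rw [e]
      refine div_pos_of_neg_of_neg (mul_neg_of_pos_of_neg (by positivity) (div_neg_of_neg_of_pos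
        (mul_neg_of_pos_of_neg (by linarith) ?_) (mul_pos hS (hz0.trans h)))) (by linarith [hx.2])
      have := mul_lt_mul_of_pos_left h (show 0 < N + 2 by linarith)
      linarith
    linarith
  · -- `ζ = ζ₀` at a negative time is impossible
    set d := fun y => ((N + 2) * (zeta0 N p - pZeta N p q U V y) - qX N p U V y * (q + 1)
      * (1 - pZeta N p q U V y) * (pW N p q U V y - pZeta N p q U V y)) / (2 * y)
    have hdz := o.hasDerivAt_zeta hN hp hq (o.T₁_lt.trans_le (hT.trans hx.1)) hx.2.ne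
    have hζ1 : ζ < 1 := by
      rw [← h, Ground.zeta0_eq hN hp hq hqp hc, div_lt_one (by linarith)]
      have : N / (q + 1) < N := div_lt_self hN0 (by linarith)
      linarith
    have hζw : ζ < pW N p q U V x := by
      rw [hxc, ← h, Ground.zeta0_eq hN hp hq hqp hc, div_lt_div_iff₀ (by linarith) hS]
      have := Ground.half_lt_alpha hN hq hqp hc hp
      linarith
    have hdneg : d x < 0 := by
      show ((N + 2) * (zeta0 N p - ζ) - X * (q + 1) * (1 - ζ) * (pW N p q U V x - ζ)) / (2 * x) < 0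
      rw [← h, sub_self, mul_zero, zero_sub, h]
      refine div_neg_of_pos_of_neg (neg_pos.2 ?_) (by linarith [hx.2])
      exact mul_neg_of_neg_of_pos (mul_neg_of_neg_of_pos (mul_neg_of_neg_of_pos hX (by linarith))
        (sub_pos.2 hζ1)) (sub_pos.2 hζw)
    obtain ⟨y, hy1, hy2⟩ := ((eventually_lt_of_deriv_neg hdz hdneg).1.and (Ioo_mem_nhdsGT hx.2)).exists
    have := o.zeta0_le hN hp hq (hT.trans (hx.1.trans hy2.1.le)) hy2.2
    linarith

/-- `t ≤ r`, i.e. `Y ≤ ξ` in absolute value: `w₁/ζ < α/β`, for `T > 0` and for `T₀ ≤ T < 0`. -/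
theorem eta_lt (hT : T₀ ≤ T) (h0 : T ≠ 0) : eta N p q U V T < (p + 1) / (q + 1) := by
  have hN0 : 0 < N := by linarith
  have hS : 0 < N - 2 := by linarith
  have key : N / (p + 1) / (N - 2) < pZeta N p q U V T ∧ pW N p q U V T < N / (q + 1) / (N - 2) := by
    rcases h0.lt_or_gt with h | h
    · refine ⟨lt_of_lt_of_le ?_ (o.zeta0_le hN hp hq hT h), o.back_w_lt hN hp hq hqp hc hT h⟩
      rw [Ground.zeta0_eq hN hp hq hqp hc, div_lt_div_iff₀ hS (by linarith)]
      have h1 := mul_pos hN0 (show 0 < N / (q + 1) - N / (p + 1) by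
        have := Ground.half_lt_alpha hN hq hqp hc hp; linarith)
      have hb : N / (p + 1) = N - 2 - N / (q + 1) := by linarith
      rw [hb] at h1 ⊢
      linarith
    · exact ⟨(o.toGround hN hp hq).lt_pZeta hN hp hq hqp hc h, (o.toGround hN hp hq).pW_lt hN hp hq hqp hc h⟩
  have hz : 0 < pZeta N p q U V T := lt_trans (by positivity) key.1
  have e := o.pW_eq_back hN hp hq (o.T₁_lt.le.trans hT) h0
  have e2 : N / (q + 1) / (N - 2) = (p + 1) / (q + 1) * (N / (p + 1) / (N - 2)) := by field_simp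
  refine lt_of_mul_lt_mul_right ?_ hz.le
  rw [← e]
  refine key.2.trans ?_
  rw [e2]
  exact mul_lt_mul_of_pos_left key.1 (by positivity)

end CriticalOrbit

end

end Vale.Agent.P100.Orbit
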