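import Vale.Agent.P100.Orbit.PhiHalf
import Vale.Agent.P100.Orbit.Center

/-!
# P100: the certificate region contains the forward orbit

Normalised variables: `S = α + β`, `f = α/S`, `x = ξ/S`, `z = ζ`, `w = w₁`, `N = S + 2`.
-/

namespace Vale.Agent.P100.Orbit

open MeasureTheory Set Filter Topology intervalIntegral

noncomputable section

variable {N p q a T : ℝ} {U V : ℝ → ℝ}

/-- `P = (N + 2)(ζ₀ - ζ)`. -/
def rP (S f z : ℝ) : ℝ := S * f + 2 - (S + 4) * z

/-- `Pm₁`. -/
def rPm (S f z w : ℝ) : ℝ := (S + 2) / f * (1 - z) * (w - z)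

/-- The region without the upper barrier on `ζ`. -/
structure InRegion (S f x z w : ℝ) : Prop where
  S_pos : 0 < S
  half_lt_f : 1 / 2 < f
  f_lt_one : f < 1
  x_pos : 0 < x
  x_lt_one : x < 1
  g_lt_z : 1 - f < z
  alpha_lt_z : f * S / (S + 2) < z
  P_pos : 0 < rP S f z
  z_lt_w : z < w
  one_lt_add : 1 < w + z
  w_lt_f : w < f
  phi_le_one : rP S f z < x * rPm S f z w
  phi_ge_half : x * rPm S f z w < 2 * rP S f z
  w_mono : 0 ≤ (1 - x) * rP S f z - x * (f - w) * (2 * (S + 2) * z - S * f - 2) / f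

namespace Ground

variable (hN : 2 < N) (hp : 0 < p) (hq : 0 < q) (g : Ground N p q a U V)
  (hqp : q < p) (hc : N / (p + 1) + N / (q + 1) = N - 2)
include hN hp hq g hqp hc

/-- `α/N < ζ`. -/
theorem alpha_lt_pZeta (hT : 0 < T) : 1 / (q + 1) < pZeta N p q U V T := by
  have hS : 0 < N - 2 := by linarith
  have hN0 : 0 < N := by linarith
  have hβ := g.lt_pZeta hN hp hq hqp hc hT
  have hr := g.zRate_pos hN hp hq hqp hc hT
  have hw := g.pW_lt hN hp hq hqp hc hT
  have hX := g.qX_lt hN hp hq hT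
  have hX0 := g.qX_pos hN hp hq hT
  have hzw := g.pZeta_lt_pW hN hp hq hc hqp hT
  have hz1 := g.pZeta_lt_one hN hp hq hc hT
  simp only [zRate] at hr
  rw [zeta0_eq hN hp hq hqp hc] at hr
  set α := N / (q + 1) with hαdef
  set β := N / (p + 1)
  set z := pZeta N p q U V T
  have hα : 0 < α := by positivity
  have eα : (q + 1) * α = N := by rw [hαdef]; field_simp
  by_contra hle
  push Not at hle
  have hzα : N * z ≤ α := by
    have := mul_le_mul_of_nonneg_left hle hN0.le
    rw [mul_one_div] at this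
    exact this
  have h1 : qX N p U V T * (q + 1) * (1 - z) * (pW N p q U V T - z)
      ≤ (N - 2) * (q + 1) * (1 - z) * (α / (N - 2) - z) := by
    have := sub_nonneg.2 hzw.le
    have := sub_nonneg.2 hz1.le
    gcongr
  have h2 : 0 < α * (qX N p U V T * (q + 1) * (1 - z) * (pW N p q U V T - z)
      - ((α + 2) - (N + 2) * z)) := by
    refine mul_pos hα ?_
    rw [mul_sub (N + 2), mul_div_cancel₀ _ (show N + 2 ≠ 0 by linarith)] at hr
    exact hr
  have h3 : α * ((N - 2) * (q + 1) * (1 - z) * (α / (N - 2) - z) - ((α + 2) - (N + 2) * z))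
      = ((N - 2) * z - β) * (N * z - α) := by
    rw [show β = N - 2 - α by linarith]
    field_simp
    linear_combination (1 - z) * (α - (N - 2) * z) * eα
  have h4 : ((N - 2) * z - β) * (N * z - α) ≤ 0 := by
    refine mul_nonpos_of_nonneg_of_nonpos ?_ (by linarith)
    rw [div_lt_iff₀ hS] at hβ
    linarith
  have h5 := mul_le_mul_of_nonneg_left (sub_le_sub_right h1 ((α + 2) - (N + 2) * z)) hα.le
  linarith

/-- `w₁` is nondecreasing, in the algebraic form. -/
theorem w_mono_rate (hT : 0 < T) :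
    0 ≤ N / (q + 1) * ((N + 2) * (zeta0 N p - pZeta N p q U V T))
      + qX N p U V T * (2 * N * pZeta N p q U V T * pW N p q U V T - (N / (q + 1) + 2) * pW N p q U V T
        - N / (q + 1) * pZeta N p q U V T) := by
  have e := (g.hasDerivAt_pW' hN hp hq hqp hc hT).unique (g.hasDerivAt_pW hN hp hq hc hT)
  have h : 0 ≤ pW N p q U V T * pPhi N p q U V T / (N * (2 * T)) := by
    have := g.pPhi_nonneg hN hp hq hqp hc hT
    have := g.pW_pos hN hp hq hc hT
    have : 0 < N := by linarith
    positivity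
  rw [e] at h
  have hz := g.pZeta_pos hN hp hq hc hT
  have hα : 0 < N / (q + 1) := div_pos (by linarith) (by linarith)
  have hk : 0 < pW N p q U V T / (2 * T * (N / (q + 1) * pZeta N p q U V T)) :=
    div_pos (g.pW_pos hN hp hq hc hT) (by positivity)
  refine (mul_nonneg_iff_of_pos_left hk).1 (le_of_le_of_eq h ?_)
  set α := N / (q + 1)
  field_simp

/-- The forward orbit lies in the region. -/
theorem inRegion (hT : 0 < T) : InRegion (N - 2) (N / (q + 1) / (N - 2)) (qX N p U V T / (N - 2))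
    (pZeta N p q U V T) (pW N p q U V T) := by
  have hS : 0 < N - 2 := by linarith
  have hN0 : 0 < N := by linarith
  have hX := g.qX_pos hN hp hq hT
  have hzw := g.pZeta_lt_pW hN hp hq hc hqp hT
  have hr := g.zRate_pos hN hp hq hqp hc hT
  have hh := g.halfGap_pos hN hp hq hqp hc hT
  have hm := g.w_mono_rate hN hp hq hqp hc hT
  have hz := g.pZeta_lt_zeta0 hN hp hq hc hqp hT
  have hα2 := half_lt_alpha hN hq hqp hc hp
  have hβ := g.lt_pZeta hN hp hq hqp hc hT
  have hza := g.alpha_lt_pZeta hN hp hq hqp hc hT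
  simp only [zRate, halfGap] at hr hh
  rw [zeta0_eq hN hp hq hqp hc] at hr hh hm hz
  have hβ0 : 0 < N / (p + 1) := by positivity
  set α := N / (q + 1) with hαdef
  have hα : 0 < α := by positivity
  have eP : rP (N - 2) (α / (N - 2)) (pZeta N p q U V T) = (N + 2) * ((α + 2) / (N + 2) - pZeta N p q U V T) := by
    unfold rP
    have : N + 2 ≠ 0 := by linarith
    field_simp
    ring
  have ePm : qX N p U V T / (N - 2) * rPm (N - 2) (α / (N - 2)) (pZeta N p q U V T) (pW N p q U V T)
      = qX N p U V T * (q + 1) * (1 - pZeta N p q U V T) * (pW N p q U V T - pZeta N p q U V T) := by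
    unfold rPm
    rw [show q + 1 = N / α by rw [hαdef]; field_simp]
    field_simp
    ring
  refine ⟨hS, ?_, ?_, div_pos hX hS, (div_lt_one hS).2 (g.qX_lt hN hp hq hT), ?_, ?_, ?_, hzw, ?_,
    g.pW_lt hN hp hq hqp hc hT, ?_, ?_, ?_⟩
  · rw [lt_div_iff₀ hS]; linarith
  · rw [div_lt_one hS]; linarith
  · refine lt_of_eq_of_lt ?_ hβ
    rw [show N / (p + 1) = N - 2 - α by linarith]
    field_simp
  · refine lt_of_eq_of_lt ?_ hza
    rw [hαdef]
    field_simp
    ring
  · rw [eP]; exact mul_pos (by linarith) (sub_pos.2 hz)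
  · linarith [g.one_lt_pW_add hN hp hq hqp hc hT]
  · rw [eP, ePm]; linarith
  · rw [eP, ePm]; linarith
  · rw [eP]
    refine le_of_le_of_eq (div_nonneg hm hα.le) ?_
    have : N + 2 ≠ 0 := by linarith
    field_simp
    ring

/-- The upper barrier `U ≤ 0` or `U² ≤ 6 y + h`, `U = N ζ - α`, from its sign lemma; `h = 6 g³` in
the certificate region. -/
theorem upper_barrier {h : ℝ} (hh : 0 ≤ h)
    (hR4 : ∀ x z w : ℝ, InRegion (N - 2) (N / (q + 1) / (N - 2)) x z w →
      0 < N * z - N / (q + 1) →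
      (N * z - N / (q + 1)) ^ 2 = 6 * (1 - x) + h →
      2 * (N * z - N / (q + 1)) * N * (rP (N - 2) (N / (q + 1) / (N - 2)) z
          - x * rPm (N - 2) (N / (q + 1) / (N - 2)) z w)
        + 6 * x * (2 * (1 - x) + x * N * (N / (q + 1) / (N - 2) - w) / (N / (q + 1) / (N - 2))) < 0)
    (hT : 0 < T) :
    N * pZeta N p q U V T - N / (q + 1) ≤ 0 ∨ (N * pZeta N p q U V T - N / (q + 1)) ^ 2
      ≤ 6 * (1 - qX N p U V T / (N - 2)) + h := by
  have hS : 0 < N - 2 := by linarith
  have hN0 : 0 < N := by linarith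
  set α := N / (q + 1) with hαdef
  have hα : 0 < α := by positivity
  set f := α / (N - 2) with hfdef
  rcases le_or_gt (N * pZeta N p q U V T - α) 0 with hU | hU0
  · exact Or.inl hU
  right
  set G : ℝ → ℝ := fun t => 6 * (1 - qX N p U V t / (N - 2)) + h
    - (N * pZeta N p q U V t - α) ^ 2
  set xd : ℝ → ℝ := fun t => qX N p U V t * (qX N p U V t + qZ N p V t - N + 2) / (2 * t)
  set zd : ℝ → ℝ := fun t => ((N + 2) * (zeta0 N p - pZeta N p q U V t) - qX N p U V t * (q + 1)
      * (1 - pZeta N p q U V t) * (pW N p q U V t - pZeta N p q U V t)) / (2 * t)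
  set G' : ℝ → ℝ := fun t => 6 * -(xd t / (N - 2)) - 2 * (N * pZeta N p q U V t - α) * (N * zd t)
  have hd : ∀ t, 0 < t → HasDerivAt G (G' t) t := fun t ht => by
    refine ((((((g.hasDerivAt_qX hN hp hq ht).div_const (N - 2)).const_sub 1).const_mul 6).add_const h).sub
      ((((g.hasDerivAt_pZeta hN hp hq hc ht).const_mul N).sub_const α).pow 2)).congr_deriv ?_
    simp only [G', xd, zd]
    ring
  have hUpos : ∀ t, 0 < t → t ≤ T → 0 < N * pZeta N p q U V t - α := fun t ht htT => by
    rcases htT.lt_or_eq with h' | h'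
    · have := mul_lt_mul_of_pos_left (g.strictAntiOn_pZeta hN hp hq hqp hc (mem_Ioi.2 ht) (mem_Ioi.2 hT) h') hN0
      linarith
    · rw [h']; exact hU0
  have hsign : ∀ t, 0 < t → t ≤ T → G t = 0 → 0 < G' t := fun t ht htT he => by
    have hreg := g.inRegion hN hp hq hqp hc ht
    have hU := hUpos t ht htT
    have := hR4 _ _ _ hreg hU (by simp only [G] at he; linarith)
    have e : G' t * (2 * t) = -(2 * (N * pZeta N p q U V t - α) * N * (rP (N - 2) f (pZeta N p q U V t)
          - qX N p U V t / (N - 2) * rPm (N - 2) f (pZeta N p q U V t) (pW N p q U V t))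
        + 6 * (qX N p U V t / (N - 2)) * (2 * (1 - qX N p U V t / (N - 2))
          + qX N p U V t / (N - 2) * N * (f - pW N p q U V t) / f)) := by
      have hZ : qZ N p V t = N - (q + 1) * qX N p U V t * pW N p q U V t := by
        have := (g.qX_pos hN hp hq ht).ne'
        unfold pW
        field_simp
        ring
      have : N + 2 ≠ 0 := by linarith
      simp only [G', xd, zd, rP, rPm]
      rw [hZ, zeta0_eq hN hp hq hqp hc, ← hαdef, show q + 1 = N / α by rw [hαdef]; field_simp, hfdef]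
      field_simp
      ring
    by_contra hn
    push Not at hn
    have := mul_nonpos_of_nonpos_of_nonneg hn (show (0 : ℝ) ≤ 2 * t by linarith)
    linarith
  have hlim : Tendsto G (𝓝[>] 0) (𝓝 (6 * (1 - 0 / (N - 2)) + h - (N * zeta0 N p - α) ^ 2)) :=
    (((((g.qX_small hN hp hq).div_const (N - 2)).const_sub 1).const_mul 6).add_const h).sub
      ((((g.tendsto_pZeta_zero hN hp hq hqp hc).const_mul N).sub_const α).pow 2)
  have hpos : 0 < 6 * (1 - 0 / (N - 2)) + h - (N * zeta0 N p - α) ^ 2 := by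
    have hαN : α < N := div_lt_self hN0 (by linarith)
    have e : N * zeta0 N p - α = 2 * (N - α) / (N + 2) := by
      rw [zeta0_eq hN hp hq hqp hc, ← hαdef]
      have : N + 2 ≠ 0 := by linarith
      field_simp
      ring
    have h2 : (N * zeta0 N p - α) ^ 2 ≤ 2 ^ 2 := by
      rw [e]
      refine pow_le_pow_left₀ (div_nonneg (by linarith) (by linarith)) ?_ 2
      rw [div_le_iff₀ (by linarith)]
      linarith
    rw [zero_div]
    linarith
  obtain ⟨s, hs1, hs2⟩ := ((hlim.eventually (eventually_gt_nhds hpos)).and (Ioo_mem_nhdsGT hT)).exists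
  by_contra hn
  push Not at hn
  have hGT : G T < 0 := by simp only [G]; linarith
  have hlt : ∀ t ∈ Ioo s T, 0 < G t :=
    above_on (fun t ht => hd t (hs2.1.trans_le ht.1)) hs1.le fun t ht =>
      hsign t (hs2.1.trans_le ht.1) ht.2.le
  have h0 : 0 ≤ G T := ge_of_tendsto ((hd T hT).continuousAt.mono_left nhdsWithin_le_nhds)
    (mem_of_superset (Ioo_mem_nhdsLT hs2.2) fun t ht => (hlt t ht).le)
  linarith

end Ground

end

end Vale.Agent.P100.Orbit
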