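import Vale.Agent.P100.Orbit.Monotone

/-!
# P100: the pair continued to `T < 0`, up to the top ratio

For `T < 0` the quotient `η` stays above a barrier `1 + ε`, so `V / U^σ` grows at least like a
positive power of `U`: the top ratio is reached.
-/

namespace Vale.Agent.P100.Orbit

open MeasureTheory Set Filter Topology intervalIntegral

noncomputable section

variable {N p q a T R : ℝ} {U V : ℝ → ℝ}

theorem hasDerivAt_qX_of (hN : 2 < N) (hp : 0 < p) (hV : Continuous V) (hT : T ≠ 0) (hU : U T ≠ 0)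
    (hd : du N p V T ≠ 0) (hu : HasDerivAt U (-du N p V T) T) :
    HasDerivAt (qX N p U V) (qX N p U V T * (qX N p U V T + qZ N p V T - N + 2) / (2 * T)) T := by
  refine ((((hasDerivAt_id T).const_mul 2).mul (hasDerivAt_du hN hp hV hT)).div hu hU).congr_deriv ?_
  simp only [id_eq, mul_one, Pi.mul_apply]
  unfold qX qZ
  field_simp
  ring

theorem hasDerivAt_eta_of (hN : 2 < N) (hp : 0 < p) (hq : 0 < q) (hcU : Continuous U)
    (hcV : Continuous V) (hT : T ≠ 0) (hU : U T ≠ 0) (hV : V T ≠ 0) (hdu : du N p V T ≠ 0)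
    (hdv : du N q U T ≠ 0) (hu : HasDerivAt U (-du N p V T) T) (hv : HasDerivAt V (-du N q U T) T) :
    HasDerivAt (eta N p q U V) (eta N p q U V T * qphi N p q U V T / (2 * T)) T := by
  have h5 := (sig_pos hp hq).ne'
  refine ((hu.mul (hasDerivAt_du hN hq hcU hT)).div
    ((hv.mul (hasDerivAt_du hN hp hcV hT)).const_mul (sig p q))
    (mul_ne_zero h5 (mul_ne_zero hV hdu))).congr_deriv ?_
  simp only [Pi.mul_apply]
  unfold qphi qG eta qX qZ
  field_simp
  ring

namespace PosPair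

variable (hN : 2 < N) (hp : 0 < p) (hq : 0 < q) (o : PosPair N p q 1 a R U V) (hR : R < 0)
include hN hp hq o hR

omit hN hp hq in
theorem mem_uIcc_back (hT : T ∈ Icc R 0) : T ∈ uIcc 0 R := by rwa [uIcc_of_ge hR.le]

omit hq in
theorem back_du_u_pos (hT : T ∈ Icc R 0) : 0 < du N p V T :=
  du_pos hN hp o.sys.cont_v fun x hx =>
    o.pos_v x (uIcc_subset_uIcc left_mem_uIcc (o.mem_uIcc_back hR hT) hx)

omit hp in
theorem back_du_v_pos (hT : T ∈ Icc R 0) : 0 < du N q U T :=
  du_pos hN hq o.sys.cont_u fun x hx =>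
    o.pos_u x (uIcc_subset_uIcc left_mem_uIcc (o.mem_uIcc_back hR hT) hx)

omit hq in
theorem back_hasDerivAt_u (hT : T ∈ Ioo R 0) : HasDerivAt U (-du N p V T) T :=
  o.hasDerivAt_u hN hp (by rw [uIcc_of_ge hR.le]; exact Icc_mem_nhds hT.1 hT.2)

omit hp in
theorem back_hasDerivAt_v (hT : T ∈ Ioo R 0) : HasDerivAt V (-du N q U T) T :=
  o.swap.hasDerivAt_u hN hq (by rw [uIcc_of_ge hR.le]; exact Icc_mem_nhds hT.1 hT.2)

omit hq in
theorem back_antitone_u {S : ℝ} (hS : R ≤ S) (hST : S ≤ T) (hT : T ≤ 0) : U T ≤ U S := by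
  have := slope_le (f := U) (C := 0) hST o.sys.cont_u.continuousOn
    (fun x hx => o.back_hasDerivAt_u hN hp hR ⟨hS.trans_lt hx.1, hx.2.trans_le hT⟩)
    fun x hx => neg_nonpos.2 (o.back_du_u_pos hN hp hR ⟨hS.trans hx.1.le, hx.2.le.trans hT⟩).le
  linarith

omit hp in
theorem back_antitone_v {S : ℝ} (hS : R ≤ S) (hST : S ≤ T) (hT : T ≤ 0) : V T ≤ V S := by
  have := slope_le (f := V) (C := 0) hST o.sys.cont_v.continuousOn
    (fun x hx => o.back_hasDerivAt_v hN hq hR ⟨hS.trans_lt hx.1, hx.2.trans_le hT⟩)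
    fun x hx => neg_nonpos.2 (o.back_du_v_pos hN hq hR ⟨hS.trans hx.1.le, hx.2.le.trans hT⟩).le
  linarith

omit hp in
theorem back_du_u_le (hp : 0 < p) (hT : T ∈ Icc R 0) : du N p V T ≤ V T ^ p / N := by
  have h := ker_le (T := T) (B := V T ^ p) hN (continuous_pow_comp hp o.sys.cont_v) fun x hx => by
    rw [uIcc_of_ge hT.2] at hx
    exact Real.rpow_le_rpow (o.pos_v x (o.mem_uIcc_back hR ⟨hT.1.trans hx.1, hx.2⟩)).le
      (o.back_antitone_v hN hq hR hT.1 hx.1 hx.2) hp.le
  have e : (2 : ℝ) / N * V T ^ p = 2 * (V T ^ p / N) := by ring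
  unfold du
  linarith

omit hq in
theorem le_back_du_u (hq : 0 < q) (hT : T ∈ Icc R 0) : a ^ p / N ≤ du N p V T := by
  have h0 : V 0 = a := o.swap.u_zero
  have ha : 0 < a := h0 ▸ o.pos_v 0 left_mem_uIcc
  have h := le_ker (T := T) (B := a ^ p) hN (continuous_pow_comp hp o.sys.cont_v) fun x hx => by
    rw [uIcc_of_ge hT.2] at hx
    refine Real.rpow_le_rpow ha.le ?_ hp.le
    rw [← h0]
    exact o.back_antitone_v hN hq hR (hT.1.trans hx.1) hx.2 le_rfl
  have e : (2 : ℝ) / N * a ^ p = 2 * (a ^ p / N) := by ring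
  unfold du
  linarith

theorem le_back_du_v (hT : T ∈ Icc R 0) : 1 / N ≤ du N q U T := by
  have h := le_ker (T := T) (B := (1 : ℝ)) hN (continuous_pow_comp hq o.sys.cont_u) fun x hx => by
    rw [uIcc_of_ge hT.2] at hx
    refine Real.one_le_rpow ?_ hq.le
    rw [← o.u_zero]
    exact o.back_antitone_u hN hp hR (hT.1.trans hx.1) hx.2 le_rfl
  have e : (2 : ℝ) / N * 1 = 2 * (1 / N) := by ring
  unfold du
  linarith

theorem le_qZ_back (hT : T ∈ Icc R 0) : N ≤ qZ N p V T := by
  have h := o.back_du_u_le hN hq hR hp hT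
  have hN0 : 0 < N := by linarith
  unfold qZ
  rw [le_div_iff₀ (o.back_du_u_pos hN hp hR hT)]
  rw [le_div_iff₀ hN0] at h
  linarith

theorem relation_back (hc : N / (p + 1) + N / (q + 1) = N - 2) (hT : T ∈ Ico R 0) :
    eta N p q U V T * ((q + 1) * qX N p U V T + qZ N q U T - N) = N - qZ N p V T := by
  have hcont : Continuous fun x : ℝ => (-x) ^ (N / 2) * energy N p q U V x :=
    (continuous_neg.rpow_const fun _ => Or.inr (by linarith)).mul
      (continuous_energy hN hp hq o.sys.cont_u o.sys.cont_v)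
  have hd : ∀ x ∈ Ioo T 0, HasDerivAt (fun y : ℝ => (-y) ^ (N / 2) * energy N p q U V y) 0 x := by
    intro x hx
    have hn : uIcc 0 R ∈ 𝓝 x := by
      rw [uIcc_of_ge hR.le]; exact Icc_mem_nhds (hT.1.trans_lt hx.1) hx.2
    refine (((hasDerivAt_neg x).rpow_const (p := N / 2) (Or.inl (neg_pos.2 hx.2).ne')).mul
      (hasDerivAt_energy hN hp hq hc o hn hx.2.ne)).congr_deriv ?_
    have := hx.2.ne
    rw [Real.rpow_sub (neg_pos.2 hx.2), Real.rpow_one]
    field_simp
    ring
  obtain ⟨c, -, e⟩ := exists_hasDerivAt_eq_slope _ _ hT.2 hcont.continuousOn hd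
  have hE : energy N p q U V T = 0 := by
    have hT0 := hT.2.ne
    simp only [neg_zero, Real.zero_rpow (show N / 2 ≠ 0 by linarith), zero_mul, zero_sub] at e
    field_simp at e
    exact (mul_eq_zero.1 (by linarith : (-T) ^ (N / 2) * energy N p q U V T = 0)).resolve_left
      (Real.rpow_pos_of_pos (neg_pos.2 hT.2) _).ne'
  have hTI : T ∈ Icc R 0 := ⟨hT.1, hT.2.le⟩
  have h1 := o.pos_u T (o.mem_uIcc_back hR hTI)
  have h2 := o.pos_v T (o.mem_uIcc_back hR hTI)
  have h3 := o.back_du_u_pos hN hp hR hTI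
  have h4 := o.back_du_v_pos hN hq hR hTI
  unfold energy at hE
  unfold eta qX qZ sig du
  rw [Real.rpow_add_one h1.ne', Real.rpow_add_one h2.ne'] at hE
  unfold du at h3 h4
  generalize hK : ker N (fun x => V x ^ p) T = K at hE h3 ⊢
  generalize hL : ker N (fun x => U x ^ q) T = L at hE h4 ⊢
  have hK0 : K ≠ 0 := by linarith
  have hL0 : L ≠ 0 := by linarith
  field_simp at hE ⊢
  linear_combination hE

end PosPair

/-- The rescaled cross term: positive where the ratio decreases. -/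
def cross (N p q : ℝ) (U V : ℝ → ℝ) (T : ℝ) : ℝ :=
  U T * du N q U T - sig p q * (V T * du N p V T)

namespace PosPair

variable (hN : 2 < N) (hp : 0 < p) (hq : 0 < q) (o : PosPair N p q 1 a R U V) (hR : R < 0)
include hN hp hq o hR

theorem hasDerivAt_cross (hT : T ∈ Ioo R 0) :
    HasDerivAt (fun x => (-x) ^ (N / 2) * cross N p q U V x)
      ((-T) ^ (N / 2) * (-(1 - sig p q) * (du N p V T * du N q U T)
        + (U T ^ (q + 1) - sig p q * V T ^ (p + 1)) / (2 * T))) T := by
  have hTu := o.mem_uIcc_back hR ⟨hT.1.le, hT.2.le⟩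
  have h := (((o.back_hasDerivAt_u hN hp hR hT).mul (hasDerivAt_du hN hq o.sys.cont_u hT.2.ne)).sub
    (((o.back_hasDerivAt_v hN hq hR hT).mul (hasDerivAt_du hN hp o.sys.cont_v hT.2.ne)).const_mul
      (sig p q)))
  refine (((hasDerivAt_neg T).rpow_const (p := N / 2) (Or.inl (neg_pos.2 hT.2).ne')).mul h).congr_deriv ?_
  simp only [Pi.mul_apply, Pi.sub_apply]
  have := hT.2.ne
  rw [Real.rpow_sub (neg_pos.2 hT.2), Real.rpow_one, Real.rpow_add_one (o.pos_u T hTu).ne',
    Real.rpow_add_one (o.pos_v T hTu).ne']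
  field_simp
  ring

theorem continuous_cross : Continuous fun x => (-x) ^ (N / 2) * cross N p q U V x :=
  (continuous_neg.rpow_const fun _ => Or.inr (by linarith)).mul
    ((o.sys.cont_u.mul (continuous_du hN hq o.sys.cont_u)).sub
      (continuous_const.mul (o.sys.cont_v.mul (continuous_du hN hp o.sys.cont_v))))

theorem rate_le (hqp : q < p) (hx : T ∈ Icc R 0) (hg : gap p q U V T ≤ 0) :
    sig p q * V T ^ (p + 1) ≤ U T ^ (q + 1) ∧
      (1 - sig p q) * (a ^ p / N * (1 / N)) ≤ (1 - sig p q) * (du N p V T * du N q U T) := by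
  have hxu := o.mem_uIcc_back hR hx
  have hu := o.pos_u T hxu
  constructor
  · have h := Real.rpow_le_rpow (o.pos_v T hxu).le
      (show V T ≤ rtop p q * U T ^ sig p q by unfold gap at hg; linarith)
      (by linarith : (0 : ℝ) ≤ p + 1)
    rw [Real.mul_rpow (rtop_pos hp hq).le (Real.rpow_nonneg hu.le _), ← Real.rpow_mul hu.le,
      show sig p q * (p + 1) = q + 1 by unfold sig; field_simp] at h
    calc sig p q * V T ^ (p + 1) ≤ sig p q * (rtop p q ^ (p + 1) * U T ^ (q + 1)) :=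
          mul_le_mul_of_nonneg_left h (sig_pos hp hq).le
      _ = U T ^ (q + 1) := by rw [← mul_assoc, rtop_eq hp hq, one_mul]
  · refine mul_le_mul_of_nonneg_left ?_ (sub_pos.2 (sig_lt_one hp hqp)).le
    have h0 : V 0 = a := o.swap.u_zero
    have ha : 0 < a := h0 ▸ o.pos_v 0 left_mem_uIcc
    have hN0 : 0 < N := by linarith
    exact mul_le_mul (o.le_back_du_u hN hp hR hq hx) (o.le_back_du_v hN hp hq hR hx) (by positivity)
      (o.back_du_u_pos hN hp hR hx).le

theorem cross_lower (hqp : q < p) (hT : T ∈ Ico R 0) (hg : ∀ x ∈ Ioc T 0, gap p q U V x ≤ 0) :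
    (1 - sig p q) * (a ^ p / N * (1 / N)) * half N * (-T / 2) ≤ cross N p q U V T := by
  set c := (1 - sig p q) * (a ^ p / N * (1 / N))
  have hc : 0 < c := by
    have h0 : V 0 = a := o.swap.u_zero
    have := Real.rpow_pos_of_pos (h0 ▸ o.pos_v 0 left_mem_uIcc : 0 < a) p
    have : 0 < N := by linarith
    have := sub_pos.2 (sig_lt_one (q := q) hp hqp)
    positivity
  have hd : ∀ x ∈ Ioo T 0, (-x) ^ (N / 2) * (-(1 - sig p q) * (du N p V x * du N q U x)
        + (U x ^ (q + 1) - sig p q * V x ^ (p + 1)) / (2 * x)) ≤ -((-x) ^ (N / 2) * c) := by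
    intro x hx
    obtain ⟨h1, h2⟩ := o.rate_le hN hp hq hR hqp ⟨hT.1.trans hx.1.le, hx.2.le⟩ (hg x ⟨hx.1, hx.2.le⟩)
    have h3 : (U x ^ (q + 1) - sig p q * V x ^ (p + 1)) / (2 * x) ≤ 0 :=
      div_nonpos_of_nonneg_of_nonpos (by linarith) (by linarith [hx.2])
    rw [← mul_neg]
    exact mul_le_mul_of_nonneg_left (by linarith) (Real.rpow_nonneg (by linarith [hx.2]) _)
  have h1 := slope_le (f := fun x => (-x) ^ (N / 2) * cross N p q U V x) (C := 0)
    (show T / 2 ≤ 0 by linarith [hT.2]) (o.continuous_cross hN hp hq hR).continuousOn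
    (fun x hx => o.hasDerivAt_cross hN hp hq hR ⟨by linarith [hT.1, hT.2, hx.1], hx.2⟩)
    fun x hx => (hd x ⟨by linarith [hT.2, hx.1], hx.2⟩).trans
      (neg_nonpos.2 (mul_nonneg (Real.rpow_nonneg (by linarith [hx.2]) _) hc.le))
  have h2 := slope_le (f := fun x => (-x) ^ (N / 2) * cross N p q U V x)
    (C := -((-T / 2) ^ (N / 2) * c)) (show T ≤ T / 2 by linarith [hT.2])
    (o.continuous_cross hN hp hq hR).continuousOn
    (fun x hx => o.hasDerivAt_cross hN hp hq hR ⟨hT.1.trans_lt hx.1, by linarith [hT.2, hx.2]⟩)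
    fun x hx => (hd x ⟨hx.1, by linarith [hT.2, hx.2]⟩).trans (neg_le_neg (mul_le_mul_of_nonneg_right
      (Real.rpow_le_rpow (by linarith [hT.2]) (by linarith [hx.2]) (by linarith)) hc.le))
  simp only [neg_zero, Real.zero_rpow (show N / 2 ≠ 0 by linarith), zero_mul, zero_sub] at h1
  have hpow : (-T / 2) ^ (N / 2) = (-T) ^ (N / 2) * half N := by
    rw [half, ← Real.mul_rpow (by linarith [hT.2]) (by norm_num)]; ring_nf
  rw [hpow] at h2
  have hpos : 0 < (-T) ^ (N / 2) := Real.rpow_pos_of_pos (neg_pos.2 hT.2) _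
  refine le_of_mul_le_mul_left ?_ hpos
  linarith

theorem cross_pos (hqp : q < p) (hT : T ∈ Ico R 0) (hg : ∀ x ∈ Ioc T 0, gap p q U V x ≤ 0) :
    0 < cross N p q U V T := by
  refine lt_of_lt_of_le ?_ (o.cross_lower hN hp hq hR hqp hT hg)
  have h0 : V 0 = a := o.swap.u_zero
  have := Real.rpow_pos_of_pos (h0 ▸ o.pos_v 0 left_mem_uIcc : 0 < a) p
  have : 0 < N := by linarith
  have := sub_pos.2 (sig_lt_one (q := q) hp hqp)
  have := half_pos N
  have : 0 < -T / 2 := by linarith [hT.2]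
  positivity

theorem eta_eq_cross (hT : T ∈ Icc R 0) :
    eta N p q U V T = 1 + cross N p q U V T / (sig p q * (V T * du N p V T)) := by
  have h1 := sig_pos hp hq
  have h2 := o.pos_v T (o.mem_uIcc_back hR hT)
  have h3 := o.back_du_u_pos hN hp hR hT
  unfold eta cross
  field_simp
  ring

theorem hasDerivAt_log_ratio (hT : T ∈ Ioo R 0) :
    HasDerivAt (fun x => Real.log (V x) - sig p q * Real.log (U x))
      (-(sig p q * (du N p V T / U T) * (eta N p q U V T - 1))) T := by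
  have hTu := o.mem_uIcc_back hR ⟨hT.1.le, hT.2.le⟩
  have h1 := (o.pos_u T hTu).ne'
  have h2 := (o.pos_v T hTu).ne'
  have h3 := (sig_pos hp hq).ne'
  have h4 := (o.back_du_u_pos hN hp hR ⟨hT.1.le, hT.2.le⟩).ne'
  refine (((o.back_hasDerivAt_v hN hq hR hT).log h2).sub
    (((o.back_hasDerivAt_u hN hp hR hT).log h1).const_mul (sig p q))).congr_deriv ?_
  unfold eta
  field_simp
  ring

end PosPair

theorem lt_of_barrier {f : ℝ → ℝ} {R T₀ c : ℝ} (hf : ContinuousOn f (Icc R T₀)) (h0 : f T₀ < c)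
    (hd : ∀ x ∈ Ico R T₀, f x = c → ∃ᶠ y in 𝓝[>] x, c ≤ f y) : ∀ x ∈ Icc R T₀, f x < c := by
  intro x hx
  by_contra hbad
  push Not at hbad
  set S := Icc R T₀ ∩ f ⁻¹' Ici c
  have hSb : BddAbove S := ⟨T₀, fun y hy => hy.1.2⟩
  obtain ⟨hI, hv⟩ : sSup S ∈ S :=
    (hf.preimage_isClosed_of_isClosed isClosed_Icc isClosed_Ici).csSup_mem ⟨x, hx, hbad⟩ hSb
  set T₃ := sSup S
  have hlt : T₃ < T₀ := hI.2.lt_of_ne fun e => by rw [e] at hv; exact not_lt.2 hv h0
  have haft : ∀ y ∈ Ioc T₃ T₀, f y < c := fun y hy => not_le.1 fun h =>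
    not_le.2 hy.1 (le_csSup hSb ⟨⟨hI.1.trans hy.1.le, hy.2⟩, h⟩)
  have he : f T₃ = c := by
    refine le_antisymm (le_of_tendsto ((hf.continuousWithinAt hI).mono_left
      (nhdsWithin_le_of_mem ?_)) (mem_of_superset (Ioo_mem_nhdsGT hlt) fun y hy =>
        (haft y ⟨hy.1, hy.2.le⟩).le)) hv
    exact mem_of_superset (Ioo_mem_nhdsGT hlt) fun y hy => ⟨hI.1.trans hy.1.le, hy.2.le⟩
  obtain ⟨y, hy1, hy2⟩ := ((hd T₃ ⟨hI.1, hlt⟩ he).and_eventually (Ioo_mem_nhdsGT hlt)).exists
  exact not_le.2 (haft y ⟨hy2.1, hy2.2.le⟩) hy1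

theorem continuousWithinAt_deriv_pos {f f' : ℝ → ℝ} {R x : ℝ} (hx : R ≤ x)
    (hf : ContinuousOn f (Ico R 0)) (hx0 : x < 0) (hd : ∀ y ∈ Ioo x 0, HasDerivAt f (f' y) y)
    (hev : ∀ᶠ y in 𝓝[>] x, 0 < f' y) : ∃ᶠ y in 𝓝[>] x, f x ≤ f y := by
  obtain ⟨b, hb, hsub⟩ := mem_nhdsGT_iff_exists_Ioo_subset.1 (hev.and (Ioo_mem_nhdsGT hx0))
  refine Eventually.frequently ?_
  filter_upwards [Ioo_mem_nhdsGT hb] with y hy
  have hy0 : y < 0 := (hsub hy).2.2
  have := le_slope (f := f) (C := 0) hy.1.le (hf.mono fun z hz => ⟨hx.trans hz.1, hz.2.trans_lt hy0⟩)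
    (fun z hz => hd z ⟨hz.1, hz.2.trans hy0⟩) fun z hz => (hsub ⟨hz.1, hz.2.trans hy.2⟩).1.le
  linarith

/-- While the ratio stays below the top, `U` stays bounded. -/
theorem backward_bound (hN : 2 < N) (hp : 0 < p) (hq : 0 < q) (hqp : q < p) (ha : 0 < a)
    (hc : N / (p + 1) + N / (q + 1) = N - 2) :
    ∃ B, ∀ (R : ℝ) (U V : ℝ → ℝ), R < 0 → PosPair N p q 1 a R U V →
      (∀ x ∈ Icc R 0, gap p q U V x ≤ 0) → U R ≤ B := by
  have hN0 : 0 < N := by linarith
  have hs := sig_pos hp hq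
  have hk : 0 < 1 - sig p q := sub_pos.2 (sig_lt_one hp hqp)
  have hl := rtop_pos hp hq
  set Vm := rtop p q * (2 : ℝ) ^ sig p q
  have hVm : 0 < Vm := by positivity
  set s₀ := N / Vm ^ p
  have hs₀ : 0 < s₀ := by positivity
  set x₀ := min (s₀ * (a ^ p / N)) 1 / 2
  have hx₀ : 0 < x₀ := by positivity
  set ε₁ := (1 - sig p q) * (a ^ p / N * (1 / N)) * half N * (s₀ / 2) / (sig p q * (Vm * (Vm ^ p / N)))
  have hε₁ : 0 < ε₁ := by have := half_pos N; positivity
  set CW := 2 * N / x₀ + (q + 1)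
  have hCW : 0 < CW := by positivity
  set ε := min (ε₁ / 2) ((1 - sig p q) / (2 * (CW + sig p q)))
  have hε : 0 < ε := by positivity
  refine ⟨max 2 (2 * Real.exp ((Real.log (rtop p q) - Real.log a) / (sig p q * ε))),
    fun R U V hR o hg => ?_⟩
  rcases le_or_gt (U R) 2 with h2 | h2
  · exact h2.trans (le_max_left _ _)
  obtain ⟨T₀, hT₀, hU₀⟩ := intermediate_value_Ioo' hR.le o.sys.cont_u.continuousOn
    (show (2 : ℝ) ∈ Ioo (U 0) (U R) from ⟨by rw [o.u_zero]; norm_num, h2⟩)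
  have hmem : ∀ x ∈ Icc R T₀, x ∈ Icc R 0 := fun x hx => ⟨hx.1, hx.2.trans hT₀.2.le⟩
  have hV₀ : ∀ x ∈ Icc T₀ 0, V x ≤ Vm := fun x hx => by
    have h := hg x ⟨hT₀.1.le.trans hx.1, hx.2⟩
    have hu := o.pos_u x (o.mem_uIcc_back hR ⟨hT₀.1.le.trans hx.1, hx.2⟩)
    have hle : U x ≤ 2 := hU₀ ▸ o.back_antitone_u hN hp hR hT₀.1.le hx.1 hx.2
    have := mul_le_mul_of_nonneg_left (Real.rpow_le_rpow hu.le hle hs.le) hl.le
    unfold gap at h
    linarith
  have hduV : ∀ x ∈ Icc T₀ 0, du N p V x ≤ Vm ^ p / N := fun x hx => by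
    have hxR : x ∈ Icc R 0 := ⟨hT₀.1.le.trans hx.1, hx.2⟩
    refine (o.back_du_u_le hN hq hR hp hxR).trans ?_
    gcongr
    · exact (o.pos_v x (o.mem_uIcc_back hR hxR)).le
    · exact hV₀ x hx
  have hsT : s₀ ≤ -T₀ := by
    have := le_slope (f := U) (C := -(Vm ^ p / N)) hT₀.2.le o.sys.cont_u.continuousOn
      (fun x hx => o.back_hasDerivAt_u hN hp hR ⟨hT₀.1.trans hx.1, hx.2⟩)
      fun x hx => neg_le_neg (hduV x ⟨hx.1.le, hx.2.le⟩)
    rw [o.u_zero, hU₀] at this
    rw [div_le_iff₀ (Real.rpow_pos_of_pos hVm p)]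
    have e : N * (Vm ^ p / N * (0 - T₀)) = -T₀ * Vm ^ p := by field_simp; ring
    have := mul_le_mul_of_nonneg_left (show 1 ≤ Vm ^ p / N * (0 - T₀) by linarith) hN0.le
    linarith
  have hcontX : ContinuousOn (qX N p U V) (Icc R 0) :=
    ((continuous_const.mul continuous_id).mul (continuous_du hN hp o.sys.cont_v)).continuousOn.div
      o.sys.cont_u.continuousOn fun x hx => (o.pos_u x (o.mem_uIcc_back hR hx)).ne'
  have hcontE : ContinuousOn (eta N p q U V) (Icc R 0) :=
    (o.sys.cont_u.mul (continuous_du hN hq o.sys.cont_u)).continuousOn.div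
      (continuous_const.mul (o.sys.cont_v.mul (continuous_du hN hp o.sys.cont_v))).continuousOn
      fun x hx => (mul_pos hs (mul_pos (o.pos_v x (o.mem_uIcc_back hR hx))
        (o.back_du_u_pos hN hp hR hx))).ne'
  have hcontZ : ∀ {r : ℝ}, 0 < r → ∀ {W : ℝ → ℝ}, Continuous W → (∀ x ∈ Icc R 0, 0 < du N r W x) →
      ContinuousOn (qZ N r W) (Icc R 0) := fun hr _ hW h =>
    (continuous_pow_comp hr hW).continuousOn.div (continuous_du hN hr hW).continuousOn
      fun x hx => (h x hx).ne'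
  -- X is bounded away from 0
  have hX : ∀ x ∈ Icc R T₀, qX N p U V x < -x₀ := by
    refine lt_of_barrier (hcontX.mono hmem) ?_ fun x hx hxe => ?_
    · have h := o.le_back_du_u hN hp hR hq ⟨hT₀.1.le, hT₀.2.le⟩
      unfold qX
      rw [hU₀]
      have := mul_le_mul hsT h (by positivity) (by linarith [hT₀.2])
      have : x₀ ≤ s₀ * (a ^ p / N) / 2 := div_le_div_of_nonneg_right (min_le_left _ _) (by norm_num)
      have : 0 < s₀ * (a ^ p / N) := by positivity
      linarith
    · have hx0 : x < 0 := hx.2.trans hT₀.2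
      have hxR : x ∈ Icc R 0 := ⟨hx.1, hx0.le⟩
      have hd : ∀ y ∈ Ioo x 0, HasDerivAt (qX N p U V)
          (qX N p U V y * (qX N p U V y + qZ N p V y - N + 2) / (2 * y)) y := fun y hy =>
        hasDerivAt_qX_of hN hp o.sys.cont_v hy.2.ne
          (o.pos_u y (o.mem_uIcc_back hR ⟨hx.1.trans hy.1.le, hy.2.le⟩)).ne'
          (o.back_du_u_pos hN hp hR ⟨hx.1.trans hy.1.le, hy.2.le⟩).ne'
          (o.back_hasDerivAt_u hN hp hR ⟨hx.1.trans_lt hy.1, hy.2⟩)
      have hpos : 0 < qX N p U V x * (qX N p U V x + qZ N p V x - N + 2) / (2 * x) := by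
        have := o.le_qZ_back hN hp hq hR hxR
        have : x₀ ≤ 1 / 2 := div_le_div_of_nonneg_right (min_le_right _ _) (by norm_num)
        refine div_pos_of_neg_of_neg (mul_neg_of_neg_of_pos ?_ ?_) (by linarith) <;>
          rw [hxe] <;> linarith
      have hcd : ContinuousWithinAt (fun y => qX N p U V y * (qX N p U V y + qZ N p V y - N + 2) / (2 * y))
          (Icc R 0) x :=
        ((hcontX x hxR).mul ((((hcontX x hxR).add (hcontZ hp o.sys.cont_v
          (fun y hy => o.back_du_u_pos hN hp hR hy) x hxR)).sub continuousWithinAt_const).add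
            continuousWithinAt_const)).div
          (continuousWithinAt_const.mul continuousWithinAt_id)
            (show (2 : ℝ) * x ≠ 0 from mul_ne_zero two_ne_zero hx0.ne)
      have hev := (hcd.mono_left (nhdsWithin_le_of_mem (mem_of_superset (Ioo_mem_nhdsGT hx0)
        fun y hy => ⟨hx.1.trans hy.1.le, hy.2.le⟩))).eventually (eventually_gt_nhds hpos)
      exact (continuousWithinAt_deriv_pos hx.1 (hcontX.mono Ico_subset_Icc_self) hx0 hd hev).mono
        fun y hy => hxe ▸ hy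
  -- η stays above 1 + ε
  have hη : ∀ x ∈ Icc R T₀, -eta N p q U V x < -(1 + ε) := by
    refine lt_of_barrier (hcontE.mono hmem).neg ?_ fun x hx hxe => ?_
    · have hTI : T₀ ∈ Icc R 0 := ⟨hT₀.1.le, hT₀.2.le⟩
      rw [o.eta_eq_cross hN hp hq hR hTI]
      have hv := o.pos_v T₀ (o.mem_uIcc_back hR hTI)
      have hd := o.back_du_u_pos hN hp hR hTI
      have h1 := o.cross_lower hN hp hq hR hqp ⟨hT₀.1.le, hT₀.2⟩ fun y hy => hg y ⟨hT₀.1.le.trans hy.1.le, hy.2⟩
      have h2 : ε₁ ≤ cross N p q U V T₀ / (sig p q * (V T₀ * du N p V T₀)) := by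
        refine div_le_div₀ (o.cross_pos hN hp hq hR hqp ⟨hT₀.1.le, hT₀.2⟩ fun y hy =>
          hg y ⟨hT₀.1.le.trans hy.1.le, hy.2⟩).le (le_trans ?_ h1) (by positivity) ?_
        · have := half_pos N
          gcongr
        · gcongr
          · exact hV₀ T₀ ⟨le_rfl, hT₀.2.le⟩
          · exact hduV T₀ ⟨le_rfl, hT₀.2.le⟩
      have : ε ≤ ε₁ / 2 := min_le_left _ _
      linarith
    · have hx0 : x < 0 := hx.2.trans hT₀.2
      have hxR : x ∈ Icc R 0 := ⟨hx.1, hx0.le⟩
      have he : eta N p q U V x = 1 + ε := neg_injective hxe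
      have hu := o.pos_u x (o.mem_uIcc_back hR hxR)
      have hv := o.pos_v x (o.mem_uIcc_back hR hxR)
      have hdu := o.back_du_u_pos hN hp hR hxR
      have hdv := o.back_du_v_pos hN hq hR hxR
      have hzw : qZ N p V x ≤ (1 + ε) * qZ N q U x := by
        have h := (o.rate_le hN hp hq hR hqp hxR (hg x hxR)).1
        rw [Real.rpow_add_one hu.ne', Real.rpow_add_one hv.ne'] at h
        rw [← he]
        unfold qZ eta
        rw [show U x * du N q U x / (sig p q * (V x * du N p V x)) * (U x ^ q / du N q U x)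
          = U x ^ q * U x / (sig p q * V x) / du N p V x by field_simp]
        refine div_le_div_of_nonneg_right ?_ hdu.le
        rw [le_div_iff₀ (by positivity)]
        linarith
      have hrel := o.relation_back hN hp hq hR hc ⟨hx.1, hx0⟩
      rw [he] at hrel
      have hXx : qX N p U V x < -x₀ := hX x ⟨hx.1, hx.2.le⟩
      have hW : qZ N q U x ≤ CW * (-qX N p U V x) := by
        have hZ := o.le_qZ_back hN hp hq hR hxR
        have h1 : (1 + ε) * ((q + 1) * qX N p U V x + qZ N q U x - N) ≤ 0 := by rw [hrel]; linarith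
        have h2 : qZ N q U x ≤ N + (q + 1) * (-qX N p U V x) := by
          have := nonpos_of_mul_nonpos_right h1 (by linarith)
          linarith
        have h3 : N ≤ 2 * N / x₀ * (-qX N p U V x) := by
          rw [div_mul_eq_mul_div, le_div_iff₀ hx₀]
          have := mul_le_mul_of_nonneg_left hXx.le (show (0 : ℝ) ≤ N by linarith)
          nlinarith
        refine h2.trans ?_
        simp only [CW]
        linarith
      have hpos : 0 < qphi N p q U V x := by
        unfold qphi qG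
        rw [he]
        have hεk : ε * (CW + sig p q) < 1 - sig p q := by
          have := mul_le_mul_of_nonneg_right (min_le_right (ε₁ / 2) ((1 - sig p q) / (2 * (CW + sig p q))))
            (show 0 ≤ CW + sig p q by positivity)
          rw [show (1 - sig p q) / (2 * (CW + sig p q)) * (CW + sig p q) = (1 - sig p q) / 2 by
            field_simp] at this
          linarith
        have h1 := mul_le_mul_of_nonneg_left hW hε.le
        have h2 := mul_lt_mul_of_pos_right hεk (show 0 < -qX N p U V x by linarith)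
        linarith
      have hcp : ContinuousWithinAt (fun y => -(eta N p q U V y * qphi N p q U V y / (2 * y))) (Icc R 0) x := by
        have cX := hcontX x hxR
        have cE := hcontE x hxR
        have cW := hcontZ hq o.sys.cont_u (fun y hy => o.back_du_v_pos hN hq hR hy) x hxR
        have cZ := hcontZ hp o.sys.cont_v (fun y hy => o.back_du_u_pos hN hp hR hy) x hxR
        exact ((cE.mul (((cW.sub cZ).sub (continuousWithinAt_const.mul cX)).add
          ((continuousWithinAt_const.mul cX).mul (cE.sub continuousWithinAt_const)))).div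
            (continuousWithinAt_const.mul continuousWithinAt_id)
            (show (2 : ℝ) * x ≠ 0 from mul_ne_zero two_ne_zero hx0.ne)).neg
      have hev := (hcp.mono_left (nhdsWithin_le_of_mem (mem_of_superset (Ioo_mem_nhdsGT hx0)
        fun y hy => ⟨hx.1.trans hy.1.le, hy.2.le⟩))).eventually
          (eventually_gt_nhds (neg_pos.2 (div_neg_of_pos_of_neg (mul_pos (he ▸ by linarith) hpos)
            (by linarith))))
      refine (continuousWithinAt_deriv_pos hx.1 ((hcontE.mono Ico_subset_Icc_self).neg) hx0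
        (f' := fun y => -(eta N p q U V y * qphi N p q U V y / (2 * y))) (fun y hy => ?_) hev).mono
        fun y hy => hxe ▸ hy
      have hyR : y ∈ Icc R 0 := ⟨hx.1.trans hy.1.le, hy.2.le⟩
      exact (hasDerivAt_eta_of hN hp hq o.sys.cont_u o.sys.cont_v hy.2.ne
        (o.pos_u y (o.mem_uIcc_back hR hyR)).ne' (o.pos_v y (o.mem_uIcc_back hR hyR)).ne'
        (o.back_du_u_pos hN hp hR hyR).ne' (o.back_du_v_pos hN hq hR hyR).ne'
        (o.back_hasDerivAt_u hN hp hR ⟨hx.1.trans_lt hy.1, hy.2⟩)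
        (o.back_hasDerivAt_v hN hq hR ⟨hx.1.trans_lt hy.1, hy.2⟩)).neg
  -- log r grows like ε σ log U
  let f : ℝ → ℝ := fun x => Real.log (V x) - sig p q * Real.log (U x)
  have hcf : ContinuousOn f (Icc R 0) :=
    (o.sys.cont_v.continuousOn.log fun x hx => (o.pos_v x (o.mem_uIcc_back hR hx)).ne').sub
      (continuousOn_const.mul (o.sys.cont_u.continuousOn.log fun x hx =>
        (o.pos_u x (o.mem_uIcc_back hR hx)).ne'))
  have hcl : ContinuousOn (fun x => Real.log (U x)) (Icc R 0) :=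
    o.sys.cont_u.continuousOn.log fun x hx => (o.pos_u x (o.mem_uIcc_back hR hx)).ne'
  have hlow : f 0 ≤ f T₀ := by
    have := slope_le (f := f) (C := 0) hT₀.2.le (hcf.mono (Icc_subset_Icc hT₀.1.le le_rfl))
      (fun x hx => o.hasDerivAt_log_ratio hN hp hq hR ⟨hT₀.1.trans hx.1, hx.2⟩) fun x hx => by
        have hxI : x ∈ Icc R 0 := ⟨hT₀.1.le.trans hx.1.le, hx.2.le⟩
        have h1 := o.pos_u x (o.mem_uIcc_back hR hxI)
        have h2 := o.pos_v x (o.mem_uIcc_back hR hxI)
        have h3 := o.back_du_u_pos hN hp hR hxI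
        have h4 := o.cross_pos hN hp hq hR hqp ⟨hxI.1, hx.2⟩ fun y hy => hg y ⟨hxI.1.trans hy.1.le, hy.2⟩
        rw [o.eta_eq_cross hN hp hq hR hxI, add_sub_cancel_left]
        exact neg_nonpos.2 (by positivity)
    linarith
  have hgrow : f T₀ + sig p q * ε * (Real.log (U R) - Real.log 2) ≤ f R := by
    have := slope_le (f := fun x => f x - sig p q * ε * Real.log (U x)) (C := 0) hT₀.1.le
      ((hcf.sub (continuousOn_const.mul hcl)).mono hmem)
      (fun x hx => (o.hasDerivAt_log_ratio hN hp hq hR ⟨hx.1, hx.2.trans hT₀.2⟩).sub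
        (((o.back_hasDerivAt_u hN hp hR ⟨hx.1, hx.2.trans hT₀.2⟩).log
          (o.pos_u x (o.mem_uIcc_back hR ⟨hx.1.le, (hx.2.trans hT₀.2).le⟩)).ne').const_mul _))
      fun x hx => by
        have hxI : x ∈ Icc R 0 := ⟨hx.1.le, (hx.2.trans hT₀.2).le⟩
        have h := hη x ⟨hx.1.le, hx.2.le⟩
        have h5 : 0 ≤ sig p q * (du N p V x / U x) := by
          have := o.pos_u x (o.mem_uIcc_back hR hxI)
          have := o.back_du_u_pos hN hp hR hxI
          positivity
        have e : -(sig p q * (du N p V x / U x) * (eta N p q U V x - 1))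
            - sig p q * ε * (-du N p V x / U x)
            = -(sig p q * (du N p V x / U x) * (eta N p q U V x - 1 - ε)) := by ring
        rw [e]
        exact neg_nonpos.2 (mul_nonneg h5 (by linarith))
    rw [hU₀] at this
    linarith
  have hRI : R ∈ Icc R 0 := ⟨le_rfl, hR.le⟩
  have hu := o.pos_u R (o.mem_uIcc_back hR hRI)
  have hfR : f R ≤ Real.log (rtop p q) := by
    have h := hg R hRI
    unfold gap at h
    have h1 := Real.log_le_log (o.pos_v R (o.mem_uIcc_back hR hRI))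
      (show V R ≤ rtop p q * U R ^ sig p q by linarith)
    rw [Real.log_mul hl.ne' (Real.rpow_pos_of_pos hu _).ne', Real.log_rpow hu] at h1
    show Real.log (V R) - sig p q * Real.log (U R) ≤ _
    linarith
  have hf0 : f 0 = Real.log a := by
    show Real.log (V 0) - sig p q * Real.log (U 0) = _
    rw [show V 0 = a from o.swap.u_zero, o.u_zero, Real.log_one, mul_zero, sub_zero]
  refine le_trans ?_ (le_max_right _ _)
  rw [← Real.log_le_log_iff hu (by positivity), Real.log_mul (by norm_num) (Real.exp_pos _).ne',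
    Real.log_exp, ← sub_le_iff_le_add', le_div_iff₀ (mul_pos hs hε)]
  linarith

/-- Continuation to `T < 0` until the ratio first meets the top value, and a little beyond. -/
theorem exists_backward (hN : 2 < N) (hp : 0 < p) (hq : 0 < q) (hqp : q < p)
    (hc : N / (p + 1) + N / (q + 1) = N - 2) (ha : 0 < a) (hat : a < rtop p q) :
    ∃ (R₁ R : ℝ) (U V : ℝ → ℝ), R₁ < R ∧ R < 0 ∧ PosPair N p q 1 a R₁ U V ∧
      gap p q U V R = 0 ∧ (∀ x ∈ Ioc R 0, gap p q U V x < 0) ∧
      ∀ x ∈ Ico R 0, 1 < eta N p q U V x := by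
  obtain ⟨B, hB⟩ := backward_bound hN hp hq hqp ha hc
  have hN0 : 0 < N := by linarith
  have hs := sig_pos hp hq
  have hl := rtop_pos hp hq
  have hap : 0 < a ^ p / N := by positivity
  set M := max B 1 + 1
  have hM : 1 < M := by linarith [le_max_right B 1]
  set C := max (max a M) (rtop p q * M ^ sig p q) + 1
  have hMC : M < C := lt_add_of_le_of_pos ((le_max_right _ _).trans (le_max_left _ _)) one_pos
  have haC : a < C := lt_add_of_le_of_pos ((le_max_left _ _).trans (le_max_left _ _)) one_pos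
  have hVC : rtop p q * M ^ sig p q < C := lt_add_of_le_of_pos (le_max_right _ _) one_pos
  set δ := min 1 a
  have hδ : 0 < δ := lt_min one_pos ha
  have hδC : δ ≤ C := (min_le_right _ _).trans haC.le
  have hgp := (nice_clip hp hδ hδC).continuous
  have hgq := (nice_clip hq hδ hδC).continuous
  obtain ⟨U, V, s⟩ := exists_trunc hN hp hq hδ hδC 1 a
  have hU0 : U 0 = 1 := by simpa using s.eq_u 0
  have hV0 : V 0 = a := by simpa using s.eq_v 0
  have hUlow : ∀ x ≤ 0, 1 ≤ U x := fun x hx =>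
    hU0 ▸ s.antitoneOn_u hN hgp (clip_nonneg hδ.le hδC) hx
  have hVlow : ∀ x ≤ 0, a ≤ V x := fun x hx =>
    hV0 ▸ s.swap.antitoneOn_u hN hgq (clip_nonneg hδ.le hδC) hx
  set S := (M - 1) / (a ^ p / N)
  have hS : 0 < S := div_pos (by linarith) hap
  have hUS : M ≤ U (-S) := by
    have hcl : Continuous fun x => clip δ C p (V x) := hgp.comp s.cont_v
    have := slope_le (f := U) (C := -(a ^ p / N)) (neg_nonpos.2 hS.le) s.cont_u.continuousOn
      (fun x _ => s.hasDerivAt_u hN hgp x) fun x hx => by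
        have h := le_ker (T := x) (B := a ^ p) hN hcl fun y hy => by
          rw [uIcc_of_ge hx.2.le] at hy
          exact le_clip hp.le ha.le haC.le (hVlow y hy.2)
        have e : (2 : ℝ) / N * a ^ p = 2 * (a ^ p / N) := by ring
        linarith
    rw [hU0] at this
    have e : a ^ p / N * (0 - -S) = M - 1 := by
      simp only [S, zero_sub, neg_neg]; field_simp
    linarith
  let K := Icc (-S) 0 ∩ {x | M ≤ U x ∨ 0 ≤ gap p q U V x}
  have hgc : Continuous (gap p q U V) :=
    s.cont_v.sub (continuous_const.mul (continuous_pow_comp hs s.cont_u))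
  have hKc : IsClosed K := isClosed_Icc.inter
    ((isClosed_le continuous_const s.cont_u).union (isClosed_le continuous_const hgc))
  have hKb : BddAbove K := ⟨0, fun x hx => hx.1.2⟩
  obtain ⟨hI, hv⟩ : sSup K ∈ K :=
    hKc.csSup_mem ⟨-S, ⟨le_rfl, neg_nonpos.2 hS.le⟩, Or.inl hUS⟩ hKb
  set R := sSup K
  have hg0 : gap p q U V 0 < 0 := by rw [gap, hU0, hV0, Real.one_rpow, mul_one]; linarith
  have hR : R < 0 := hI.2.lt_of_ne fun e => by
    rw [e] at hv
    rcases hv with h | h <;> linarith [hU0]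
  have haft : ∀ x ∈ Ioc R 0, U x < M ∧ gap p q U V x < 0 := fun x hx => by
    have h : ¬ (M ≤ U x ∨ 0 ≤ gap p q U V x) := fun h =>
      not_le.2 hx.1 (le_csSup hKb ⟨⟨hI.1.trans hx.1.le, hx.2⟩, h⟩)
    push Not at h
    exact h
  have hIoo := Ioo_mem_nhdsGT hR
  have hUR : U R ≤ M := le_of_tendsto ((s.cont_u.tendsto R).mono_left nhdsWithin_le_nhds)
    (mem_of_superset hIoo fun x hx => (haft x ⟨hx.1, hx.2.le⟩).1.le)
  have hgR : gap p q U V R ≤ 0 := le_of_tendsto ((hgc.tendsto R).mono_left nhdsWithin_le_nhds)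
    (mem_of_superset hIoo fun x hx => (haft x ⟨hx.1, hx.2.le⟩).2.le)
  have hg : ∀ x ∈ Icc R 0, gap p q U V x ≤ 0 ∧ U x ≤ M := fun x hx => by
    rcases hx.1.eq_or_lt with rfl | h
    · exact ⟨hgR, hUR⟩
    · exact ⟨(haft x ⟨h, hx.2⟩).2.le, (haft x ⟨h, hx.2⟩).1.le⟩
  have hVR : V R < C := by
    have := mul_le_mul_of_nonneg_left
      (Real.rpow_le_rpow (zero_le_one.trans (hUlow R hR.le)) hUR hs.le) hl.le
    unfold gap at hgR
    linarith
  obtain ⟨R₁, hR₁, hR₁b⟩ : ∃ R₁ < R, U R₁ < C ∧ V R₁ < C := by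
    obtain ⟨l, hl', hsub⟩ := mem_nhdsLT_iff_exists_Ioo_subset.1
      ((((s.cont_u.tendsto R).eventually (eventually_lt_nhds (hUR.trans_lt hMC))).and
        ((s.cont_v.tendsto R).eventually (eventually_lt_nhds hVR))).filter_mono nhdsWithin_le_nhds)
    obtain ⟨x, hx1, hx2⟩ := exists_between (show l < R from hl')
    exact ⟨x, hx2, hsub ⟨hx1, hx2⟩⟩
  have hR₁0 : R₁ < 0 := hR₁.trans hR
  have o : PosPair N p q 1 a R₁ U V := by
    refine ⟨(s.on R₁).congr (fun x hx => ?_) (fun x hx => ?_), fun x hx => ?_, fun x hx => ?_⟩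
    all_goals rw [uIcc_of_ge hR₁0.le] at hx
    · exact clip_eq ⟨(min_le_right _ _).trans (hVlow x hx.2),
        (s.swap.antitoneOn_u hN hgq (clip_nonneg hδ.le hδC) hx.1).trans hR₁b.2.le⟩
    · exact clip_eq ⟨(min_le_left _ _).trans (hUlow x hx.2),
        (s.antitoneOn_u hN hgp (clip_nonneg hδ.le hδC) hx.1).trans hR₁b.1.le⟩
    · exact one_pos.trans_le (hUlow x hx.2)
    · exact ha.trans_le (hVlow x hx.2)
  have hU' := hB R U V hR (o.mono (by rw [uIcc_of_ge hR₁0.le]; exact ⟨hR₁.le, hR.le⟩))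
    fun x hx => (hg x hx).1
  refine ⟨R₁, R, U, V, hR₁, hR, o, le_antisymm hgR ?_, fun x hx => (haft x hx).2, fun x hx => ?_⟩
  · rcases hv with h | h
    · linarith [le_max_left B 1]
    · exact h
  · have hxI : x ∈ Icc R₁ 0 := ⟨hR₁.le.trans hx.1, hx.2.le⟩
    rw [o.eta_eq_cross hN hp hq hR₁0 hxI, lt_add_iff_pos_right]
    exact div_pos (o.cross_pos hN hp hq hR₁0 hqp ⟨hxI.1, hx.2⟩ fun y hy =>
      (hg y ⟨hx.1.trans hy.1.le, hy.2⟩).1)
      (mul_pos hs (mul_pos (o.pos_v x (o.mem_uIcc_back hR₁0 hxI)) (o.back_du_u_pos hN hp hR₁0 hxI)))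

end

end Vale.Agent.P100.Orbit
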