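import Vale.Agent.P100.Orbit.Picard

/-!
# P100: positive radial orbits, truncated sources, and the first integral
-/

namespace Vale.Agent.P100.Orbit

open MeasureTheory Set Filter Topology intervalIntegral

noncomputable section

/-- The power `x ^ p` of the value clipped to `[δ, M]`. -/
def clip (δ M p x : ℝ) : ℝ := (min (max x δ) M) ^ p

variable {N p q δ M u₀ v₀ R : ℝ} {U V : ℝ → ℝ} {g h : ℝ → ℝ}

theorem clip_arg_mem (hδM : δ ≤ M) (x : ℝ) : min (max x δ) M ∈ Icc δ M :=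
  ⟨le_min (le_max_right _ _) hδM, min_le_right _ _⟩

theorem clip_nonneg (hδ : 0 ≤ δ) (hδM : δ ≤ M) (x : ℝ) : 0 ≤ clip δ M p x :=
  Real.rpow_nonneg (hδ.trans (clip_arg_mem hδM x).1) _

theorem clip_eq {x : ℝ} (hx : x ∈ Icc δ M) : clip δ M p x = x ^ p := by
  rw [clip, max_eq_left hx.1, min_eq_left hx.2]

theorem clip_le {x B : ℝ} (hp : 0 ≤ p) (hδ : 0 ≤ δ) (hδM : δ ≤ M) (hx : x ≤ B) (hB : δ ≤ B) :
    clip δ M p x ≤ B ^ p :=
  Real.rpow_le_rpow (hδ.trans (clip_arg_mem hδM x).1) ((min_le_left _ _).trans (max_le hx hB)) hp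

theorem le_clip {x m : ℝ} (hp : 0 ≤ p) (hm : 0 ≤ m) (hmM : m ≤ M) (hx : m ≤ x) :
    m ^ p ≤ clip δ M p x :=
  Real.rpow_le_rpow hm (le_min (hx.trans (le_max_left _ _)) hmM) hp

theorem nice_clip (hp : 0 < p) (hδ : 0 < δ) (hδM : δ ≤ M) :
    Nice (clip δ M p) (p * (δ ^ (p - 1) + M ^ (p - 1))) (M ^ p) where
  lip x y := by
    have hM : 0 < M := hδ.trans_le hδM
    have hd : ∀ z ∈ Icc δ M, HasDerivWithinAt (fun z => z ^ p) (p * z ^ (p - 1)) (Icc δ M) z :=
      fun z hz => (Real.hasDerivAt_rpow_const (Or.inl (hδ.trans_le hz.1).ne')).hasDerivWithinAt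
    have hb : ∀ z ∈ Icc δ M, ‖p * z ^ (p - 1)‖ ≤ p * (δ ^ (p - 1) + M ^ (p - 1)) := by
      intro z hz
      rw [Real.norm_eq_abs, abs_of_nonneg (mul_nonneg hp.le (Real.rpow_nonneg (hδ.le.trans hz.1) _))]
      refine mul_le_mul_of_nonneg_left ?_ hp.le
      rcases le_total 1 p with h1 | h1
      · linarith [Real.rpow_le_rpow (hδ.le.trans hz.1) hz.2 (sub_nonneg.2 h1),
          Real.rpow_nonneg hδ.le (p - 1)]
      · linarith [Real.rpow_le_rpow_of_nonpos hδ hz.1 (sub_nonpos.2 h1),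
          Real.rpow_nonneg hM.le (p - 1)]
    have h := (convex_Icc δ M).norm_image_sub_le_of_norm_hasDerivWithin_le hd hb
      (clip_arg_mem hδM y) (clip_arg_mem hδM x)
    rw [Real.norm_eq_abs, Real.norm_eq_abs] at h
    refine h.trans (mul_le_mul_of_nonneg_left ?_ ?_)
    · refine (abs_min_sub_min_le_max _ _ _ _).trans ?_
      rw [sub_self, abs_zero, max_eq_left (abs_nonneg _)]
      exact abs_max_sub_max_le_abs _ _ _
    · have := Real.rpow_nonneg hδ.le (p - 1)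
      have := Real.rpow_nonneg hM.le (p - 1)
      positivity
  bound x := by
    rw [abs_of_nonneg (clip_nonneg hδ.le hδM x)]
    exact Real.rpow_le_rpow (hδ.le.trans (clip_arg_mem hδM x).1) (clip_arg_mem hδM x).2 hp.le

theorem exists_trunc (hN : 2 < N) (hp : 0 < p) (hq : 0 < q) (hδ : 0 < δ) (hδM : δ ≤ M)
    (u₀ v₀ : ℝ) : ∃ U V, Sys N (clip δ M p) (clip δ M q) u₀ v₀ U V := by
  obtain ⟨U, V, hs, -⟩ := exists_sys hN (nice_clip hp hδ hδM) (nice_clip hq hδ hδM) u₀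
  exact ⟨U v₀, V v₀, hs v₀⟩

theorem slope_le {f f' : ℝ → ℝ} {a b C : ℝ} (hab : a ≤ b) (hc : ContinuousOn f (Icc a b))
    (hd : ∀ x ∈ Ioo a b, HasDerivAt f (f' x) x) (hb : ∀ x ∈ Ioo a b, f' x ≤ C) :
    f b - f a ≤ C * (b - a) := by
  rcases hab.eq_or_lt with rfl | hab
  · simp
  obtain ⟨c, hc', e⟩ := exists_hasDerivAt_eq_slope f f' hab hc hd
  have := hb c hc'
  rw [e, div_le_iff₀ (sub_pos.2 hab)] at this
  exact this

theorem le_slope {f f' : ℝ → ℝ} {a b C : ℝ} (hab : a ≤ b) (hc : ContinuousOn f (Icc a b))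
    (hd : ∀ x ∈ Ioo a b, HasDerivAt f (f' x) x) (hb : ∀ x ∈ Ioo a b, C ≤ f' x) :
    C * (b - a) ≤ f b - f a := by
  have := slope_le (f := fun x => -f x) (f' := fun x => -f' x) (C := -C) hab hc.neg
    (fun x hx => (hd x hx).neg) fun x hx => neg_le_neg (hb x hx)
  linarith

/-- `T ^ (N/2) ker` grows with `T`. -/
theorem rpow_mul_ker_mono {f : ℝ → ℝ} (hN : 2 < N) (hf : Continuous f)
    {S T : ℝ} (hS : 0 ≤ S) (hST : S ≤ T) (h0 : ∀ x ∈ Icc S T, 0 ≤ f x) :
    S ^ (N / 2) * ker N f S ≤ T ^ (N / 2) * ker N f T := by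
  have hc : Continuous fun x : ℝ => x ^ (N / 2 - 1) * f x := (continuous_weight hN).mul hf
  rw [rpow_mul_ker hN f hS, rpow_mul_ker hN f (hS.trans hST),
    ← intervalIntegral.integral_add_adjacent_intervals (hc.intervalIntegrable 0 S)
      (hc.intervalIntegrable S T)]
  have h : 0 ≤ ∫ x in S..T, x ^ (N / 2 - 1) * f x :=
    intervalIntegral.integral_nonneg hST fun x hx =>
      mul_nonneg (Real.rpow_nonneg (hS.trans hx.1) _) (h0 x hx)
  linarith

/-- The constant half to the power N over 2. -/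
def half (N : ℝ) : ℝ := (1 / 2 : ℝ) ^ (N / 2)

theorem half_pos (N : ℝ) : 0 < half N := Real.rpow_pos_of_pos (by norm_num) _

theorem half_mul_ker_le {f : ℝ → ℝ} (hN : 2 < N) (hf : Continuous f)
    {S T : ℝ} (hS : 0 < S) (hST : S ≤ T) (hT : T ≤ 2 * S) (h0 : ∀ x ∈ Icc 0 T, 0 ≤ f x) :
    half N * ker N f S ≤ ker N f T := by
  have h := rpow_mul_ker_mono hN hf hS.le hST fun x hx => h0 x ⟨hS.le.trans hx.1, hx.2⟩
  have hT0 : 0 < T := hS.trans_le hST
  have hk : 0 ≤ ker N f S := ker_nonneg hN hf fun x hx => by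
    rw [uIcc_of_le hS.le] at hx
    exact h0 x ⟨hx.1, hx.2.trans hST⟩
  have hd : half N ≤ S ^ (N / 2) / T ^ (N / 2) := by
    rw [← Real.div_rpow hS.le hT0.le]
    refine Real.rpow_le_rpow (by norm_num) ?_ (by linarith)
    rw [le_div_iff₀ hT0]
    linarith
  calc half N * ker N f S ≤ S ^ (N / 2) / T ^ (N / 2) * ker N f S :=
        mul_le_mul_of_nonneg_right hd hk
    _ = S ^ (N / 2) * ker N f S / T ^ (N / 2) := by ring
    _ ≤ ker N f T := by
        rw [div_le_iff₀ (Real.rpow_pos_of_pos hT0 _)]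
        linarith

section Trunc

variable (hN : 2 < N) (hg : Continuous g) (hg0 : ∀ x, 0 ≤ g x) (s : Sys N g h u₀ v₀ U V)
include hN hg hg0 s

theorem Sys.antitoneOn_u {S T : ℝ} (hST : S ≤ T) : U T ≤ U S := by
  have := slope_le (f := U) (C := 0) hST s.cont_u.continuousOn
    (fun x _ => s.hasDerivAt_u hN hg x) fun x _ => by
      have := ker_nonneg (T := x) hN (hg.comp s.cont_v) fun y _ => hg0 (V y)
      show -(ker N (fun x => g (V x)) x / 2) ≤ 0
      linarith [show ker N (g ∘ V) x = ker N (fun y => g (V y)) x from rfl]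
  linarith

theorem Sys.u_le {T : ℝ} (hT : 0 ≤ T) : U T ≤ u₀ := by
  have := s.antitoneOn_u hN hg hg0 hT
  rwa [s.eq_u 0, intervalIntegral.integral_same, mul_zero, sub_zero] at this

theorem Sys.u_drop {S h : ℝ} (hS : 0 < S) (hh : 0 ≤ h) (hhS : h ≤ S) :
    U (S + h) ≤ U S - half N * h * (ker N (fun x => g (V x)) S / 2) := by
  have hc : Continuous fun x => g (V x) := hg.comp s.cont_v
  have := slope_le (f := U) (C := -(half N * ker N (fun x => g (V x)) S / 2))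
    (show S ≤ S + h by linarith) s.cont_u.continuousOn (fun x _ => s.hasDerivAt_u hN hg x)
    fun x hx => by
      have := half_mul_ker_le hN hc hS hx.1.le (by linarith [hx.2]) fun y _ => hg0 (V y)
      linarith
  linarith

omit hg0 in
theorem Sys.le_u {B S T : ℝ} (hS : 0 ≤ S) (hST : S ≤ T) (hB : ∀ x ∈ Icc 0 T, g (V x) ≤ B) :
    U S - (T - S) * (B / N) ≤ U T := by
  have hc : Continuous fun x => g (V x) := hg.comp s.cont_v
  have := le_slope (f := U) (C := -(B / N)) hST s.cont_u.continuousOn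
    (fun x _ => s.hasDerivAt_u hN hg x) fun x hx => by
      have := ker_le (T := x) (B := B) hN hc fun y hy => by
        rw [uIcc_of_le (hS.trans hx.1.le)] at hy
        exact hB y ⟨hy.1, hy.2.trans hx.2.le⟩
      have e : (2 : ℝ) / N * B = 2 * (B / N) := by ring
      linarith
  linarith

omit hg0 in
theorem Sys.u_upper {m T : ℝ} (hT : 0 ≤ T) (hm : ∀ x ∈ Icc 0 T, m ≤ g (V x)) :
    U T ≤ u₀ - T * (m / N) := by
  have hc : Continuous fun x => g (V x) := hg.comp s.cont_v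
  have := slope_le (f := U) (C := -(m / N)) hT s.cont_u.continuousOn
    (fun x _ => s.hasDerivAt_u hN hg x) fun x hx => by
      have := le_ker (T := x) (B := m) hN hc fun y hy => by
        rw [uIcc_of_le hx.1.le] at hy
        exact hm y ⟨hy.1, hy.2.trans hx.2.le⟩
      have e : (2 : ℝ) / N * m = 2 * (m / N) := by ring
      linarith
  rw [s.eq_u 0, intervalIntegral.integral_same] at this
  linarith

end Trunc

/-- A positive solution between `0` and `R`. -/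
structure PosPair (N p q u₀ v₀ R : ℝ) (U V : ℝ → ℝ) : Prop where
  sys : SysOn N (fun x => x ^ p) (fun x => x ^ q) u₀ v₀ R U V
  pos_u : ∀ T ∈ uIcc 0 R, 0 < U T
  pos_v : ∀ T ∈ uIcc 0 R, 0 < V T

theorem PosPair.swap (o : PosPair N p q u₀ v₀ R U V) : PosPair N q p v₀ u₀ R V U :=
  ⟨o.sys.swap, o.pos_v, o.pos_u⟩

theorem PosPair.mono {R' : ℝ} (o : PosPair N p q u₀ v₀ R U V) (hR : R' ∈ uIcc 0 R) :
    PosPair N p q u₀ v₀ R' U V :=
  ⟨o.sys.mono hR, fun T hT => o.pos_u T (uIcc_subset_uIcc left_mem_uIcc hR hT),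
    fun T hT => o.pos_v T (uIcc_subset_uIcc left_mem_uIcc hR hT)⟩

theorem PosPair.u_zero (o : PosPair N p q u₀ v₀ R U V) : U 0 = u₀ := by
  simpa using o.sys.eq_u 0 left_mem_uIcc

theorem continuous_pow_comp (hp : 0 < p) (hV : Continuous V) : Continuous fun x => V x ^ p :=
  hV.rpow_const fun _ => Or.inr hp.le

theorem PosPair.u_le (hN : 2 < N) (hp : 0 < p) (o : PosPair N p q u₀ v₀ R U V) (hR : 0 ≤ R) {T : ℝ}
    (hT : T ∈ Icc 0 R) : U T ≤ u₀ := by
  have hu : T ∈ uIcc 0 R := by rwa [uIcc_of_le hR]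
  have h : 0 ≤ ∫ τ in (0 : ℝ)..T, ker N (fun x => V x ^ p) τ :=
    intervalIntegral.integral_nonneg hT.1 fun τ hτ =>
      ker_nonneg hN (continuous_pow_comp hp o.sys.cont_v) fun x hx =>
        Real.rpow_nonneg (o.pos_v x (uIcc_subset_uIcc left_mem_uIcc
          (by rw [uIcc_of_le hR]; exact ⟨hτ.1, hτ.2.trans hT.2⟩) hx)).le _
  have e := o.sys.eq_u T hu
  linarith

theorem PosPair.exists_lb (o : PosPair N p q u₀ v₀ R U V) :
    ∃ m > 0, ∀ T ∈ uIcc 0 R, m ≤ U T ∧ m ≤ V T := by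
  obtain ⟨T₀, hT₀, hmin⟩ := isCompact_uIcc.exists_isMinOn nonempty_uIcc
    (o.sys.cont_u.min o.sys.cont_v).continuousOn
  exact ⟨min (U T₀) (V T₀), lt_min (o.pos_u _ hT₀) (o.pos_v _ hT₀), fun T hT =>
    ⟨(hmin hT : _ ≤ min (U T) (V T)).trans (min_le_left _ _),
      (hmin hT : _ ≤ min (U T) (V T)).trans (min_le_right _ _)⟩⟩

theorem PosPair.sysOn_clip (hN : 2 < N) (hp : 0 < p) (hq : 0 < q) (o : PosPair N p q u₀ v₀ R U V)
    (hR : 0 ≤ R) (hu : u₀ ≤ M) (hv : v₀ ≤ M) (hlb : ∀ T ∈ uIcc 0 R, δ ≤ U T ∧ δ ≤ V T) :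
    SysOn N (clip δ M p) (clip δ M q) u₀ v₀ R U V :=
  o.sys.congr
    (fun x hx => (clip_eq ⟨(hlb x hx).2, (o.swap.u_le hN hq hR (by rwa [← uIcc_of_le hR])).trans hv⟩).symm)
    fun x hx => (clip_eq ⟨(hlb x hx).1, (o.u_le hN hp hR (by rwa [← uIcc_of_le hR])).trans hu⟩).symm

theorem PosPair.agree_trunc (hN : 2 < N) (hp : 0 < p) (hq : 0 < q) (o : PosPair N p q u₀ v₀ R U V)
    (hR : 0 ≤ R) (hδ : 0 < δ) (hδM : δ ≤ M) (hu : u₀ ≤ M) (hv : v₀ ≤ M)
    (hlb : ∀ T ∈ uIcc 0 R, δ ≤ U T ∧ δ ≤ V T) {U' V' : ℝ → ℝ}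
    (s : Sys N (clip δ M p) (clip δ M q) u₀ v₀ U' V') :
    ∀ T ∈ Icc 0 R, U T = U' T ∧ V T = V' T := fun T hT =>
  SysOn.unique hN (nice_clip hp hδ hδM) (nice_clip hq hδ hδM) (o.sysOn_clip hN hp hq hR hu hv hlb)
    (s.on R) T (by rwa [uIcc_of_le hR])

theorem PosPair.agree (hN : 2 < N) (hp : 0 < p) (hq : 0 < q) {U' V' : ℝ → ℝ}
    (o : PosPair N p q u₀ v₀ R U V) (o' : PosPair N p q u₀ v₀ R U' V') (hR : 0 ≤ R) :
    ∀ T ∈ Icc 0 R, U T = U' T ∧ V T = V' T := by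
  obtain ⟨m, hm, hlb⟩ := o.exists_lb
  obtain ⟨m', hm', hlb'⟩ := o'.exists_lb
  have hδ : 0 < min m m' := lt_min hm hm'
  have hδu : min m m' ≤ u₀ := by
    rw [← o.u_zero]
    exact (min_le_left _ _).trans (hlb 0 left_mem_uIcc).1
  have hu : u₀ ≤ max u₀ v₀ := le_max_left _ _
  have hδM := hδu.trans hu
  have hlb₁ : ∀ T ∈ uIcc 0 R, min m m' ≤ U T ∧ min m m' ≤ V T := fun T hT =>
    ⟨(min_le_left _ _).trans (hlb T hT).1, (min_le_left _ _).trans (hlb T hT).2⟩
  have hlb₂ : ∀ T ∈ uIcc 0 R, min m m' ≤ U' T ∧ min m m' ≤ V' T := fun T hT =>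
    ⟨(min_le_right _ _).trans (hlb' T hT).1, (min_le_right _ _).trans (hlb' T hT).2⟩
  intro T hT
  exact SysOn.unique hN (nice_clip hp hδ hδM) (nice_clip hq hδ hδM)
    (o.sysOn_clip hN hp hq hR hu (le_max_right _ _) hlb₁)
    (o'.sysOn_clip hN hp hq hR hu (le_max_right _ _) hlb₂) T (by rwa [uIcc_of_le hR])

theorem orbit_of_trunc (hN : 2 < N) (hp : 0 < p) (hq : 0 < q) (hδ : 0 < δ) (hδM : δ ≤ M)
    (hu : u₀ ≤ M) (hv : v₀ ≤ M) (s : Sys N (clip δ M p) (clip δ M q) u₀ v₀ U V) (hR : 0 ≤ R)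
    (hlb : ∀ T ∈ Icc 0 R, δ ≤ U T ∧ δ ≤ V T) : PosPair N p q u₀ v₀ R U V := by
  refine ⟨(s.on R).congr (fun x hx => ?_) (fun x hx => ?_), fun T hT => ?_, fun T hT => ?_⟩
  all_goals rw [uIcc_of_le hR] at *
  · exact clip_eq ⟨(hlb x hx).2, (s.swap.u_le hN (nice_clip hq hδ hδM).continuous
      (clip_nonneg hδ.le hδM) hx.1).trans hv⟩
  · exact clip_eq ⟨(hlb x hx).1, (s.u_le hN (nice_clip hp hδ hδM).continuous
      (clip_nonneg hδ.le hδM) hx.1).trans hu⟩
  · exact hδ.trans_le (hlb T hT).1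
  · exact hδ.trans_le (hlb T hT).2

theorem PosPair.hasDerivAt_u (hN : 2 < N) (hp : 0 < p) (o : PosPair N p q u₀ v₀ R U V) {T : ℝ}
    (hT : uIcc 0 R ∈ 𝓝 T) : HasDerivAt U (-(ker N (fun x => V x ^ p) T / 2)) T := by
  have hk := continuous_ker hN (continuous_pow_comp hp o.sys.cont_v)
  have h := (((hk.integral_hasStrictDerivAt 0 T).hasDerivAt).const_mul (1 / 2)).const_sub u₀
  refine (h.congr_of_eventuallyEq ?_).congr_deriv (by ring)
  filter_upwards [hT] with x hx using o.sys.eq_u x hx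

/-- `2 T U_T V_T + V^(p+1)/(p+1) + U^(q+1)/(q+1) + α U V_T + β V U_T`. -/
def energy (N p q : ℝ) (U V : ℝ → ℝ) (T : ℝ) : ℝ :=
  2 * T * (ker N (fun x => V x ^ p) T / 2) * (ker N (fun x => U x ^ q) T / 2)
    + (V T ^ (p + 1) / (p + 1) + U T ^ (q + 1) / (q + 1))
    - N / (q + 1) * (U T * (ker N (fun x => U x ^ q) T / 2))
    - N / (p + 1) * (V T * (ker N (fun x => V x ^ p) T / 2))

theorem continuous_energy (hN : 2 < N) (hp : 0 < p) (hq : 0 < q) (hU : Continuous U)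
    (hV : Continuous V) : Continuous (energy N p q U V) := by
  have h1 := continuous_ker hN (continuous_pow_comp hp hV)
  have h2 := continuous_ker hN (continuous_pow_comp hq hU)
  have h3 := continuous_pow_comp (by linarith : 0 < p + 1) hV
  have h4 := continuous_pow_comp (by linarith : 0 < q + 1) hU
  unfold energy
  fun_prop

theorem hasDerivAt_energy (hN : 2 < N) (hp : 0 < p) (hq : 0 < q)
    (hc : N / (p + 1) + N / (q + 1) = N - 2) (o : PosPair N p q u₀ v₀ R U V) {T : ℝ}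
    (hT : uIcc 0 R ∈ 𝓝 T) (hT0 : T ≠ 0) :
    HasDerivAt (energy N p q U V) (-(N / 2) / T * energy N p q U V T) T := by
  have hu := o.hasDerivAt_u hN hp hT
  have hv := o.swap.hasDerivAt_u hN hq hT
  have huT : 0 < U T := o.pos_u T (mem_of_mem_nhds hT)
  have hvT : 0 < V T := o.pos_v T (mem_of_mem_nhds hT)
  have hk1 := (hasDerivAt_ker hN (continuous_pow_comp hp o.sys.cont_v) hT0).div_const 2
  have hk2 := (hasDerivAt_ker hN (continuous_pow_comp hq o.sys.cont_u) hT0).div_const 2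
  have hV1 := (hv.rpow_const (p := p + 1) (Or.inl hvT.ne')).div_const (p + 1)
  have hU1 := (hu.rpow_const (p := q + 1) (Or.inl huT.ne')).div_const (q + 1)
  have h := ((((((hasDerivAt_id T).const_mul 2).mul hk1).mul hk2).add (hV1.add hU1)).sub
    ((hu.mul hk2).const_mul (N / (q + 1)))).sub ((hv.mul hk1).const_mul (N / (p + 1)))
  refine h.congr_deriv ?_
  simp only [id_eq, mul_one, Pi.mul_apply]
  unfold energy
  rw [add_sub_cancel_right, add_sub_cancel_right, Real.rpow_add_one hvT.ne', Real.rpow_add_one huT.ne']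
  have hp1 : p + 1 ≠ 0 := by linarith
  have hq1 : q + 1 ≠ 0 := by linarith
  generalize hK : ker N (fun x => V x ^ p) T = K
  generalize hL : ker N (fun x => U x ^ q) T = L
  field_simp
  field_simp at hc
  linear_combination (K * L * T) * hc

theorem energy_eq_zero (hN : 2 < N) (hp : 0 < p) (hq : 0 < q)
    (hc : N / (p + 1) + N / (q + 1) = N - 2) (o : PosPair N p q u₀ v₀ R U V) (hR : 0 < R) :
    energy N p q U V R = 0 := by
  have hcont : Continuous fun T : ℝ => T ^ (N / 2) * energy N p q U V T :=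
    (continuous_id.rpow_const fun _ => Or.inr (by linarith)).mul
      (continuous_energy hN hp hq o.sys.cont_u o.sys.cont_v)
  have hd : ∀ x ∈ Ioo 0 R, HasDerivAt (fun T : ℝ => T ^ (N / 2) * energy N p q U V T) 0 x := by
    intro x hx
    have hn : uIcc 0 R ∈ 𝓝 x := by rw [uIcc_of_le hR.le]; exact Icc_mem_nhds hx.1 hx.2
    refine ((Real.hasDerivAt_rpow_const (p := N / 2) (Or.inl hx.1.ne')).mul
      (hasDerivAt_energy hN hp hq hc o hn hx.1.ne')).congr_deriv ?_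
    have := hx.1.ne'
    rw [Real.rpow_sub hx.1, Real.rpow_one]
    field_simp
    ring
  obtain ⟨c, -, e⟩ := exists_hasDerivAt_eq_slope _ _ hR hcont.continuousOn hd
  have h0 : R ^ (N / 2) * energy N p q U V R = 0 := by
    have := hR.ne'
    simp only [Real.zero_rpow (show N / 2 ≠ 0 by linarith), zero_mul, sub_zero] at e
    field_simp at e
    linarith
  exact (mul_eq_zero.1 h0).resolve_left (Real.rpow_pos_of_pos hR _).ne'

end

end Vale.Agent.P100.Orbit
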