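import Vale.Agent.P100.Orbit.Shoot

/-!
# P100: properties of the global critical pair for `T ≥ 0`
-/

namespace Vale.Agent.P100.Orbit

open MeasureTheory Set Filter Topology intervalIntegral

noncomputable section

/-- A pair positive on all of `[0, ∞)`. -/
def Ground (N p q a : ℝ) (U V : ℝ → ℝ) : Prop := ∀ R, 0 ≤ R → PosPair N p q 1 a R U V

/-- `- U_T`, where `V` is the other component. -/
def du (N p : ℝ) (V : ℝ → ℝ) (T : ℝ) : ℝ := ker N (fun x => V x ^ p) T / 2

/-- The exponent sigma. -/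
def sig (p q : ℝ) : ℝ := (q + 1) / (p + 1)

/-- The value of `r` with `σ r^(p+1) = 1`. -/
def rtop (p q : ℝ) : ℝ := ((p + 1) / (q + 1)) ^ (1 / (p + 1))

variable {N p q a T : ℝ} {U V : ℝ → ℝ}

theorem continuous_du (hN : 2 < N) (hp : 0 < p) (hV : Continuous V) : Continuous (du N p V) :=
  (continuous_ker hN (continuous_pow_comp hp hV)).div_const 2

theorem du_pos (hN : 2 < N) (hp : 0 < p) (hV : Continuous V) (h : ∀ x ∈ uIcc 0 T, 0 < V x) :
    0 < du N p V T := by
  obtain ⟨x₀, hx₀, hmin⟩ := isCompact_uIcc.exists_isMinOn nonempty_uIcc hV.continuousOn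
  have h1 := le_ker (T := T) (B := V x₀ ^ p) hN (continuous_pow_comp hp hV) fun x hx =>
    Real.rpow_le_rpow (h x₀ hx₀).le (hmin hx) hp.le
  have : 0 < 2 / N * V x₀ ^ p := by
    have : 0 < N := by linarith
    have := Real.rpow_pos_of_pos (h x₀ hx₀) p
    positivity
  show 0 < _ / 2
  linarith

theorem hasDerivAt_du (hN : 2 < N) (hp : 0 < p) (hV : Continuous V) (hT : T ≠ 0) :
    HasDerivAt (du N p V) ((V T ^ p - N * du N p V T) / (2 * T)) T := by
  refine ((hasDerivAt_ker hN (continuous_pow_comp hp hV) hT).div_const 2).congr_deriv ?_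
  unfold du
  field_simp

theorem du_zero (hN : 2 < N) : du N p V 0 = V 0 ^ p / N := by
  rw [du, ker_zero hN]
  ring

theorem uIcc_mem_nhds_pos {R : ℝ} (hT : 0 < T) (hR : T < R) : uIcc 0 R ∈ 𝓝 T := by
  rw [uIcc_of_le (hT.trans hR).le]; exact Icc_mem_nhds hT hR

theorem sig_pos (hp : 0 < p) (hq : 0 < q) : 0 < sig p q := by unfold sig; positivity

theorem sig_le_one (hp : 0 < p) (hqp : q ≤ p) : sig p q ≤ 1 := by
  unfold sig; rw [div_le_one (by linarith)]; linarith

theorem sig_lt_one (hp : 0 < p) (hqp : q < p) : sig p q < 1 := by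
  unfold sig; rw [div_lt_one (by linarith)]; linarith

theorem sig_mul (hp : 0 < p) : sig p q * p = q + 1 - sig p q := by
  unfold sig; field_simp; ring

theorem rtop_pos (hp : 0 < p) (hq : 0 < q) : 0 < rtop p q := by unfold rtop; positivity

theorem rtop_eq (hp : 0 < p) (hq : 0 < q) : sig p q * rtop p q ^ (p + 1) = 1 := by
  rw [rtop, ← Real.rpow_mul (by positivity), one_div_mul_cancel (by linarith), Real.rpow_one, sig]
  field_simp

namespace Ground

theorem pair_u (g : Ground N p q a U V) (hT : 0 ≤ T) : 0 < U T :=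
  (g T hT).pos_u T right_mem_uIcc

theorem pair_v (g : Ground N p q a U V) (hT : 0 ≤ T) : 0 < V T :=
  (g T hT).pos_v T right_mem_uIcc

theorem cont_u (g : Ground N p q a U V) : Continuous U := (g 0 le_rfl).sys.cont_u

theorem cont_v (g : Ground N p q a U V) : Continuous V := (g 0 le_rfl).sys.cont_v

theorem u_zero (g : Ground N p q a U V) : U 0 = 1 := (g 0 le_rfl).u_zero

theorem v_zero (g : Ground N p q a U V) : V 0 = a := (g 0 le_rfl).swap.u_zero

variable (hN : 2 < N) (hp : 0 < p) (hq : 0 < q) (g : Ground N p q a U V)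
include hN hp hq g

omit hq in
theorem hasDerivAt_u (hT : 0 < T) : HasDerivAt U (-du N p V T) T :=
  (g (T + 1) (by linarith)).hasDerivAt_u hN hp (uIcc_mem_nhds_pos hT (lt_add_one T))

omit hp in
theorem hasDerivAt_v (hT : 0 < T) : HasDerivAt V (-du N q U T) T :=
  (g (T + 1) (by linarith)).swap.hasDerivAt_u hN hq (uIcc_mem_nhds_pos hT (lt_add_one T))

omit hq in
theorem du_u_pos (hT : 0 ≤ T) : 0 < du N p V T :=
  du_pos hN hp g.cont_v (g T hT).pos_v

omit hp in
theorem du_v_pos (hT : 0 ≤ T) : 0 < du N q U T :=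
  du_pos hN hq g.cont_u (g T hT).pos_u

omit hq in
theorem antitone_u {S : ℝ} (hS : 0 ≤ S) (hST : S ≤ T) : U T ≤ U S := by
  have := slope_le (f := U) (C := 0) hST g.cont_u.continuousOn
    (fun x hx => g.hasDerivAt_u hN hp (hS.trans_lt hx.1))
    fun x hx => neg_nonpos.2 (g.du_u_pos hN hp (hS.trans hx.1.le)).le
  linarith

omit hp in
theorem antitone_v {S : ℝ} (hS : 0 ≤ S) (hST : S ≤ T) : V T ≤ V S := by
  have := slope_le (f := V) (C := 0) hST g.cont_v.continuousOn
    (fun x hx => g.hasDerivAt_v hN hq (hS.trans_lt hx.1))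
    fun x hx => neg_nonpos.2 (g.du_v_pos hN hq (hS.trans hx.1.le)).le
  linarith

theorem tendsto_u : Tendsto U atTop (𝓝 0) := by
  refine (tendsto_order.2 ⟨fun b hb => ?_, fun b hb => ?_⟩)
  · filter_upwards [eventually_ge_atTop 0] with T hT using hb.trans (g.pair_u hT)
  · by_contra hcon
    have hall : ∀ T, 0 ≤ T → b ≤ U T := fun T hT => not_lt.1 fun h => hcon (by
      filter_upwards [eventually_ge_atTop T] with x hx
      exact (g.antitone_u hN hp hT hx).trans_lt h)
    have hbp : 0 < b ^ q / N := div_pos (Real.rpow_pos_of_pos hb q) (by linarith)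
    have ha : 0 < a := g.v_zero ▸ g.pair_v le_rfl
    have hT : 0 ≤ a / (b ^ q / N) + 1 := by positivity
    have h1 := slope_le (f := V) (C := -(b ^ q / N)) hT g.cont_v.continuousOn
      (fun x hx => g.hasDerivAt_v hN hq hx.1) fun x hx => by
        have := le_ker (T := x) (B := b ^ q) hN (continuous_pow_comp hq g.cont_u) fun y hy => by
          rw [uIcc_of_le hx.1.le] at hy
          exact Real.rpow_le_rpow hb.le (hall y hy.1) hq.le
        have e : (2 : ℝ) / N * b ^ q = 2 * (b ^ q / N) := by ring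
        show -du N q U x ≤ _
        unfold du
        linarith
    have h2 := g.pair_v hT
    have h3 : b ^ q / N * (a / (b ^ q / N) + 1 - 0) = a + b ^ q / N := by
      rw [sub_zero, mul_add, mul_one, mul_div_cancel₀ _ hbp.ne']
    rw [g.v_zero] at h1
    linarith

theorem tendsto_v : Tendsto V atTop (𝓝 0) := by
  refine (tendsto_order.2 ⟨fun b hb => ?_, fun b hb => ?_⟩)
  · filter_upwards [eventually_ge_atTop 0] with T hT using hb.trans (g.pair_v hT)
  · by_contra hcon
    have hall : ∀ T, 0 ≤ T → b ≤ V T := fun T hT => not_lt.1 fun h => hcon (by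
      filter_upwards [eventually_ge_atTop T] with x hx
      exact (g.antitone_v hN hq hT hx).trans_lt h)
    have hbp : 0 < b ^ p / N := div_pos (Real.rpow_pos_of_pos hb p) (by linarith)
    have hT : 0 ≤ 1 / (b ^ p / N) + 1 := by positivity
    have h1 := slope_le (f := U) (C := -(b ^ p / N)) hT g.cont_u.continuousOn
      (fun x hx => g.hasDerivAt_u hN hp hx.1) fun x hx => by
        have := le_ker (T := x) (B := b ^ p) hN (continuous_pow_comp hp g.cont_v) fun y hy => by
          rw [uIcc_of_le hx.1.le] at hy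
          exact Real.rpow_le_rpow hb.le (hall y hy.1) hp.le
        have e : (2 : ℝ) / N * b ^ p = 2 * (b ^ p / N) := by ring
        show -du N p V x ≤ _
        unfold du
        linarith
    have h2 := g.pair_u hT
    have h3 : b ^ p / N * (1 / (b ^ p / N) + 1 - 0) = 1 + b ^ p / N := by
      rw [sub_zero, mul_add, mul_one, mul_div_cancel₀ _ hbp.ne']
    rw [g.u_zero] at h1
    linarith

end Ground

/-- `V - ℓ U^σ`, with `ℓ = rtop`. -/
def gap (p q : ℝ) (U V : ℝ → ℝ) (T : ℝ) : ℝ := V T - rtop p q * U T ^ sig p q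

/-- The derivative of `gap`. -/
def gap' (N p q : ℝ) (U V : ℝ → ℝ) (T : ℝ) : ℝ :=
  -du N q U T + rtop p q * sig p q * U T ^ (sig p q - 1) * du N p V T

/-- The weighted Laplacian of `gap`. -/
def gapL (N p q : ℝ) (U V : ℝ → ℝ) (T : ℝ) : ℝ :=
  rtop p q * sig p q * U T ^ (sig p q - 1) * (V T ^ p - (rtop p q * U T ^ sig p q) ^ p)
    + 2 * T * (rtop p q * sig p q * (1 - sig p q) * U T ^ (sig p q - 2) * du N p V T ^ 2)

namespace Ground

variable (hN : 2 < N) (hp : 0 < p) (hq : 0 < q) (g : Ground N p q a U V)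
include hN hp hq g

theorem hasDerivAt_gap (hT : 0 < T) : HasDerivAt (gap p q U V) (gap' N p q U V T) T := by
  refine ((g.hasDerivAt_v hN hq hT).sub (((g.hasDerivAt_u hN hp hT).rpow_const
    (Or.inl (g.pair_u hT.le).ne')).const_mul _)).congr_deriv ?_
  unfold gap'
  ring

theorem hasDerivAt_flux (hT : 0 < T) :
    HasDerivAt (fun x => x ^ (N / 2) * gap' N p q U V x)
      (T ^ (N / 2) / (2 * T) * gapL N p q U V T) T := by
  have hu := g.pair_u hT.le
  have hd : HasDerivAt (gap' N p q U V) _ T := ((hasDerivAt_du (N := N) hN hq g.cont_u hT.ne').neg).add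
    ((((g.hasDerivAt_u hN hp hT).rpow_const (p := sig p q - 1) (Or.inl hu.ne')).const_mul
      (rtop p q * sig p q)).mul (hasDerivAt_du hN hp g.cont_v hT.ne'))
  refine ((Real.hasDerivAt_rpow_const (p := N / 2) (Or.inl hT.ne')).mul hd).congr_deriv ?_
  unfold gap' gapL
  have hl := rtop_pos hp hq
  have e1 : U T ^ (sig p q - 1 - 1) = U T ^ (sig p q - 2) := by ring_nf
  have e2 : U T ^ (sig p q - 1) * (rtop p q * U T ^ sig p q) ^ p
      = rtop p q ^ p * U T ^ q := by
    rw [Real.mul_rpow hl.le (Real.rpow_nonneg hu.le _), ← Real.rpow_mul hu.le, sig_mul hp,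
      mul_left_comm, ← Real.rpow_add hu]
    ring_nf
  have e3 : rtop p q * sig p q * rtop p q ^ p = 1 := by
    rw [mul_comm (rtop p q) (sig p q), mul_assoc, mul_comm (rtop p q), ← Real.rpow_add_one hl.ne',
      rtop_eq hp hq]
  rw [e1, Real.rpow_sub hT, Real.rpow_one]
  set A := rtop p q * sig p q * U T ^ (sig p q - 1)
  set B := (rtop p q * U T ^ sig p q) ^ p
  have e4 : A * B = U T ^ q := by
    simp only [A, B]
    rw [mul_assoc, e2, ← mul_assoc, e3, one_mul]
  field_simp
  linear_combination (e4 : A * B = U T ^ q)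

theorem continuous_gap : Continuous (gap p q U V) :=
  g.cont_v.sub (continuous_const.mul (continuous_pow_comp (sig_pos hp hq) g.cont_u))

theorem continuousOn_gap' : ContinuousOn (gap' N p q U V) (Ici 0) :=
  (continuous_du hN hq g.cont_u).continuousOn.neg.add
    ((continuousOn_const.mul (g.cont_u.continuousOn.rpow_const fun _ hx =>
      Or.inl (g.pair_u hx).ne')).mul (continuous_du hN hp g.cont_v).continuousOn)

/-- Where the flux vanishes and the Laplacian is positive to the right, the gap goes up. -/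
theorem gap_lt_right {T₀ b : ℝ} (hT₀ : 0 ≤ T₀) (hb : T₀ < b)
    (h0 : T₀ ^ (N / 2) * gap' N p q U V T₀ = 0) (hL : ∀ x ∈ Ioo T₀ b, 0 < gapL N p q U V x) :
    gap p q U V T₀ < gap p q U V b := by
  have hc : ContinuousOn (fun x => x ^ (N / 2) * gap' N p q U V x) (Icc T₀ b) :=
    (continuous_id.rpow_const fun _ => Or.inr (by linarith)).continuousOn.mul
      ((g.continuousOn_gap' hN hp hq).mono fun x hx => hT₀.trans hx.1)
  have hpos : ∀ x ∈ Ioo T₀ b, 0 < gap' N p q U V x := by
    intro x hx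
    obtain ⟨c, hc', e⟩ := exists_hasDerivAt_eq_slope _ _ hx.1 (hc.mono (Icc_subset_Icc le_rfl hx.2.le))
      fun y hy => g.hasDerivAt_flux hN hp hq (hT₀.trans_lt hy.1)
    have hx0 : 0 < x := hT₀.trans_lt hx.1
    have hcL := hL c ⟨hc'.1, hc'.2.trans hx.2⟩
    have hcp : 0 < c ^ (N / 2) / (2 * c) * gapL N p q U V c := by
      have : 0 < c := hT₀.trans_lt hc'.1
      have := Real.rpow_pos_of_pos this (N / 2)
      positivity
    rw [e, div_pos_iff_of_pos_right (sub_pos.2 hx.1), h0, sub_zero] at hcp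
    exact pos_of_mul_pos_right hcp (Real.rpow_nonneg hx0.le _)
  obtain ⟨c, hc', e⟩ := exists_hasDerivAt_eq_slope _ _ hb
    (g.continuous_gap hN hp hq).continuousOn fun y hy => g.hasDerivAt_gap hN hp hq (hT₀.trans_lt hy.1)
  have := hpos c hc'
  rw [e, div_pos_iff_of_pos_right (sub_pos.2 hb)] at this
  linarith

theorem gapL_pos_of_gap_pos (hqp : q ≤ p) (hT : 0 ≤ T) (h : 0 < gap p q U V T) :
    0 < gapL N p q U V T := by
  have hu := g.pair_u hT
  have hl := rtop_pos hp hq
  have hs := sig_pos hp hq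
  have h1 : (rtop p q * U T ^ sig p q) ^ p < V T ^ p :=
    Real.rpow_lt_rpow (by positivity) (by unfold gap at h; linarith) hp
  have h2 : 0 ≤ 1 - sig p q := sub_nonneg.2 (sig_le_one hp hqp)
  have h3 : 0 ≤ 2 * T * (rtop p q * sig p q * (1 - sig p q) * U T ^ (sig p q - 2) * du N p V T ^ 2) := by
    positivity
  have h4 : 0 < rtop p q * sig p q * U T ^ (sig p q - 1) * (V T ^ p - (rtop p q * U T ^ sig p q) ^ p) :=
    mul_pos (by positivity) (sub_pos.2 h1)
  unfold gapL
  linarith

/-- `V ≤ ℓ U^σ` for `T ≥ 0`. -/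
theorem gap_nonpos (hqp : q ≤ p) (hT : 0 ≤ T) : gap p q U V T ≤ 0 := by
  by_contra h
  push Not at h
  have hlim : Tendsto (gap p q U V) atTop (𝓝 0) := by
    have h1 := ((g.tendsto_u hN hp hq).rpow_const (p := sig p q) (Or.inr (sig_pos hp hq).le)).const_mul
      (rtop p q)
    have h2 := (g.tendsto_v hN hp hq).sub h1
    rw [Real.zero_rpow (sig_pos hp hq).ne', mul_zero, sub_zero] at h2
    exact h2
  obtain ⟨R, hR⟩ := eventually_atTop.1 (hlim.eventually (eventually_lt_nhds h))
  obtain ⟨T₀, hT₀, hmax⟩ := isCompact_Icc.exists_isMaxOn (nonempty_Icc.2 (hT.trans (le_max_left T R)))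
    (g.continuous_gap hN hp hq).continuousOn
  have hTm : gap p q U V T ≤ gap p q U V T₀ := hmax ⟨hT, le_max_left _ _⟩
  have hT₀R : T₀ < max T R := lt_of_le_of_ne hT₀.2 fun e => by
    rcases le_total T R with h' | h'
    · rw [e, max_eq_right h'] at hTm
      linarith [hR R le_rfl]
    · linarith [hR T h']
  have h0 : T₀ ^ (N / 2) * gap' N p q U V T₀ = 0 := by
    rcases hT₀.1.eq_or_lt with e | e
    · rw [← e, Real.zero_rpow (by linarith), zero_mul]
    · rw [IsLocalMax.hasDerivAt_eq_zero ((hmax.isLocalMax (Icc_mem_nhds e hT₀R)))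
        (g.hasDerivAt_gap hN hp hq e), mul_zero]
  have hev : ∀ᶠ x in 𝓝[>] T₀, 0 < gap p q U V x :=
    (((g.continuous_gap hN hp hq).tendsto T₀).eventually (eventually_gt_nhds (h.trans_le hTm))).filter_mono
      nhdsWithin_le_nhds
  obtain ⟨b, hb, hsub⟩ := mem_nhdsGT_iff_exists_Ioo_subset.1 hev
  have hb' : T₀ < min b (max T R) := lt_min hb hT₀R
  have := g.gap_lt_right hN hp hq hT₀.1 hb' h0 fun x hx =>
    g.gapL_pos_of_gap_pos hN hp hq hqp (hT₀.1.trans hx.1.le) (hsub ⟨hx.1, hx.2.trans_le (min_le_left _ _)⟩)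
  have h2 : gap p q U V (min b (max T R)) ≤ gap p q U V T₀ :=
    hmax ⟨hT₀.1.trans hb'.le, min_le_right _ _⟩
  linarith

/-- For unequal exponents the centre lies strictly below the top ratio. -/
theorem a_lt_rtop (hqp : q < p) : a < rtop p q := by
  have h := g.gap_nonpos hN hp hq hqp.le le_rfl
  unfold gap at h
  rw [g.u_zero, g.v_zero, Real.one_rpow, mul_one] at h
  refine lt_of_le_of_ne (by linarith) fun ha => ?_
  have hl := rtop_pos hp hq
  have hs := sig_pos hp hq
  set s := sig p q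
  set ℓ := rtop p q
  have hcont : ContinuousOn (fun x => p * V x ^ (p - 1) * -du N q U x
      + p * (ℓ * U x ^ s) ^ (p - 1) * (ℓ * s * U x ^ (s - 1) * du N p V x)) (Ici 0) :=
    ((continuousOn_const.mul (g.cont_v.continuousOn.rpow_const fun _ hx =>
        Or.inl (g.pair_v hx).ne')).mul (continuous_du hN hq g.cont_u).continuousOn.neg).add
      ((continuousOn_const.mul (((continuous_const.mul (continuous_pow_comp hs g.cont_u)).continuousOn).rpow_const
        fun x hx => Or.inl (mul_ne_zero hl.ne' (Real.rpow_pos_of_pos (g.pair_u hx) _).ne'))).mul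
        ((continuousOn_const.mul (g.cont_u.continuousOn.rpow_const fun _ hx =>
          Or.inl (g.pair_u hx).ne')).mul (continuous_du hN hp g.cont_v).continuousOn))
  have hphi : ∀ x > 0, HasDerivAt (fun x => V x ^ p - (ℓ * U x ^ s) ^ p)
      (p * V x ^ (p - 1) * -du N q U x
        + p * (ℓ * U x ^ s) ^ (p - 1) * (ℓ * s * U x ^ (s - 1) * du N p V x)) x := by
    intro x hx
    refine (((g.hasDerivAt_v hN hq hx).rpow_const (Or.inl (g.pair_v hx.le).ne')).sub
      ((((g.hasDerivAt_u hN hp hx).rpow_const (Or.inl (g.pair_u hx.le).ne')).const_mul ℓ).rpow_const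
        (Or.inl (mul_ne_zero hl.ne' (Real.rpow_pos_of_pos (g.pair_u hx.le) _).ne')))).congr_deriv ?_
    ring
  have hls : ℓ * s * ℓ ^ p = 1 := by
    rw [mul_comm ℓ s, mul_assoc, mul_comm ℓ, ← Real.rpow_add_one hl.ne']
    exact rtop_eq hp hq
  have h0 : p * V 0 ^ (p - 1) * -du N q U 0
      + p * (ℓ * U 0 ^ s) ^ (p - 1) * (ℓ * s * U 0 ^ (s - 1) * du N p V 0) = 0 := by
    rw [du_zero hN, du_zero hN, g.u_zero, g.v_zero, ha, Real.one_rpow, Real.one_rpow, Real.one_rpow,
      mul_one, mul_one]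
    linear_combination (p * ℓ ^ (p - 1) / N) * hls
  let K : ℝ → ℝ := fun x => 2 * (1 - s) * du N p V x ^ 2 / U x
  have hK : ContinuousOn K (Ici 0) :=
    (continuousOn_const.mul ((continuous_du hN hp g.cont_v).continuousOn.pow 2)).div g.cont_u.continuousOn
      fun x hx => (g.pair_u hx).ne'
  have hK0 : 0 < K 0 := by
    have := g.du_u_pos hN hp le_rfl
    have := g.pair_u (T := 0) le_rfl
    have : 0 < 1 - s := sub_pos.2 (sig_lt_one hp hqp)
    positivity
  have hev : ∀ᶠ x in 𝓝[≥] (0 : ℝ), K 0 / 2 < K x ∧ -(K 0 / 2) < p * V x ^ (p - 1) * -du N q U x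
      + p * (ℓ * U x ^ s) ^ (p - 1) * (ℓ * s * U x ^ (s - 1) * du N p V x) :=
    ((hK 0 self_mem_Ici).eventually (eventually_gt_nhds (half_lt_self hK0))).and
      ((hcont 0 self_mem_Ici).eventually (eventually_gt_nhds (by beta_reduce; rw [h0]; linarith)))
  obtain ⟨b, hb, hsub⟩ := mem_nhdsGE_iff_exists_Icc_subset.1 hev
  have hb : (0 : ℝ) < b := hb
  have := g.gap_lt_right hN hp hq le_rfl hb (by rw [Real.zero_rpow (by linarith), zero_mul]) fun x hx => by
    have hx0 : 0 < x := hx.1
    have hu := g.pair_u hx0.le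
    have hmvt := le_slope (f := fun x => V x ^ p - (ℓ * U x ^ s) ^ p) (C := -(K 0 / 2)) hx0.le
      ((continuous_pow_comp hp g.cont_v).sub
        (continuous_pow_comp hp (continuous_const.mul (continuous_pow_comp hs g.cont_u)))).continuousOn
      (fun y hy => hphi y hy.1) fun y hy => (hsub ⟨hy.1.le, hy.2.le.trans hx.2.le⟩).2.le
    rw [g.u_zero, g.v_zero, ha, Real.one_rpow, mul_one, sub_self, sub_zero, sub_zero] at hmvt
    have hKx := (hsub ⟨hx0.le, hx.2.le⟩).1
    have e : gapL N p q U V x = ℓ * s * U x ^ (s - 1) * ((V x ^ p - (ℓ * U x ^ s) ^ p) + x * K x) := by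
      have e' : U x ^ (s - 2) = U x ^ (s - 1) / U x := by
        rw [← Real.rpow_sub_one hu.ne']; ring_nf
      simp only [gapL, K]
      rw [e']
      field_simp
      ring
    rw [e]
    refine mul_pos (by positivity) ?_
    have := mul_lt_mul_of_pos_left hKx hx0
    linarith
  have h1 := g.gap_nonpos hN hp hq hqp.le hb.le
  have h2 : gap p q U V 0 = 0 := by
    rw [gap, g.u_zero, g.v_zero, ha, Real.one_rpow, mul_one, sub_self]
  linarith

end Ground

end

end Vale.Agent.P100.Orbit
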