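import Vale.Agent.P100.Orbit.Smooth

/-!
# P100: the critical orbit on an interval reaching from the top ratio to `T = ∞`
-/

namespace Vale.Agent.P100.Orbit

open MeasureTheory Set Filter Topology intervalIntegral

noncomputable section

variable {N p q a T : ℝ} {U V : ℝ → ℝ}

theorem PosPair.congr {u₀ v₀ R : ℝ} {U' V' : ℝ → ℝ} (o : PosPair N p q u₀ v₀ R U V)
    (hU : Continuous U') (hV : Continuous V')
    (h : ∀ x ∈ uIcc 0 R, U' x = U x ∧ V' x = V x) : PosPair N p q u₀ v₀ R U' V' := by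
  refine ⟨⟨hU, hV, fun T hT => ?_, fun T hT => ?_⟩, fun T hT => (h T hT).1 ▸ o.pos_u T hT,
    fun T hT => (h T hT).2 ▸ o.pos_v T hT⟩
  · rw [(h T hT).1, o.sys.eq_u T hT]
    congr 2
    exact intervalIntegral.integral_congr fun τ hτ => ker_congr fun x hx => by
      rw [(h x (uIcc_subset_uIcc left_mem_uIcc hT (uIcc_subset_uIcc left_mem_uIcc hτ hx))).2]
  · rw [(h T hT).2, o.sys.eq_v T hT]
    congr 2
    exact intervalIntegral.integral_congr fun τ hτ => ker_congr fun x hx => by
      rw [(h x (uIcc_subset_uIcc left_mem_uIcc hT (uIcc_subset_uIcc left_mem_uIcc hτ hx))).1]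

/-- Everything the certificate uses about the orbit; `T₁ < T₀ < 0`. -/
structure CriticalOrbit (N p q : ℝ) (T₁ T₀ : ℝ) (U V : ℝ → ℝ) : Prop where
  T₁_lt : T₁ < T₀
  T₀_neg : T₀ < 0
  cont_u : Continuous U
  cont_v : Continuous V
  u_zero : U 0 = 1
  pos_u : ∀ T, T₁ ≤ T → 0 < U T
  pos_v : ∀ T, T₁ ≤ T → 0 < V T
  du_u_pos : ∀ T, T₁ ≤ T → 0 < du N p V T
  du_v_pos : ∀ T, T₁ ≤ T → 0 < du N q U T
  deriv_u : ∀ T, T₁ < T → HasDerivAt U (-du N p V T) T
  deriv_v : ∀ T, T₁ < T → HasDerivAt V (-du N q U T) T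
  deriv_du_u : ∀ T, T₁ < T → DifferentiableAt ℝ (du N p V) T
  deriv_du_v : ∀ T, T₁ < T → DifferentiableAt ℝ (du N q U) T
  ode_u : ∀ T, T₁ < T → N * deriv U T + 2 * T * deriv (deriv U) T = -(V T ^ p)
  ode_v : ∀ T, T₁ < T → N * deriv V T + 2 * T * deriv (deriv V) T = -(U T ^ q)
  smooth_u : ∀ n : ℕ, ContDiffOn ℝ n U (Ioi T₁)
  smooth_v : ∀ n : ℕ, ContDiffOn ℝ n V (Ioi T₁)
  first_integral : ∀ T, T₁ ≤ T → energy N p q U V T = 0
  det_pos : ∀ T, T₀ ≤ T → sig p q * (V T * du N p V T) < U T * du N q U T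
  ratio_top : ratio p q U V T₀ = rtop p q
  ratio_anti : StrictAntiOn (ratio p q U V) (Ici T₀)
  ratio_cont : ContinuousOn (ratio p q U V) (Ici T₁)
  ratio_zero : Tendsto (ratio p q U V) atTop (𝓝 0)
  u_to_zero : Tendsto U atTop (𝓝 0)
  v_to_zero : Tendsto V atTop (𝓝 0)
  eta_bound : ∃ c > (1 : ℝ), ∀ T, 0 ≤ T → c ≤ eta N p q U V T
  ratio_decay : ∃ d > (0 : ℝ), ∀ T, 0 ≤ T → ratio p q U V T ≤ ratio p q U V 0 * U T ^ d

theorem CriticalOrbit.exists_of_mem {T₁ T₀ : ℝ} (o : CriticalOrbit N p q T₁ T₀ U V) {r : ℝ}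
    (hr : r ∈ Ioc 0 (rtop p q)) : ∃ T, T₀ ≤ T ∧ ratio p q U V T = r := by
  obtain ⟨b, hb⟩ := eventually_atTop.1 (o.ratio_zero.eventually (eventually_le_nhds hr.1))
  obtain ⟨T, hT, e⟩ := intermediate_value_Icc' (le_max_left T₀ b)
    (o.ratio_cont.mono fun x hx => o.T₁_lt.le.trans hx.1)
    ⟨hb _ (le_max_right T₀ b), hr.2.trans o.ratio_top.ge⟩
  exact ⟨T, hT.1, e⟩

theorem exists_smooth_pair (hN : 2 < N) {J : Set ℝ} (hJo : IsOpen J) (hJ : J.OrdConnected)
    (h0 : (0 : ℝ) ∈ J) (hu : ∀ x ∈ J, HasDerivAt U (-du N p V x) x)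
    (hv : ∀ x ∈ J, HasDerivAt V (-du N q U x) x) (hpu : ∀ x ∈ J, U x ≠ 0) (hpv : ∀ x ∈ J, V x ≠ 0) :
    ∀ n : ℕ, ContDiffOn ℝ n U J ∧ ContDiffOn ℝ n V J := by
  intro n
  induction n with
  | zero =>
    simp only [Nat.cast_zero, contDiffOn_zero]
    exact ⟨fun x hx => (hu x hx).continuousAt.continuousWithinAt,
      fun x hx => (hv x hx).continuousAt.continuousWithinAt⟩
  | succ n ih =>
    have step : ∀ {r : ℝ} {A B : ℝ → ℝ}, (∀ x ∈ J, HasDerivAt A (-du N r B x) x) →
        (∀ x ∈ J, B x ≠ 0) → ContDiffOn ℝ n B J → ContDiffOn ℝ (n + 1 : ℕ) A J := by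
      intro r A B hA hB hBn
      rw [Nat.cast_add, Nat.cast_one, contDiffOn_succ_iff_deriv_of_isOpen hJo]
      exact ⟨fun x hx => (hA x hx).differentiableAt.differentiableWithinAt, by simp,
        (((contDiffOn_ker hJo hJ h0 n N _ hN (hBn.rpow_const_of_ne hB (p := r))).div_const 2).neg).congr
          fun x hx => (hA x hx).deriv⟩
    exact ⟨step hu hpv ih.2, step hv hpu ih.1⟩

/-- The critical orbit exists for every real `N > 2` and every critical pair with `q < p`. -/
theorem exists_critical_orbit (hN : 2 < N) (hp : 0 < p) (hq : 0 < q) (hqp : q < p)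
    (hc : N / (p + 1) + N / (q + 1) = N - 2) :
    ∃ T₁ T₀ U V, CriticalOrbit N p q T₁ T₀ U V := by
  obtain ⟨a, ha, Uf, Vf, gf⟩ := exists_ground hN hp hq hc
  have gf : Ground N p q a Uf Vf := gf
  obtain ⟨T₁, T₀, Ub, Vb, h10, h0, ob, hgap, hbefore, heta⟩ :=
    exists_backward hN hp hq hqp hc ha (gf.a_lt_rtop hN hp hq hqp)
  have hT₁0 : T₁ < 0 := h10.trans h0
  let U := fun x : ℝ => if x ≤ 0 then Ub x else Uf x
  let V := fun x : ℝ => if x ≤ 0 then Vb x else Vf x
  have hU0 : Ub 0 = Uf 0 := by rw [ob.u_zero, gf.u_zero]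
  have hV0 : Vb 0 = Vf 0 := by rw [ob.swap.u_zero, gf.v_zero]
  have hcU : Continuous U := Continuous.if_le ob.sys.cont_u gf.cont_u continuous_id continuous_const
    fun x hx => by rw [show x = 0 from hx]; exact hU0
  have hcV : Continuous V := Continuous.if_le ob.sys.cont_v gf.cont_v continuous_id continuous_const
    fun x hx => by rw [show x = 0 from hx]; exact hV0
  have g : Ground N p q a U V := fun R hR => (gf R hR).congr hcU hcV fun x hx => by
    rw [uIcc_of_le hR] at hx
    rcases hx.1.eq_or_lt with rfl | h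
    · simp only [U, V, le_refl, if_true]; exact ⟨hU0, hV0⟩
    · simp only [U, V, not_le.2 h, if_false, and_self]
  have o : PosPair N p q 1 a T₁ U V := ob.congr hcU hcV fun x hx => by
    rw [uIcc_of_ge hT₁0.le] at hx
    simp only [U, V, hx.2, if_true, and_self]
  -- the pair on `[T₁, R]` for any `R`
  have hderiv : ∀ {r s u v : ℝ} {A B : ℝ → ℝ}, 0 < r → Continuous B →
      PosPair N r s u v T₁ A B → (∀ R, 0 ≤ R → PosPair N r s u v R A B) → ∀ T, T₁ < T →
      HasDerivAt A (-du N r B T) T := by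
    intro r s u v A B hr hB o' g' T hT
    have hk := continuous_ker hN (continuous_pow_comp hr hB)
    have h := (((hk.integral_hasStrictDerivAt 0 T).hasDerivAt).const_mul (1 / 2)).const_sub u
    refine (h.congr_of_eventuallyEq ?_).congr_deriv (by unfold du; ring)
    filter_upwards [Ioi_mem_nhds hT] with x hx
    rcases le_total 0 x with h | h
    · exact (g' x h).sys.eq_u x right_mem_uIcc
    · exact o'.sys.eq_u x (by rw [uIcc_of_ge hT₁0.le]; exact ⟨le_of_lt hx, h⟩)
  have hdu : ∀ T, T₁ < T → HasDerivAt U (-du N p V T) T :=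
    hderiv hp hcV o g
  have hdv : ∀ T, T₁ < T → HasDerivAt V (-du N q U T) T :=
    hderiv hq hcU o.swap fun R hR => (g R hR).swap
  have hposu : ∀ T, T₁ ≤ T → 0 < U T := fun T hT => by
    rcases le_total 0 T with h | h
    · exact g.pair_u h
    · exact o.pos_u T (o.mem_uIcc_back hT₁0 ⟨hT, h⟩)
  have hposv : ∀ T, T₁ ≤ T → 0 < V T := fun T hT => by
    rcases le_total 0 T with h | h
    · exact g.pair_v h
    · exact o.pos_v T (o.mem_uIcc_back hT₁0 ⟨hT, h⟩)
  have hduu : ∀ T, T₁ ≤ T → 0 < du N p V T := fun T hT => by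
    rcases le_total 0 T with h | h
    · exact g.du_u_pos hN hp h
    · exact o.back_du_u_pos hN hp hT₁0 ⟨hT, h⟩
  have hduv : ∀ T, T₁ ≤ T → 0 < du N q U T := fun T hT => by
    rcases le_total 0 T with h | h
    · exact g.du_v_pos hN hq h
    · exact o.back_du_v_pos hN hq hT₁0 ⟨hT, h⟩
  have hsm := exists_smooth_pair (N := N) (p := p) (q := q) hN isOpen_Ioi (ordConnected_Ioi (a := T₁))
    hT₁0 hdu hdv (fun x hx => (hposu x (le_of_lt hx)).ne') fun x hx => (hposv x (le_of_lt hx)).ne'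
  have hdiff : ∀ {r : ℝ} {W : ℝ → ℝ}, (∀ n : ℕ, ContDiffOn ℝ n W (Ioi T₁)) →
      (∀ x ∈ Ioi T₁, W x ≠ 0) → ∀ T, T₁ < T → DifferentiableAt ℝ (du N r W) T := by
    intro r W hW hW0 T hT
    have h := (contDiffOn_ker isOpen_Ioi (ordConnected_Ioi (a := T₁)) hT₁0 1 N _ hN
      ((hW 1).rpow_const_of_ne hW0 (p := r))).differentiableOn (by norm_num)
    exact ((h.differentiableAt (Ioi_mem_nhds hT)).div_const 2)
  have hode : ∀ {r : ℝ} {A B : ℝ → ℝ}, 0 < r → Continuous B →
      (∀ x, T₁ < x → HasDerivAt A (-du N r B x) x) → ∀ T, T₁ < T →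
      N * deriv A T + 2 * T * deriv (deriv A) T = -(B T ^ r) := by
    intro r A B hr hB hA T hT
    have e : deriv A =ᶠ[𝓝 T] fun x => -du N r B x := by
      filter_upwards [Ioi_mem_nhds hT] with x hx using (hA x hx).deriv
    rw [e.deriv_eq, (hA T hT).deriv]
    rcases eq_or_ne T 0 with rfl | h
    · rw [mul_zero, zero_mul, add_zero, du_zero hN]
      have : N ≠ 0 := by linarith
      field_simp
    · rw [(hasDerivAt_du hN hr hB h).fun_neg.deriv]
      field_simp
      ring
  have hs := sig_pos hp hq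
  have hgapU : ∀ x ≤ 0, gap p q U V x = gap p q Ub Vb x := fun x hx => by
    simp only [gap, U, V, hx, if_true]
  have hetaU : ∀ x ∈ Ico T₀ 0, 1 < eta N p q U V x := fun x hx => by
    have hk : ∀ {r : ℝ} {A B : ℝ → ℝ}, (∀ y ≤ (0 : ℝ), A y = B y) → du N r A x = du N r B x := by
      intro r A B h
      have e : ker N (fun y => A y ^ r) x = ker N (fun y => B y ^ r) x := ker_congr fun y hy => by
        rw [uIcc_of_ge hx.2.le] at hy
        show A y ^ r = B y ^ r
        rw [h y hy.2]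
      unfold du
      rw [e]
    have h := heta x hx
    unfold eta at h ⊢
    rw [show U x = Ub x from if_pos hx.2.le, show V x = Vb x from if_pos hx.2.le,
      hk (A := U) (B := Ub) fun y hy => if_pos hy, hk (A := V) (B := Vb) fun y hy => if_pos hy]
    exact h
  have hdet : ∀ T, T₀ ≤ T → sig p q * (V T * du N p V T) < U T * du N q U T := fun T hT => by
    have h1 : 1 < eta N p q U V T := by
      rcases le_or_gt 0 T with h | h
      · exact g.one_lt_eta hN hp hq hqp hc h
      · exact hetaU T ⟨hT, h⟩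
    unfold eta at h1
    rwa [one_lt_div (mul_pos hs (mul_pos (hposv T (h10.le.trans hT)) (hduu T (h10.le.trans hT))))] at h1
  have hcr : ContinuousOn (ratio p q U V) (Ici T₁) :=
    hcV.continuousOn.div (continuous_pow_comp hs hcU).continuousOn fun x hx =>
      (Real.rpow_pos_of_pos (hposu x hx) _).ne'
  obtain ⟨d, hd, hdec⟩ := g.exists_ratio_decay hN hp hq hqp hc
  have hr0 : ratio p q U V 0 = a := by rw [ratio, g.u_zero, g.v_zero, Real.one_rpow, div_one]
  refine ⟨T₁, T₀, U, V, ⟨h10, h0, hcU, hcV, g.u_zero, hposu, hposv, hduu, hduv, hdu, hdv,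
    hdiff (fun n => (hsm n).2) (fun x hx => (hposv x (le_of_lt hx)).ne'),
    hdiff (fun n => (hsm n).1) (fun x hx => (hposu x (le_of_lt hx)).ne'),
    hode hp hcV hdu, hode hq hcU hdv, fun n => (hsm n).1, fun n => (hsm n).2, ?_, hdet, ?_, ?_, hcr,
    g.tendsto_ratio hN hp hq hqp hc, g.tendsto_u hN hp hq, g.tendsto_v hN hp hq,
    g.exists_eta_bound hN hp hq hqp hc, ⟨d, hd, fun T hT => by rw [hr0]; exact hdec T hT⟩⟩⟩
  · intro T hT
    rcases lt_trichotomy T 0 with h | rfl | h
    · have := o.relation_back hN hp hq hT₁0 hc ⟨hT, h⟩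
      have h1 := hposu T hT
      have h2 := hposv T hT
      have h3 := hduu T hT
      have h4 := hduv T hT
      unfold eta qX qZ sig du at this
      unfold energy
      unfold du at h3 h4
      rw [Real.rpow_add_one h1.ne', Real.rpow_add_one h2.ne']
      generalize ker N (fun x => V x ^ p) T = K at this h3 ⊢
      generalize ker N (fun x => U x ^ q) T = L at this h4 ⊢
      have hK0 : K ≠ 0 := by linarith
      have hL0 : L ≠ 0 := by linarith
      field_simp at this ⊢
      linear_combination this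
    · unfold energy
      rw [g.u_zero, g.v_zero, ker_zero hN, ker_zero hN, g.u_zero, g.v_zero, Real.one_rpow,
        Real.one_rpow, Real.rpow_add_one ha.ne']
      have : N ≠ 0 := by linarith
      field_simp
      ring
    · exact energy_eq_zero hN hp hq hc (g T h.le) h
  · have h := (hgapU T₀ h0.le).trans hgap
    unfold gap at h
    rw [ratio, div_eq_iff (Real.rpow_pos_of_pos (hposu T₀ h10.le) _).ne']
    linarith
  · refine strictAntiOn_of_deriv_neg (convex_Ici T₀) (hcr.mono (Ici_subset_Ici.2 h10.le)) fun x hx => ?_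
    rw [interior_Ici] at hx
    have hx : T₀ < x := hx
    have h1 := hposu x (h10.trans hx).le
    have h2 := hposv x (h10.trans hx).le
    have hd := (hdv x (h10.trans hx)).div ((hdu x (h10.trans hx)).rpow_const (p := sig p q)
      (Or.inl h1.ne')) (Real.rpow_pos_of_pos h1 _).ne'
    show deriv (fun y => V y / U y ^ sig p q) x < 0
    rw [show (fun y => V y / U y ^ sig p q) = V / fun y => U y ^ sig p q from rfl, hd.deriv,
      Real.rpow_sub_one h1.ne']
    refine div_neg_of_neg_of_pos ?_ (by positivity)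
    have h := hdet x hx.le
    have e : -du N q U x * U x ^ sig p q
        - V x * (-du N p V x * sig p q * (U x ^ sig p q / U x))
        = -(U x ^ sig p q / U x) * (U x * du N q U x - sig p q * (V x * du N p V x)) := by
      field_simp; ring
    rw [e]
    exact mul_neg_of_neg_of_pos (neg_neg_of_pos (by positivity)) (by linarith)

end

end Vale.Agent.P100.Orbit
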