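import Vale.Agent.P100.Orbit.PhaseBack

/-!
# P100: for `T > 0`, `ζ` decreases and `w₁` increases strictly

With `u = (α+2)/ζ` and `Φ = N (S - ξ) - Z (2N - u)` one has `2 T w₁' = w₁ Φ / N`. Where `Φ = 0`,
α Φ' - w (2N - u) Φ' = Z v G(u, w) with `v = u - N - 2`; `G` decreases in `u`, and a return of
`Φ` from `≤ 0` would need `G` to rise.
-/

namespace Vale.Agent.P100.Orbit

open MeasureTheory Set Filter Topology intervalIntegral

noncomputable section

variable {N p q a T : ℝ} {U V : ℝ → ℝ}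

/-- The quadratic part. -/
def gH (N α u : ℝ) : ℝ :=
  -(2 * u - N) * (u - N - 2) + (u - α - 2) * N * (u / (α + 2) - (N - 2) / α)

/-- The linear part. -/
def gL (N α u : ℝ) : ℝ := 2 * u - N + N * (u - α - 2) / α

/-- The sign of the crossing. -/
def gG (N α u w : ℝ) : ℝ := w * gH N α u - (α - w * (N - 2)) * gL N α u

/-- The variable `u`. -/
def pU (N p q : ℝ) (U V : ℝ → ℝ) (T : ℝ) : ℝ := (N / (q + 1) + 2) / pZeta N p q U V T

/-- `N` times the logarithmic rate of `w₁`. -/
def pPhi (N p q : ℝ) (U V : ℝ → ℝ) (T : ℝ) : ℝ :=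
  N * (N - 2 - qX N p U V T) - qZ N p V T * (2 * N - pU N p q U V T)

theorem gG_strictAnti {N α w u₁ u₂ : ℝ} (hN : 2 < N) (hα : (N - 2) / 2 ≤ α)
    (hw : 0 < w) (hwS : 0 ≤ α - w * (N - 2)) (h1 : N + 2 ≤ u₁) (h2 : u₁ < u₂) :
    gG N α u₂ w < gG N α u₁ w := by
  have hα0 : 0 < α := by linarith
  have hH : gH N α u₂ < gH N α u₁ := by
    have e : gH N α u₂ - gH N α u₁ = (u₂ - u₁) *
        (-2 * (u₁ + u₂) + 3 * N + 4 + N * (u₁ + u₂) / (α + 2) - N - N * (N - 2) / α) := by
      unfold gH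
      field_simp
      ring
    have hc : N / (α + 2) ≤ 2 := by rw [div_le_iff₀ (by linarith)]; linarith
    have hneg : -2 * (u₁ + u₂) + 3 * N + 4 + N * (u₁ + u₂) / (α + 2) - N - N * (N - 2) / α < 0 := by
      have hb : -2 * (u₁ + u₂) + N * (u₁ + u₂) / (α + 2) ≤ -2 * (2 * (N + 2)) + N * (2 * (N + 2)) / (α + 2) := by
        have h := mul_le_mul_of_nonneg_left (show 2 * (N + 2) ≤ u₁ + u₂ by linarith) (sub_nonneg.2 hc)
        have e1 : N * (u₁ + u₂) / (α + 2) = N / (α + 2) * (u₁ + u₂) := by ring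
        have e2 : N * (2 * (N + 2)) / (α + 2) = N / (α + 2) * (2 * (N + 2)) := by ring
        linarith
      have hk : N * (2 * (N + 2)) / (α + 2) - N * (N - 2) / α < 2 * N + 4 := by
        rw [div_sub_div _ _ (by linarith) hα0.ne', div_lt_iff₀ (by positivity)]
        nlinarith [mul_nonneg (mul_nonneg hα0.le hα0.le) (show (0 : ℝ) ≤ N + 2 by linarith),
          mul_nonneg (sub_nonneg.2 hα) hα0.le, mul_pos hα0 (show 0 < N - 2 by linarith),
          mul_le_mul_of_nonneg_left hα (mul_nonneg hα0.le (show (0 : ℝ) ≤ N + 4 by linarith))]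
      linarith
    have := mul_neg_of_pos_of_neg (sub_pos.2 h2) hneg
    linarith
  have hL : gL N α u₁ ≤ gL N α u₂ := by
    unfold gL
    have : N * (u₁ - α - 2) / α ≤ N * (u₂ - α - 2) / α := by gcongr
    linarith
  have := mul_lt_mul_of_pos_left hH hw
  have := mul_le_mul_of_nonneg_left hL hwS
  unfold gG
  linarith

theorem gG_neg_of_le {N α u w₁ w₂ : ℝ} (hα : 0 < α) (hL : 0 < gL N α u) (hw₂ : 0 < w₂)
    (h12 : w₂ < w₁) (h : gG N α u w₁ ≤ 0) : gG N α u w₂ < 0 := by
  have hK : w₁ * (gH N α u + (N - 2) * gL N α u) ≤ α * gL N α u := by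
    unfold gG at h; linarith
  have hαL := mul_pos hα hL
  unfold gG
  rcases le_or_gt (gH N α u + (N - 2) * gL N α u) 0 with hle | hgt
  · have := mul_nonpos_of_nonneg_of_nonpos hw₂.le hle
    linarith
  · have := mul_lt_mul_of_pos_right h12 hgt
    linarith

/-- The crossing identity. -/
theorem crossing_algebra {N α u Z X w : ℝ} (hN : N ≠ 0) (hα : α ≠ 0) (hα2 : α + 2 ≠ 0) (hu : u ≠ 0)
    (hw : (N / α) * X * w = N - Z) (hX : N * (N - 2 - X) = Z * (2 * N - u)) :
    (α - w * (2 * N - u)) *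
      (-N * X * (X + Z - (N - 2)) - Z * (N - u * (N - Z) / N - Z) * (2 * N - u)
        - Z * u * ((α + 2) - (N + 2) * ((α + 2) / u)
          - (N / α) * X * (1 - (α + 2) / u) * (w - (α + 2) / u)) / ((α + 2) / u))
      = Z * (u - N - 2) * gG N α u w := by
  have e : X = N - 2 - Z * (2 * N - u) / N := by field_simp; linarith
  subst e
  unfold gG gH gL
  field_simp at hw ⊢
  grind

namespace Ground

variable (hN : 2 < N) (hp : 0 < p) (hq : 0 < q) (g : Ground N p q a U V)
include hN hp hq g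
variable (hqp : q < p) (hc : N / (p + 1) + N / (q + 1) = N - 2)
include hqp hc

omit g hp in
theorem half_lt_alpha (hp : 0 < p) : (N - 2) / 2 < N / (q + 1) := by
  have : N / (p + 1) < N / (q + 1) := div_lt_div_of_pos_left (by linarith) (by linarith) (by linarith)
  linarith

omit g in
theorem zeta0_eq : zeta0 N p = (N / (q + 1) + 2) / (N + 2) := by
  have e' : zeta0 N p = (N - N / (p + 1)) / (N + 2) := by
    have : N + 2 ≠ 0 := by linarith
    unfold zeta0; field_simp; ring
  rw [e', show N - N / (p + 1) = N / (q + 1) + 2 by linarith]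

theorem pU_gt (hT : 0 < T) : N + 2 < pU N p q U V T := by
  have h := g.pZeta_lt_zeta0 hN hp hq hc hqp hT
  rw [zeta0_eq hN hp hq hqp hc, lt_div_iff₀ (by linarith)] at h
  unfold pU
  rw [lt_div_iff₀ (g.pZeta_pos hN hp hq hc hT)]
  linarith

theorem continuousAt_zeta (hT : 0 < T) : ContinuousAt (pZeta N p q U V) T :=
  (g.hasDerivAt_pZeta hN hp hq hc hT).continuousAt

theorem hasDerivAt_pW' (hT : 0 < T) :
    HasDerivAt (pW N p q U V) (pW N p q U V T * pPhi N p q U V T / (N * (2 * T))) T := by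
  refine (g.hasDerivAt_pW hN hp hq hc hT).congr_deriv ?_
  have hX := (g.qX_pos hN hp hq hT).ne'
  have hz := (g.pZeta_pos hN hp hq hc hT).ne'
  have hq1 : q + 1 ≠ 0 := by linarith
  have hN0 : N ≠ 0 := by linarith
  have hw : N - qZ N p V T = (q + 1) * qX N p U V T * pW N p q U V T := by
    unfold pW; field_simp
  have e : (N + 2) * zeta0 N p = N / (q + 1) + 2 := by
    rw [zeta0_eq hN hp hq hqp hc]; field_simp
  unfold pPhi pU
  rw [show qZ N p V T = N - (q + 1) * qX N p U V T * pW N p q U V T by linarith, mul_sub, e]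
  field_simp
  ring

/-- The derivative of `Φ` with respect to `T`, times `2 T`. -/
def phiRate (N p q : ℝ) (U V : ℝ → ℝ) (T : ℝ) : ℝ :=
  -N * (qX N p U V T * (qX N p U V T + qZ N p V T - N + 2))
    - qZ N p V T * (N - p * qX N q V U T - qZ N p V T) * (2 * N - pU N p q U V T)
    - qZ N p V T * ((N / (q + 1) + 2) * ((N + 2) * (zeta0 N p - pZeta N p q U V T)
        - qX N p U V T * (q + 1) * (1 - pZeta N p q U V T) * (pW N p q U V T - pZeta N p q U V T))
      / pZeta N p q U V T ^ 2)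

theorem hasDerivAt_pPhi (hT : 0 < T) :
    HasDerivAt (pPhi N p q U V) (phiRate N p q U V T / (2 * T)) T := by
  have hz := (g.pZeta_pos hN hp hq hc hT).ne'
  have hu : HasDerivAt (pU N p q U V) _ T :=
    (hasDerivAt_const T (N / (q + 1) + 2)).div (g.hasDerivAt_pZeta hN hp hq hc hT) hz
  refine ((((g.hasDerivAt_qX hN hp hq hT).const_sub (N - 2)).const_mul N).sub
    ((g.hasDerivAt_qZ hN hp hq hT).mul (hu.const_sub (2 * N)))).congr_deriv ?_
  unfold phiRate pU
  field_simp
  ring

/-- On `Φ = 0` the sign of the derivative is that of `G`. -/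
theorem phiRate_sign (hT : 0 < T) (h0 : pPhi N p q U V T = 0) :
    ∃ c > 0, c * phiRate N p q U V T = gG N (N / (q + 1)) (pU N p q U V T) (pW N p q U V T) := by
  set α := N / (q + 1)
  set u := pU N p q U V T
  set w := pW N p q U V T
  set X := qX N p U V T
  set Z := qZ N p V T
  have hN0 : 0 < N := by linarith
  have hα : 0 < α := by positivity
  have hu : N + 2 < u := g.pU_gt hN hp hq hqp hc hT
  have hZ : 0 < Z := g.qZ_pos hN hp hq hT.le
  have hz : pZeta N p q U V T = (α + 2) / u := by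
    have := g.pZeta_pos hN hp hq hc hT
    simp only [u, pU, α]
    field_simp
  have hαq : q + 1 = N / α := by simp only [α]; field_simp
  have hw : N / α * X * w = N - Z := by
    have hX := (g.qX_pos hN hp hq hT).ne'
    rw [← hαq]
    simp only [w, X, Z, pW]
    field_simp
  have hX : N * (N - 2 - X) = Z * (2 * N - u) := by
    unfold pPhi at h0; linarith
  have hpY : p * qX N q V U T = u * (N - Z) / N := by
    have hY := (g.qY_pos hN hp hq hT).ne'
    have h2 : (α + 2) * (p + 1) = N * p := by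
      have h : N / (p + 1) * (p + 1) = N := div_mul_cancel₀ _ (by linarith)
      linear_combination (p + 1) * hc - h
    have e : pZeta N p q U V T * ((p + 1) * qX N q V U T) = N - Z := by
      simp only [pZeta, Z]; field_simp
    calc p * qX N q V U T = (α + 2) * (p + 1) * qX N q V U T / N := by rw [h2]; field_simp
      _ = u * ((α + 2) / u * ((p + 1) * qX N q V U T)) / N := by
          have : u ≠ 0 := by linarith
          field_simp
      _ = _ := by rw [← hz, e]
  have hwS : 0 ≤ α - w * (N - 2) := by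
    have := g.pW_lt hN hp hq hqp hc hT
    rw [lt_div_iff₀ (by linarith)] at this
    simp only [w, α]
    linarith
  have hden : 0 < α - w * (2 * N - u) := by
    have := mul_pos (g.pW_pos hN hp hq hc hT) (show 0 < u - (N + 2) by linarith)
    linarith
  refine ⟨(α - w * (2 * N - u)) / (Z * (u - N - 2)), div_pos hden (mul_pos hZ (by linarith)), ?_⟩
  have halg := crossing_algebra hN0.ne' hα.ne' (show α + 2 ≠ 0 by linarith) (show u ≠ 0 by linarith) hw hX
  have er : phiRate N p q U V T = -N * X * (X + Z - (N - 2)) - Z * (N - u * (N - Z) / N - Z) * (2 * N - u)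
        - Z * u * ((α + 2) - (N + 2) * ((α + 2) / u)
          - N / α * X * (1 - (α + 2) / u) * (w - (α + 2) / u)) / ((α + 2) / u) := by
    have hz0 : (N + 2) * zeta0 N p = α + 2 := by
      rw [zeta0_eq hN hp hq hqp hc]; simp only [α]; field_simp
    simp only [phiRate]
    rw [mul_sub (N + 2), hz0, hpY, hz, hαq]
    have hu0 : u ≠ 0 := by linarith
    field_simp
    ring
  rw [div_mul_eq_mul_div, div_eq_iff (mul_pos hZ (by linarith)).ne', er, halg]
  ring

theorem gL_pos (hT : 0 < T) : 0 < gL N (N / (q + 1)) (pU N p q U V T) := by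
  have hu := g.pU_gt hN hp hq hqp hc hT
  have hα : N / (q + 1) < N := div_lt_self (by linarith) (by linarith)
  have h : 0 ≤ N * (pU N p q U V T - N / (q + 1) - 2) / (N / (q + 1)) :=
    div_nonneg (mul_nonneg (by linarith) (by linarith)) (div_nonneg (by linarith) (by linarith))
  unfold gL
  linarith

theorem sub_w_nonneg (hT : 0 < T) : 0 < N / (q + 1) - pW N p q U V T * (N - 2) := by
  have := g.pW_lt hN hp hq hqp hc hT
  rw [lt_div_iff₀ (by linarith)] at this
  linarith

theorem pW_lt_of_phi_neg {x y : ℝ} (hx : 0 < x) (hxy : x < y)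
    (h : ∀ z ∈ Ioo x y, pPhi N p q U V z < 0) : pW N p q U V y < pW N p q U V x := by
  obtain ⟨c, hc', e⟩ := exists_hasDerivAt_eq_slope _ _ hxy
    (fun z hz => (g.hasDerivAt_pW' hN hp hq hqp hc (hx.trans_le hz.1)).continuousAt.continuousWithinAt)
    fun z hz => g.hasDerivAt_pW' hN hp hq hqp hc (hx.trans hz.1)
  have hc0 : 0 < c := hx.trans hc'.1
  have hneg : pW N p q U V c * pPhi N p q U V c / (N * (2 * c)) < 0 :=
    div_neg_of_neg_of_pos (mul_neg_of_pos_of_neg (g.pW_pos hN hp hq hc hc0) (h c hc'))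
      (mul_pos (by linarith) (by linarith))
  rw [e, div_neg_iff] at hneg
  rcases hneg with ⟨-, h⟩ | ⟨h, -⟩ <;> linarith

theorem pW_le_of_phi_nonpos {x y : ℝ} (hx : 0 < x) (hxy : x ≤ y)
    (h : ∀ z ∈ Ioo x y, pPhi N p q U V z ≤ 0) : pW N p q U V y ≤ pW N p q U V x := by
  have := slope_le (f := pW N p q U V) (C := 0) hxy
    (fun z hz => (g.hasDerivAt_pW' hN hp hq hqp hc (hx.trans_le hz.1)).continuousAt.continuousWithinAt)
    (fun z hz => g.hasDerivAt_pW' hN hp hq hqp hc (hx.trans hz.1)) fun z hz =>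
      div_nonpos_of_nonpos_of_nonneg (mul_nonpos_of_nonneg_of_nonpos
        (g.pW_pos hN hp hq hc (hx.trans hz.1)).le (h z hz)) (mul_nonneg (by linarith) (by linarith [hz.1]))
  linarith

/-- `Φ` is negative forever after a zero at which it does not increase. -/
theorem phi_neg_after {S : ℝ} (hS : 0 < S) (h0 : pPhi N p q U V S = 0)
    (hG : gG N (N / (q + 1)) (pU N p q U V S) (pW N p q U V S) ≤ 0) {b : ℝ} (hb : S < b)
    (hneg : ∀ x ∈ Ioo S b, pPhi N p q U V x < 0) : ∀ x, S < x → pPhi N p q U V x < 0 := by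
  intro x hx
  by_contra hbad
  push Not at hbad
  obtain ⟨y', hy', hy'2⟩ := exists_between (lt_min hb hx)
  have hcl : IsClosed (Icc y' x ∩ pPhi N p q U V ⁻¹' Ici 0) :=
    ContinuousOn.preimage_isClosed_of_isClosed (fun z hz => (g.hasDerivAt_pPhi hN hp hq hqp hc
      (hS.trans (hy'.trans_le hz.1))).continuousAt.continuousWithinAt) isClosed_Icc isClosed_Ici
  have hbd : BddBelow (Icc y' x ∩ pPhi N p q U V ⁻¹' Ici 0) := ⟨y', fun z hz => hz.1.1⟩
  obtain ⟨hI, hv⟩ := hcl.csInf_mem ⟨x, ⟨(hy'2.trans_le (min_le_right _ _)).le, le_rfl⟩, hbad⟩ hbd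
  set y := sInf (Icc y' x ∩ pPhi N p q U V ⁻¹' Ici 0)
  have hlt : y' < y := hI.1.lt_of_ne fun e => by
    rw [← e] at hv
    exact not_lt.2 hv (hneg y' ⟨hy', hy'2.trans_le (min_le_left _ _)⟩)
  have hbef : ∀ z ∈ Ioo S y, pPhi N p q U V z < 0 := fun z hz => by
    rcases lt_or_ge z b with h | h
    · exact hneg z ⟨hz.1, h⟩
    · exact not_le.1 fun h' => not_le.2 hz.2
        (csInf_le hbd ⟨⟨(hy'2.trans_le (min_le_left _ _)).le.trans h, hz.2.le.trans hI.2⟩, h'⟩)
  have hy0 : 0 < y := hS.trans (hy'.trans hlt)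
  have he : pPhi N p q U V y = 0 := le_antisymm
    (le_of_tendsto ((g.hasDerivAt_pPhi hN hp hq hqp hc hy0).continuousAt.mono_left nhdsWithin_le_nhds)
      (mem_of_superset (Ioo_mem_nhdsLT (hy'.trans hlt)) fun z hz => (hbef z hz).le)) hv
  -- `Φ` reaches zero from below, so `G ≥ 0` there
  have hGy : 0 ≤ gG N (N / (q + 1)) (pU N p q U V y) (pW N p q U V y) := by
    by_contra hcon
    push Not at hcon
    obtain ⟨c, hc0, ec⟩ := g.phiRate_sign hN hp hq hqp hc hy0 he
    have hd : phiRate N p q U V y / (2 * y) < 0 :=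
      div_neg_of_neg_of_pos (neg_of_mul_neg_right (by rw [ec]; exact hcon) hc0.le) (by linarith)
    obtain ⟨z, hz1, hz2⟩ := ((eventually_lt_of_deriv_neg (g.hasDerivAt_pPhi hN hp hq hqp hc hy0) hd).2.and
      (Ioo_mem_nhdsLT (hy'.trans hlt))).exists
    linarith [hbef z hz2]
  have hw : pW N p q U V y < pW N p q U V S :=
    g.pW_lt_of_phi_neg hN hp hq hqp hc hS (hy'.trans hlt) hbef
  have hZ : qZ N p V y < qZ N p V S := by
    have := slope_le (f := qZ N p V) (C := 0) (hy'.trans hlt).le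
      (fun z hz => (g.hasDerivAt_qZ hN hp hq (hS.trans_le hz.1)).continuousAt.continuousWithinAt)
      (fun z hz => g.hasDerivAt_qZ hN hp hq (hS.trans hz.1)) fun z hz => by
        have hz0 : 0 < z := hS.trans hz.1
        have hr := g.qZ_rate hN hp hq hqp hc hz0
        have hZ := g.qZ_lt hN hp hq hz0
        refine div_nonpos_of_nonpos_of_nonneg (mul_nonpos_of_nonneg_of_nonpos
          (g.qZ_pos hN hp hq hz0.le).le ?_) (by linarith)
        refine nonpos_of_mul_nonpos_right ?_ (show 0 < N by linarith)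
        linarith
    refine lt_of_le_of_ne (by linarith) fun e => ?_
    -- equal `Z` would force equal `ξ w₁`, but `ξ` increases
    have hs : ∀ z, 0 < z → (q + 1) * (qX N p U V z * pW N p q U V z) = N - qZ N p V z := fun z hz => by
      have := (g.qX_pos hN hp hq hz).ne'
      have : q + 1 ≠ 0 := by linarith
      unfold pW; field_simp
    have h1 := hs y hy0
    have h2 := hs S hS
    rw [e, ← h2] at h1
    have h3 := mul_left_cancel₀ (show q + 1 ≠ 0 by linarith) h1
    have hX : qX N p U V S < qX N p U V y := by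
      obtain ⟨c, hc', e'⟩ := exists_hasDerivAt_eq_slope _ _ (hy'.trans hlt)
        (fun z hz => (g.hasDerivAt_qX hN hp hq (hS.trans_le hz.1)).continuousAt.continuousWithinAt)
        fun z hz => g.hasDerivAt_qX hN hp hq (hS.trans hz.1)
      have hc0 : 0 < c := hS.trans hc'.1
      have : 0 < qX N p U V c * (qX N p U V c + qZ N p V c - N + 2) / (2 * c) :=
        div_pos (mul_pos (g.qX_pos hN hp hq hc0) (g.qX_rate_pos hN hp hq hqp hc hc0)) (by linarith)
      rw [e', div_pos_iff_of_pos_right (sub_pos.2 (hy'.trans hlt))] at this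
      linarith
    unfold pPhi at he h0
    rw [e] at he
    -- then `u` would be larger at `y`
    have hZp := g.qZ_pos hN hp hq hS.le
    have hu : pU N p q U V S < pU N p q U V y := by
      have := mul_lt_mul_of_pos_left hX (show (0 : ℝ) < N by linarith)
      refine lt_of_mul_lt_mul_left ?_ hZp.le
      linarith
    exact absurd (gG_neg_of_le (by positivity) (g.gL_pos hN hp hq hqp hc hy0)
      (g.pW_pos hN hp hq hc hy0) hw (le_trans (gG_strictAnti hN (half_lt_alpha hN hq hqp hc hp).le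
        (g.pW_pos hN hp hq hc hS) (g.sub_w_nonneg hN hp hq hqp hc hS).le
        (g.pU_gt hN hp hq hqp hc hS).le hu).le hG)) (not_lt.2 hGy)
  -- `u` is larger at `y`
  have hu : pU N p q U V S < pU N p q U V y := by
    have key : ∀ z, 0 < z → pPhi N p q U V z = 0 →
        (N / (q + 1) - pW N p q U V z * (N - 2)) * (N - qZ N p V z)
          = pW N p q U V z * qZ N p V z * (pU N p q U V z - N - 2) := fun z hz hz0 => by
      have := (g.qX_pos hN hp hq hz).ne'
      have hq1 : q + 1 ≠ 0 := by linarith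
      have e : pW N p q U V z * ((q + 1) * qX N p U V z) = N - qZ N p V z := by
        unfold pW; field_simp
      unfold pPhi at hz0
      field_simp
      linear_combination (-(N)) * e - (q + 1) * pW N p q U V z * hz0
    have k1 := key S hS h0
    have k2 := key y hy0 he
    have hwy := g.pW_pos hN hp hq hc hy0
    have hwS := g.pW_pos hN hp hq hc hS
    have hZy := g.qZ_pos hN hp hq hy0.le
    have hεS := g.sub_w_nonneg hN hp hq hqp hc hS
    have hεy : N / (q + 1) - pW N p q U V S * (N - 2) < N / (q + 1) - pW N p q U V y * (N - 2) := by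
      have := mul_lt_mul_of_pos_right hw (show 0 < N - 2 by linarith)
      linarith
    have hd : (N / (q + 1) - pW N p q U V S * (N - 2)) * (N - qZ N p V S)
        < (N / (q + 1) - pW N p q U V y * (N - 2)) * (N - qZ N p V y) :=
      mul_lt_mul hεy (by linarith) (sub_pos.2 (g.qZ_lt hN hp hq hS)) (by linarith)
    rw [k1, k2] at hd
    by_contra hle
    push Not at hle
    have hv := g.pU_gt hN hp hq hqp hc hy0
    have : pW N p q U V y * qZ N p V y * (pU N p q U V y - N - 2)
        ≤ pW N p q U V S * qZ N p V S * (pU N p q U V S - N - 2) :=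
      mul_le_mul (mul_le_mul hw.le hZ.le hZy.le hwS.le) (by linarith) (by linarith)
        (mul_nonneg hwS.le (g.qZ_pos hN hp hq hS.le).le)
    linarith
  exact absurd (gG_neg_of_le (by positivity) (g.gL_pos hN hp hq hqp hc hy0)
    (g.pW_pos hN hp hq hc hy0) hw (le_trans (gG_strictAnti hN (half_lt_alpha hN hq hqp hc hp).le
      (g.pW_pos hN hp hq hc hS) (g.sub_w_nonneg hN hp hq hqp hc hS).le
      (g.pU_gt hN hp hq hqp hc hS).le hu).le hG)) (not_lt.2 hGy)

omit g in
theorem gG_start (w : ℝ) :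
    gG N (N / (q + 1)) (N + 2) w * zeta0 N p * (q + 1)
      = (N + 4) * ((q + 1) * (N - 2) * w - N) * zeta0 N p
        + N * (N + 2) * (q + 1) * (1 - zeta0 N p) * (w - zeta0 N p) := by
  rw [zeta0_eq hN hp hq hqp hc]
  set α := N / (q + 1)
  have hα : 0 < α := by have : 0 < N := by linarith
                        positivity
  have hαq : q + 1 = N / α := by simp only [α]; field_simp
  rw [hαq]
  unfold gG gH gL
  have : α + 2 ≠ 0 := by linarith
  field_simp
  ring

/-- Near the centre `Φ > 0` when `G(N + 2, w) > 0` with `w` a lower bound for `w₁`. -/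
theorem phi_pos_start {w b : ℝ} (hb : 0 < b) (hwz : zeta0 N p ≤ w)
    (hw : ∀ x ∈ Ioo 0 b, w ≤ pW N p q U V x)
    (hG : 0 < gG N (N / (q + 1)) (N + 2) w) : ∃ x ∈ Ioo 0 b, 0 < pPhi N p q U V x := by
  have hN0 : 0 < N := by linarith
  set z₀ := zeta0 N p
  have hz₀ : 0 < z₀ := by show 0 < zeta0 N p; unfold zeta0; positivity
  set B := (N + 4) * ((q + 1) * (N - 2) * w - N) * z₀ + N * (N + 2) * (q + 1) * (1 - z₀) * (w - z₀)
  have hB : 0 < B := by
    rw [show B = gG N (N / (q + 1)) (N + 2) w * z₀ * (q + 1) from (gG_start hN hp hq hqp hc w).symm]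
    positivity
  set c₀ := (q + 1) * (1 - z₀) * (w - z₀) / (N + 4)
  -- `B > 0` says exactly that the slope of `Φ` at `0` is positive
  have hslope : 0 < -N + (q + 1) * (N - 2) * w + N * ((N + 2) * c₀) / z₀ := by
    have e : -N + (q + 1) * (N - 2) * w + N * ((N + 2) * c₀) / z₀ = B / ((N + 4) * z₀) := by
      simp only [B, c₀]; field_simp; ring
    rw [e]
    positivity
  have hev : ∀ᶠ e in 𝓝[>] (0 : ℝ),
      0 < -N + (q + 1) * (N - 2) * w + (N - e) * ((N + 2) * (c₀ - e)) / z₀ := by
    refine (((by fun_prop : Continuous fun e : ℝ =>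
      -N + (q + 1) * (N - 2) * w + (N - e) * ((N + 2) * (c₀ - e)) / z₀).tendsto 0).mono_left
        nhdsWithin_le_nhds).eventually (eventually_gt_nhds ?_)
    simpa using hslope
  obtain ⟨e, he, hep, heN⟩ := (hev.and ((eventually_mem_nhdsWithin (s := Ioi (0 : ℝ))).and
    ((eventually_lt_nhds hN0).filter_mono nhdsWithin_le_nhds))).exists
  have hep : (0 : ℝ) < e := hep
  -- close enough to the centre
  have hZ0 : Tendsto (qZ N p V) (𝓝[>] 0) (𝓝 N) := by
    have h : ContinuousWithinAt (qZ N p V) (Ici 0) 0 :=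
      (continuous_pow_comp hp g.cont_v).continuousWithinAt.div (continuous_du hN hp g.cont_v).continuousWithinAt
        (g.du_u_pos hN hp le_rfl).ne'
    have h' := h.tendsto.mono_left (nhdsWithin_mono 0 Ioi_subset_Ici_self)
    have e0 : qZ N p V 0 = N := by
      have : 0 < V 0 ^ p := Real.rpow_pos_of_pos (g.pair_v le_rfl) p
      unfold qZ; rw [du_zero hN]; field_simp
    rwa [e0] at h'
  have hrhs : Tendsto (fun x => (q + 1) * (1 - pZeta N p q U V x) * (w - pZeta N p q U V x)
      - (c₀ - e) * (N + 2 + (qX N p U V x + qZ N p V x - N + 2))) (𝓝[>] 0)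
      (𝓝 ((q + 1) * (1 - z₀) * (w - z₀) - (c₀ - e) * (N + 2 + (0 + N - N + 2)))) := by
    have hz := g.tendsto_pZeta_zero hN hp hq hqp hc
    exact (((hz.const_sub 1).const_mul (q + 1)).mul (hz.const_sub w)).sub
      (((((g.qX_small hN hp hq).add hZ0).sub_const N).add_const 2).const_add (N + 2) |>.const_mul (c₀ - e))
  have hpos : 0 < (q + 1) * (1 - z₀) * (w - z₀) - (c₀ - e) * (N + 2 + (0 + N - N + 2)) := by
    have : (q + 1) * (1 - z₀) * (w - z₀) = c₀ * (N + 4) := by simp only [c₀]; field_simp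
    rw [this]
    have := mul_pos hep (show 0 < N + 4 by linarith)
    linarith
  obtain ⟨b', hb', hsub⟩ := mem_nhdsGT_iff_exists_Ioo_subset.1
    ((hrhs.eventually (eventually_gt_nhds hpos)).and (hZ0.eventually (eventually_gt_nhds (sub_lt_self N hep))))
  have hb' : (0 : ℝ) < b' := hb'
  obtain ⟨x, hx0, hx⟩ := exists_between (lt_min hb hb')
  refine ⟨x, ⟨hx0, hx.trans_le (min_le_left _ _)⟩, ?_⟩
  set m := (N + 2) / 2
  have hm : 0 < m := by show 0 < (N + 2) / 2; linarith
  let f : ℝ → ℝ := fun y => y ^ m * (z₀ - pZeta N p q U V y - (c₀ - e) * qX N p U V y)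
  have hd : ∀ y, 0 < y → HasDerivAt f (y ^ m * qX N p U V y * ((q + 1) * (1 - pZeta N p q U V y)
      * (pW N p q U V y - pZeta N p q U V y)
      - (c₀ - e) * (N + 2 + (qX N p U V y + qZ N p V y - N + 2))) / (2 * y)) y := fun y hy => by
    refine ((Real.hasDerivAt_rpow_const (p := m) (Or.inl hy.ne')).mul
      (((g.hasDerivAt_pZeta hN hp hq hc hy).const_sub z₀).sub
        ((g.hasDerivAt_qX hN hp hq hy).const_mul (c₀ - e)))).congr_deriv ?_
    rw [Real.rpow_sub hy, Real.rpow_one]
    simp only [m, Pi.sub_apply]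
    field_simp
    ring
  have hmono : ∀ y, 0 < y → y < x → f y ≤ f x := fun y hy hyx => by
    have := le_slope (f := f) (C := 0) hyx.le (fun z hz => (hd z (hy.trans_le hz.1)).continuousAt.continuousWithinAt)
      (fun z hz => hd z (hy.trans hz.1)) fun z hz => by
        have hz0 : 0 < z := hy.trans hz.1
        have h := (hsub ⟨hz0, hz.2.trans (hx.trans_le (min_le_right _ _))⟩).1
        refine div_nonneg (mul_nonneg (mul_nonneg (Real.rpow_nonneg hz0.le _) (g.qX_pos hN hp hq hz0).le) ?_)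
          (by linarith)
        refine le_trans h.le (sub_le_sub_right (mul_le_mul_of_nonneg_left ?_ ?_) _)
        · linarith [hw z ⟨hz0, hz.2.trans (hx.trans_le (min_le_left _ _))⟩]
        · exact mul_nonneg (by linarith) (sub_nonneg.2 (g.pZeta_lt_one hN hp hq hc hz0).le)
    linarith
  have hlim : Tendsto f (𝓝[>] 0) (𝓝 0) := by
    have hpow := (Real.continuousAt_rpow_const 0 m (Or.inr hm.le)).tendsto.mono_left
      (nhdsWithin_le_nhds (s := Ioi (0 : ℝ)))
    have h := hpow.mul (((g.tendsto_pZeta_zero hN hp hq hqp hc).const_sub z₀).sub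
      ((g.qX_small hN hp hq).const_mul (c₀ - e)))
    rwa [Real.zero_rpow hm.ne', zero_mul] at h
  have h0 : 0 ≤ f x := le_of_tendsto hlim (by
    filter_upwards [Ioo_mem_nhdsGT hx0] with y hy using hmono y hy.1 hy.2)
  have h1 : (c₀ - e) * qX N p U V x ≤ z₀ - pZeta N p q U V x := by
    have := nonneg_of_mul_nonneg_right h0 (Real.rpow_pos_of_pos hx0 m)
    linarith
  have hZx : N - e < qZ N p V x := (hsub ⟨hx0, hx.trans_le (min_le_right _ _)⟩).2
  have hX := g.qX_pos hN hp hq hx0
  have hz := g.pZeta_pos hN hp hq hc hx0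
  have hzlt := g.pZeta_lt_zeta0 hN hp hq hc hqp hx0
  have hu : pU N p q U V x - N - 2 = (N + 2) * (z₀ - pZeta N p q U V x) / pZeta N p q U V x := by
    simp only [z₀]
    rw [zeta0_eq hN hp hq hqp hc]
    unfold pU
    have : N + 2 ≠ 0 := by linarith
    field_simp
    ring
  have hwx : qX N p U V x * ((q + 1) * pW N p q U V x) = N - qZ N p V x := by
    have : q + 1 ≠ 0 := by linarith
    unfold pW; field_simp
  have hPhi : pPhi N p q U V x = -N * qX N p U V x + (N - 2) * (N - qZ N p V x)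
      + qZ N p V x * ((N + 2) * (z₀ - pZeta N p q U V x) / pZeta N p q U V x) := by
    rw [← hu]; unfold pPhi; ring
  -- compare with the slope
  have h2 : qX N p U V x * ((q + 1) * (N - 2) * w) ≤ (N - 2) * (N - qZ N p V x) := by
    rw [← hwx]
    have := mul_le_mul_of_nonneg_left (hw x ⟨hx0, hx.trans_le (min_le_left _ _)⟩)
      (mul_nonneg hX.le (mul_nonneg (show (0 : ℝ) ≤ q + 1 by linarith) (show (0 : ℝ) ≤ N - 2 by linarith)))
    linarith
  have h3 : qX N p U V x * ((N - e) * ((N + 2) * (c₀ - e)) / z₀)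
      ≤ qZ N p V x * ((N + 2) * (z₀ - pZeta N p q U V x) / pZeta N p q U V x) := by
    have hD : 0 ≤ z₀ - pZeta N p q U V x := by simp only [z₀]; linarith
    have e1 : qX N p U V x * ((N - e) * ((N + 2) * (c₀ - e)) / z₀)
        = (N - e) * ((N + 2) * ((c₀ - e) * qX N p U V x) / z₀) := by ring
    rw [e1]
    refine le_trans (mul_le_mul_of_nonneg_left ?_ (sub_nonneg.2 heN.le))
      (mul_le_mul_of_nonneg_right hZx.le (div_nonneg (mul_nonneg (by linarith) hD) hz.le))
    refine le_trans (div_le_div_of_nonneg_right (mul_le_mul_of_nonneg_left h1 (by linarith)) hz₀.le) ?_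
    exact div_le_div_of_nonneg_left (mul_nonneg (by linarith) hD) hz (by simp only [z₀]; linarith)
  have h4 := mul_pos hX he
  rw [hPhi]
  linarith

/-- `w₁` increases: `Φ ≥ 0` throughout. -/
theorem pPhi_nonneg (hT : 0 < T) : 0 ≤ pPhi N p q U V T := by
  by_contra hT'
  push Not at hT'
  have hcont : ∀ x, 0 < x → ContinuousAt (pPhi N p q U V) x := fun x hx =>
    (g.hasDerivAt_pPhi hN hp hq hqp hc hx).continuousAt
  -- `Φ` cannot stay negative
  have hnot : ∀ S, 0 < S → ¬ ∀ x, S < x → pPhi N p q U V x < 0 := by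
    intro S hS h
    have hle : ∀ x, S + 1 ≤ x → pW N p q U V x ≤ pW N p q U V (S + 1) := fun x hx =>
      g.pW_le_of_phi_nonpos hN hp hq hqp hc (by linarith) hx fun z hz => (h z (by linarith [hz.1])).le
    have := le_of_tendsto (g.tendsto_pW hN hp hq hqp hc) (eventually_atTop.2 ⟨S + 1, hle⟩)
    exact not_lt.2 this (g.pW_lt hN hp hq hqp hc (by linarith))
  obtain ⟨R, hR, hRneg⟩ : ∃ R, 0 < R ∧ pPhi N p q U V R < 0 := ⟨T, hT, hT'⟩
  -- the last zero before `R`
  by_cases hz : ∃ x ∈ Ioc 0 R, 0 ≤ pPhi N p q U V x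
  · obtain ⟨x₀, hx₀, hx₀'⟩ := hz
    have hcl : IsClosed (Icc x₀ R ∩ pPhi N p q U V ⁻¹' Ici 0) :=
      ContinuousOn.preimage_isClosed_of_isClosed (fun z hz => (hcont z (hx₀.1.trans_le hz.1)).continuousWithinAt)
        isClosed_Icc isClosed_Ici
    have hbd : BddAbove (Icc x₀ R ∩ pPhi N p q U V ⁻¹' Ici 0) := ⟨R, fun z hz => hz.1.2⟩
    obtain ⟨hI, hv⟩ := hcl.csSup_mem ⟨x₀, ⟨le_rfl, hx₀.2⟩, hx₀'⟩ hbd
    set S := sSup (Icc x₀ R ∩ pPhi N p q U V ⁻¹' Ici 0)
    have hS0 : 0 < S := hx₀.1.trans_le hI.1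
    have hSR : S < R := hI.2.lt_of_ne fun e => by rw [e] at hv; exact not_lt.2 hv hRneg
    have haft : ∀ x ∈ Ioo S R, pPhi N p q U V x < 0 := fun x hx => not_le.1 fun h =>
      not_le.2 hx.1 (le_csSup hbd ⟨⟨hI.1.trans hx.1.le, hx.2.le⟩, h⟩)
    have he : pPhi N p q U V S = 0 := le_antisymm (le_of_tendsto
      ((hcont S hS0).mono_left nhdsWithin_le_nhds)
      (mem_of_superset (Ioo_mem_nhdsGT hSR) fun x hx => (haft x hx).le)) hv
    have hG : gG N (N / (q + 1)) (pU N p q U V S) (pW N p q U V S) ≤ 0 := by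
      by_contra hcon
      push Not at hcon
      obtain ⟨c, hc0, ec⟩ := g.phiRate_sign hN hp hq hqp hc hS0 he
      have hd : -(phiRate N p q U V S / (2 * S)) < 0 :=
        neg_neg_of_pos (div_pos (pos_of_mul_pos_right (by rw [ec]; exact hcon) hc0.le) (by linarith))
      obtain ⟨x, hx1, hx2⟩ := ((eventually_lt_of_deriv_neg ((g.hasDerivAt_pPhi hN hp hq hqp hc hS0).neg) hd).1.and
        (Ioo_mem_nhdsGT hSR)).exists
      simp only [Pi.neg_apply] at hx1
      linarith [haft x hx2]
    exact hnot S hS0 (g.phi_neg_after hN hp hq hqp hc hS0 he hG hSR haft)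
  · push Not at hz
    -- negative up to R: the first zero after it has G ≥ 0
    have hex : ∃ x, R < x ∧ 0 ≤ pPhi N p q U V x := by
      have := hnot R hR
      push Not at this
      exact this
    obtain ⟨x₀, hx₀, hx₀'⟩ := hex
    have hcl : IsClosed (Icc R x₀ ∩ pPhi N p q U V ⁻¹' Ici 0) :=
      ContinuousOn.preimage_isClosed_of_isClosed (fun z hz => (hcont z (hR.trans_le hz.1)).continuousWithinAt)
        isClosed_Icc isClosed_Ici
    have hbd : BddBelow (Icc R x₀ ∩ pPhi N p q U V ⁻¹' Ici 0) := ⟨R, fun z hz => hz.1.1⟩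
    obtain ⟨hI, hv⟩ := hcl.csInf_mem ⟨x₀, ⟨hx₀.le, le_rfl⟩, hx₀'⟩ hbd
    set S := sInf (Icc R x₀ ∩ pPhi N p q U V ⁻¹' Ici 0)
    have hRS : R < S := hI.1.lt_of_ne fun e => by rw [← e] at hv; exact not_lt.2 hv hRneg
    have hS0 : 0 < S := hR.trans hRS
    have hbef : ∀ x ∈ Ioo 0 S, pPhi N p q U V x < 0 := fun x hx => by
      rcases le_or_gt x R with h | h
      · exact hz x ⟨hx.1, h⟩
      · exact not_le.1 fun h' => not_le.2 hx.2 (csInf_le hbd ⟨⟨h.le, hx.2.le.trans hI.2⟩, h'⟩)
    have he : pPhi N p q U V S = 0 := le_antisymm (le_of_tendsto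
      ((hcont S hS0).mono_left nhdsWithin_le_nhds)
      (mem_of_superset (Ioo_mem_nhdsLT hS0) fun x hx => (hbef x hx).le)) hv
    have hG : 0 ≤ gG N (N / (q + 1)) (pU N p q U V S) (pW N p q U V S) := by
      by_contra hcon
      push Not at hcon
      obtain ⟨c, hc0, ec⟩ := g.phiRate_sign hN hp hq hqp hc hS0 he
      have hd : phiRate N p q U V S / (2 * S) < 0 :=
        div_neg_of_neg_of_pos (neg_of_mul_neg_right (by rw [ec]; exact hcon) hc0.le) (by linarith)
      obtain ⟨x, hx1, hx2⟩ := ((eventually_lt_of_deriv_neg (g.hasDerivAt_pPhi hN hp hq hqp hc hS0) hd).2.and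
        (Ioo_mem_nhdsLT hS0)).exists
      linarith [hbef x hx2]
    have hw : ∀ x ∈ Ioo 0 S, pW N p q U V S ≤ pW N p q U V x := fun x hx =>
      (g.pW_lt_of_phi_neg hN hp hq hqp hc hx.1 hx.2 fun z hz => hbef z ⟨hx.1.trans hz.1, hz.2⟩).le
    have hGstart := lt_of_le_of_lt hG (gG_strictAnti hN (half_lt_alpha hN hq hqp hc hp).le
      (g.pW_pos hN hp hq hc hS0) (g.sub_w_nonneg hN hp hq hqp hc hS0).le le_rfl
      (g.pU_gt hN hp hq hqp hc hS0))
    have hwz : zeta0 N p ≤ pW N p q U V S := by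
      by_contra hlt
      push Not at hlt
      have hz0 : 0 < zeta0 N p := by unfold zeta0; positivity
      have hz1 : zeta0 N p < 1 := by
        rw [zeta0_eq hN hp hq hqp hc, div_lt_one (by linarith)]
        have : N / (q + 1) < N := div_lt_self (by linarith) (by linarith)
        linarith
      have h := mul_pos (mul_pos hGstart hz0) (show 0 < q + 1 by linarith)
      rw [gG_start hN hp hq hqp hc] at h
      have h1 := g.sub_w_nonneg hN hp hq hqp hc hS0
      rw [sub_pos, lt_div_iff₀ (by linarith)] at h1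
      have h2 := mul_neg_of_neg_of_pos (mul_neg_of_pos_of_neg (show 0 < N + 4 by linarith)
        (show (q + 1) * (N - 2) * pW N p q U V S - N < 0 by linarith)) hz0
      have h3 := mul_neg_of_pos_of_neg (show 0 < N * (N + 2) * (q + 1) * (1 - zeta0 N p) by
        have := sub_pos.2 hz1
        positivity) (sub_neg.2 hlt)
      linarith
    obtain ⟨x, hx, hx'⟩ := g.phi_pos_start hN hp hq hqp hc hS0 hwz hw hGstart
    linarith [hbef x hx]

/-- Twice `T` times the derivative of `ζ`, negated. -/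
def zRate (N p q : ℝ) (U V : ℝ → ℝ) (T : ℝ) : ℝ :=
  qX N p U V T * (q + 1) * (1 - pZeta N p q U V T) * (pW N p q U V T - pZeta N p q U V T)
    - (N + 2) * (zeta0 N p - pZeta N p q U V T)

/-- `ζ' < 0`. -/
theorem zRate_pos (hT : 0 < T) : 0 < zRate N p q U V T := by
  set F : ℝ → ℝ := zRate N p q U V
  set zd : ℝ → ℝ := fun x => ((N + 2) * (zeta0 N p - pZeta N p q U V x) - qX N p U V x * (q + 1)
      * (1 - pZeta N p q U V x) * (pW N p q U V x - pZeta N p q U V x)) / (2 * x)
  have hzd : ∀ x, zd x = -F x / (2 * x) := fun x => by simp only [zd, F, zRate]; ring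
  set F' : ℝ → ℝ := fun x =>
    (qX N p U V x * (qX N p U V x + qZ N p V x - N + 2) / (2 * x)) * (q + 1) * (1 - pZeta N p q U V x)
        * (pW N p q U V x - pZeta N p q U V x)
      + qX N p U V x * (q + 1) * (-zd x) * (pW N p q U V x - pZeta N p q U V x)
      + qX N p U V x * (q + 1) * (1 - pZeta N p q U V x)
        * (pW N p q U V x * pPhi N p q U V x / (N * (2 * x)) - zd x)
      + (N + 2) * zd x
  have hd : ∀ x, 0 < x → HasDerivAt F (F' x) x := fun x hx => by
    refine (((((g.hasDerivAt_qX hN hp hq hx).mul_const (q + 1)).mul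
      ((g.hasDerivAt_pZeta hN hp hq hc hx).const_sub 1)).mul
      ((g.hasDerivAt_pW' hN hp hq hqp hc hx).sub (g.hasDerivAt_pZeta hN hp hq hc hx))).sub
      (((g.hasDerivAt_pZeta hN hp hq hc hx).const_sub (zeta0 N p)).const_mul (N + 2))).congr_deriv ?_
    simp only [Pi.mul_apply, Pi.sub_apply, F', zd]
    ring
  have hpos : ∀ x, 0 < x → F x = 0 → 0 < F' x := fun x hx he => by
    have e : zd x = 0 := by rw [hzd, he, neg_zero, zero_div]
    have h1 := g.qX_pos hN hp hq hx
    have h2 := g.qX_rate_pos hN hp hq hqp hc hx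
    have h3 := sub_pos.2 (g.pZeta_lt_one hN hp hq hc hx)
    have h4 := sub_pos.2 (g.pZeta_lt_pW hN hp hq hc hqp hx)
    have h5 := g.pW_pos hN hp hq hc hx
    have h6 := g.pPhi_nonneg hN hp hq hqp hc hx
    have hN0 : 0 < N := by linarith
    simp only [F', e, neg_zero, mul_zero, zero_mul, add_zero, sub_zero]
    positivity
  by_contra hle
  push Not at hle
  have hneg : ∀ x, 0 < x → x < T → F x < 0 := fun x hx hxT => not_le.1 fun h => by
    have := stay_above (fun z hz => hd z (hx.trans_le hz)) h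
      (fun z hz he => hpos z (hx.trans_le hz) he) T hxT
    exact not_lt.2 hle this
  have hle' : ∀ x, 0 < x → x < T → pZeta N p q U V x ≤ pZeta N p q U V T := fun x hx hxT => by
    have := le_slope (f := pZeta N p q U V) (C := 0) hxT.le
      (fun z hz => (g.hasDerivAt_pZeta hN hp hq hc (hx.trans_le hz.1)).continuousAt.continuousWithinAt)
      (fun z hz => g.hasDerivAt_pZeta hN hp hq hc (hx.trans hz.1)) fun z hz => by
        show 0 ≤ zd z
        rw [hzd]
        exact div_nonneg (neg_nonneg.2 (hneg z (hx.trans hz.1) hz.2).le) (by linarith [hz.1])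
    linarith
  have := le_of_tendsto (g.tendsto_pZeta_zero hN hp hq hqp hc)
    (mem_of_superset (Ioo_mem_nhdsGT hT) fun x hx => hle' x hx.1 hx.2)
  exact not_lt.2 this (g.pZeta_lt_zeta0 hN hp hq hc hqp hT)

theorem strictAntiOn_pZeta : StrictAntiOn (pZeta N p q U V) (Ioi 0) := by
  refine strictAntiOn_of_deriv_neg (convex_Ioi 0)
    (fun x hx => (g.hasDerivAt_pZeta hN hp hq hc hx).continuousAt.continuousWithinAt) fun x hx => ?_
  rw [interior_Ioi] at hx
  rw [(g.hasDerivAt_pZeta hN hp hq hc hx).deriv]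
  have h := g.zRate_pos hN hp hq hqp hc hx
  unfold zRate at h
  exact div_neg_of_neg_of_pos (by linarith) (by linarith [mem_Ioi.1 hx])

theorem monotoneOn_pW : MonotoneOn (pW N p q U V) (Ioi 0) := by
  intro x hx y hy hxy
  have hx : 0 < x := hx
  have := le_slope (f := pW N p q U V) (C := 0) hxy
    (fun z hz => (g.hasDerivAt_pW' hN hp hq hqp hc (hx.trans_le hz.1)).continuousAt.continuousWithinAt)
    (fun z hz => g.hasDerivAt_pW' hN hp hq hqp hc (hx.trans hz.1)) fun z hz =>
      div_nonneg (mul_nonneg (g.pW_pos hN hp hq hc (hx.trans hz.1)).le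
        (g.pPhi_nonneg hN hp hq hqp hc (hx.trans hz.1))) (mul_nonneg (by linarith) (by linarith [hz.1]))
  linarith

end Ground

end

end Vale.Agent.P100.Orbit
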