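import Vale.Agent.P100.Orbit.Phase

/-!
# P100: endpoint limits and invariants of the phase variables for `T > 0`

`ξ → N - 2`, `Z → 0`; `w₁ < α/S` (equivalently `S - ξ < S Z/N`), `ξ` increases, `ζ > β/S`,
`Z < W` (equivalently `w₁ + ζ > 1`).
-/

namespace Vale.Agent.P100.Orbit

open MeasureTheory Set Filter Topology intervalIntegral

noncomputable section

variable {N p q a T : ℝ} {U V : ℝ → ℝ}

theorem stay_above {f f' : ℝ → ℝ} {S c : ℝ} (hd : ∀ x, S ≤ x → HasDerivAt f (f' x) x)
    (h0 : c ≤ f S) (hb : ∀ x, S ≤ x → f x = c → 0 < f' x) : ∀ x, S < x → c < f x := by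
  intro x hx
  by_contra hbad
  push Not at hbad
  have hcont : ContinuousOn f (Icc S x) := fun y hy => (hd y hy.1).continuousAt.continuousWithinAt
  obtain ⟨y', hy', hy'x, hy'c⟩ : ∃ y', S ≤ y' ∧ y' < x ∧ c < f y' := by
    rcases h0.lt_or_eq with h | h
    · exact ⟨S, le_rfl, hx, h⟩
    · obtain ⟨y, hy1, hy2⟩ := ((eventually_lt_of_deriv_neg (hd S le_rfl).neg
        (neg_neg_of_pos (hb S le_rfl h.symm))).1.and (Ioo_mem_nhdsGT hx)).exists
      simp only [Pi.neg_apply] at hy1
      exact ⟨y, hy2.1.le, hy2.2, by linarith⟩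
  set K := Icc y' x ∩ f ⁻¹' Iic c
  have hKb : BddBelow K := ⟨y', fun y hy => hy.1.1⟩
  obtain ⟨hI, hv⟩ : sInf K ∈ K :=
    ((hcont.mono (Icc_subset_Icc hy' le_rfl)).preimage_isClosed_of_isClosed isClosed_Icc isClosed_Iic).csInf_mem
      ⟨x, ⟨hy'x.le, le_rfl⟩, hbad⟩ hKb
  set y := sInf K
  have hlt : y' < y := hI.1.lt_of_ne fun e => by
    rw [← e] at hv
    exact not_lt.2 hv hy'c
  have hbef : ∀ z ∈ Ioo y' y, c < f z := fun z hz => not_le.1 fun h =>
    not_le.2 hz.2 (csInf_le hKb ⟨⟨hz.1.le, hz.2.le.trans hI.2⟩, h⟩)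
  have hyS : S ≤ y := hy'.trans hlt.le
  have he : f y = c := le_antisymm hv (ge_of_tendsto ((hd y hyS).continuousAt.mono_left nhdsWithin_le_nhds)
    (mem_of_superset (Ioo_mem_nhdsLT hlt) fun z hz => (hbef z hz).le))
  obtain ⟨z, hz1, hz2⟩ := ((eventually_lt_of_deriv_neg (hd y hyS).neg
    (neg_neg_of_pos (hb y hyS he))).2.and (Ioo_mem_nhdsLT hlt)).exists
  simp only [Pi.neg_apply] at hz1
  linarith [hbef z hz2]

namespace Ground

variable (hN : 2 < N) (hp : 0 < p) (hq : 0 < q) (g : Ground N p q a U V)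
include hN hp hq g

theorem qW_pos (hT : 0 ≤ T) : 0 < qZ N q U T := by
  have := g.pair_u hT
  have := g.du_v_pos hN hq hT
  unfold qZ
  positivity

theorem hasDerivAt_log_u_scale {c : ℝ} (hT : 0 < T) :
    HasDerivAt (fun x => Real.log (U x) + c * Real.log x) ((2 * c - qX N p U V T) / (2 * T)) T := by
  refine (((g.hasDerivAt_u hN hp hT).log (g.pair_u hT.le).ne').add
    ((Real.hasDerivAt_log hT.ne').const_mul c)).congr_deriv ?_
  have := (g.pair_u hT.le).ne'
  have := hT.ne'
  unfold qX
  field_simp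
  ring

/-- Crude polynomial decay. -/
theorem exists_u_decay : ∃ C, ∀ T, 0 < T → Real.log (U T) + (p + 1) / (p * q) * Real.log T ≤ C := by
  have hN0 : 0 < N := by linarith
  set k := Real.log (1 / (2 * N))
  refine ⟨(-((p + 1) * k) + Real.log 2) / (p * q), fun T hT => ?_⟩
  have step : ∀ {A B : ℝ → ℝ} {r : ℝ}, 0 < r → Continuous A → Continuous B →
      (∀ x, 0 < x → HasDerivAt A (-du N r B x) x) → (∀ x, 0 ≤ x → 0 < A x) → (∀ x, 0 ≤ x → 0 < B x) →
      (∀ x y, 0 ≤ x → x ≤ y → B y ≤ B x) → ∀ S, 0 < S →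
      k + Real.log S + r * Real.log (B S) ≤ Real.log (A (S / 2)) := by
    intro A B r hr hA hB hd hA0 hB0 hmono S hS
    have hlow : ∀ x ∈ Ioo (S / 2) S, -du N r B x ≤ -(B S ^ r / N) := fun x hx => by
      have := le_ker (T := x) (B := B S ^ r) hN (continuous_pow_comp hr hB) fun y hy => by
        rw [uIcc_of_le (by linarith [hx.1] : (0 : ℝ) ≤ x)] at hy
        exact Real.rpow_le_rpow (hB0 S hS.le).le (hmono y S hy.1 (hy.2.trans hx.2.le)) hr.le
      have e : (2 : ℝ) / N * B S ^ r = 2 * (B S ^ r / N) := by ring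
      unfold du
      linarith
    have h := slope_le (f := A) (half_le_self hS.le) hA.continuousOn
      (fun x hx => hd x (by linarith [hx.1])) hlow
    have h2 : 1 / (2 * N) * S * B S ^ r ≤ A (S / 2) := by
      have := hA0 S hS.le
      have e : B S ^ r / N * (S - S / 2) = 1 / (2 * N) * S * B S ^ r := by ring
      linarith
    have h3 := Real.log_le_log (mul_pos (by positivity) (Real.rpow_pos_of_pos (hB0 S hS.le) r)) h2
    rw [Real.log_mul (by positivity) (Real.rpow_pos_of_pos (hB0 S hS.le) r).ne',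
      Real.log_mul (by positivity) hS.ne', Real.log_rpow (hB0 S hS.le)] at h3
    exact h3
  have h1 := step hp g.cont_u g.cont_v (fun x hx => g.hasDerivAt_u hN hp hx) (fun x hx => g.pair_u hx)
    (fun x hx => g.pair_v hx) (fun x y hx hxy => g.antitone_v hN hq hx hxy) (T / 2) (by linarith)
  have h2 := step hq g.cont_v g.cont_u (fun x hx => g.hasDerivAt_v hN hq hx) (fun x hx => g.pair_v hx)
    (fun x hx => g.pair_u hx) (fun x y hx hxy => g.antitone_u hN hp hx hxy) T hT
  have h3 : Real.log (U (T / 2 / 2)) ≤ 0 := by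
    refine Real.log_nonpos (g.pair_u (by linarith)).le ?_
    have := g.antitone_u hN hp (S := 0) le_rfl (show (0 : ℝ) ≤ T / 2 / 2 by linarith)
    rwa [g.u_zero] at this
  rw [Real.log_div hT.ne' two_ne_zero] at h1
  have h4 := mul_le_mul_of_nonneg_left h2 hp.le
  rw [le_div_iff₀ (by positivity)]
  have e : ((p + 1) / (p * q) * Real.log T) * (p * q) = (p + 1) * Real.log T := by field_simp
  linarith

variable (hqp : q < p) (hc : N / (p + 1) + N / (q + 1) = N - 2)
include hqp hc

/-- `N - p Y - Z < -2 (1 - Z/N)`. -/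
theorem qZ_rate (hT : 0 < T) :
    (N + 2) * (N - qZ N p V T) < N * (p * qX N q V U T) := by
  have h := g.pZeta_lt_zeta0 hN hp hq hc hqp hT
  unfold pZeta zeta0 at h
  have hY := g.qY_pos hN hp hq hT
  rw [div_lt_div_iff₀ (mul_pos (by linarith) hY) (mul_pos (by linarith) (by linarith))] at h
  have hp1 : 0 < p + 1 := by linarith
  refine lt_of_mul_lt_mul_left ?_ hp1.le
  linarith

/-- `Z → 0`. -/
theorem tendsto_qZ : Tendsto (qZ N p V) atTop (𝓝 0) := by
  have hN0 : 0 < N := by linarith
  set k := (1 - qZ N p V 1 / N)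
  have hk : 0 < k := sub_pos.2 ((div_lt_one hN0).2 (g.qZ_lt hN hp hq one_pos))
  have hrate : ∀ x, 0 < x → (N - p * qX N q V U x - qZ N p V x) / (2 * x) ≤ -((1 - qZ N p V x / N) / x) := by
    intro x hx
    have h := g.qZ_rate hN hp hq hqp hc hx
    have h2 : N - p * qX N q V U x - qZ N p V x ≤ -2 * (1 - qZ N p V x / N) := by
      refine le_of_mul_le_mul_left ?_ hN0
      have e : N * (-2 * (1 - qZ N p V x / N)) = -2 * (N - qZ N p V x) := by field_simp
      linarith
    refine (div_le_div_of_nonneg_right h2 (by linarith)).trans_eq ?_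
    field_simp
  have hdlog : ∀ x, 0 < x → HasDerivAt (fun y => Real.log (qZ N p V y))
      ((N - p * qX N q V U x - qZ N p V x) / (2 * x)) x := fun x hx => by
    refine ((g.hasDerivAt_qZ hN hp hq hx).log (g.qZ_pos hN hp hq hx.le).ne').congr_deriv ?_
    have := (g.qZ_pos hN hp hq hx.le).ne'
    field_simp
  have hanti : ∀ x, 1 ≤ x → qZ N p V x ≤ qZ N p V 1 := fun x hx => by
    have := slope_le (f := fun y => Real.log (qZ N p V y)) (C := 0) hx
      (fun y hy => (hdlog y (one_pos.trans_le hy.1)).continuousAt.continuousWithinAt)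
      (fun y hy => hdlog y (one_pos.trans hy.1)) fun y hy => (hrate y (one_pos.trans hy.1)).trans
        (neg_nonpos.2 (div_nonneg (sub_nonneg.2 ((div_le_one hN0).2 (g.qZ_le hN hp hq (one_pos.trans hy.1).le)))
          (one_pos.trans hy.1).le))
    exact (Real.log_le_log_iff (g.qZ_pos hN hp hq (zero_le_one.trans hx)) (g.qZ_pos hN hp hq zero_le_one)).1
      (by linarith)
  have hup : ∀ x, 1 ≤ x → qZ N p V x ≤ qZ N p V 1 * x ^ (-k) := by
    intro x hx
    have hx0 : 0 < x := one_pos.trans_le hx
    have := slope_le (f := fun y => Real.log (qZ N p V y) + k * Real.log y) (C := 0) hx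
      (fun y hy => ((hdlog y (one_pos.trans_le hy.1)).add
        ((Real.hasDerivAt_log (one_pos.trans_le hy.1).ne').const_mul k)).continuousAt.continuousWithinAt)
      (fun y hy => (hdlog y (one_pos.trans hy.1)).add
        ((Real.hasDerivAt_log (one_pos.trans hy.1).ne').const_mul k)) fun y hy => by
        have h := hrate y (one_pos.trans hy.1)
        have h2 : k / y ≤ (1 - qZ N p V y / N) / y := by
          refine div_le_div_of_nonneg_right ?_ (one_pos.trans hy.1).le
          have := div_le_div_of_nonneg_right (hanti y hy.1.le) hN0.le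
          linarith
        have e : k * y⁻¹ = k / y := rfl
        linarith
    rw [Real.log_one] at this
    have h1 : 0 < qZ N p V 1 := g.qZ_pos hN hp hq zero_le_one
    rw [← Real.log_le_log_iff (g.qZ_pos hN hp hq hx0.le) (mul_pos h1 (Real.rpow_pos_of_pos hx0 _)),
      Real.log_mul h1.ne' (Real.rpow_pos_of_pos hx0 _).ne', Real.log_rpow hx0]
    linarith
  have h0 := (tendsto_rpow_neg_atTop hk).const_mul (qZ N p V 1)
  rw [mul_zero] at h0
  refine squeeze_zero' ?_ ?_ h0
  · filter_upwards [eventually_ge_atTop 0] with x hx using (g.qZ_pos hN hp hq hx).le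
  · filter_upwards [eventually_ge_atTop 1] with x hx using hup x hx

/-- `ξ → N - 2`. -/
theorem tendsto_qX : Tendsto (qX N p U V) atTop (𝓝 (N - 2)) := by
  obtain ⟨C, hC⟩ := g.exists_u_decay hN hp hq
  set S := N - 2
  have hS : 0 < S := by show 0 < N - 2; linarith
  set c := min ((p + 1) / (p * q)) (S / 4)
  have hc0 : 0 < c := lt_min (by positivity) (by positivity)
  have hneg : ∀ {x : ℝ} {b : ℝ}, 0 < x → qX N p U V x ≤ b → b + qZ N p V x < S →
      qX N p U V x * (qX N p U V x + qZ N p V x - N + 2) / (2 * x) < 0 := fun hx h1 h2 =>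
    div_neg_of_neg_of_pos (mul_neg_of_pos_of_neg (g.qX_pos hN hp hq hx) (by
      simp only [S] at h2; linarith)) (by linarith)
  -- `ξ` cannot stay below `c`
  have hlow : ∀ᶠ x in atTop, c < qX N p U V x := by
    obtain ⟨T₁, hT₁⟩ := eventually_atTop.1 (((g.tendsto_qZ hN hp hq hqp hc).eventually
      (eventually_lt_nhds (show (0 : ℝ) < S / 4 by positivity))).and (eventually_gt_atTop 0))
    filter_upwards [eventually_ge_atTop T₁] with x hx
    by_contra hle
    push Not at hle
    have hx0 : 0 < x := (hT₁ x hx).2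
    have hstay : ∀ y, x < y → qX N p U V y < c := fun y hy => neg_lt_neg_iff.1 <|
      stay_above (f := fun z => -qX N p U V z) (c := -c)
        (fun z hz => (g.hasDerivAt_qX hN hp hq (hx0.trans_le hz)).neg) (neg_le_neg hle)
        (fun z hz hzc => neg_pos.2 (hneg (hx0.trans_le hz) (neg_injective hzc).le (by
          linarith [(hT₁ z (hx.trans hz)).1, min_le_right ((p + 1) / (p * q)) (S / 4)]))) y hy
    set M := Real.log (U (x + 1)) + c / 2 * Real.log (x + 1)
    have hM : ∀ y, x + 1 ≤ y → M ≤ Real.log (U y) + c / 2 * Real.log y := fun y hy => by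
      have := le_slope (f := fun z => Real.log (U z) + c / 2 * Real.log z) (C := 0) hy
        (fun z hz => (g.hasDerivAt_log_u_scale hN hp hq (c := c / 2)
          (by linarith [hz.1])).continuousAt.continuousWithinAt)
        (fun z hz => g.hasDerivAt_log_u_scale hN hp hq (by linarith [hz.1])) fun z hz => by
          have := hstay z (by linarith [hz.1])
          refine div_nonneg ?_ (by linarith [hz.1])
          linarith
      simp only [M]
      linarith
    obtain ⟨y, hy1, hy2⟩ := ((eventually_ge_atTop (x + 1)).and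
      (Real.tendsto_log_atTop.eventually (eventually_gt_atTop (max 0 (2 * (C - M) / c))))).exists
    have hl : 0 < Real.log y := (le_max_left _ _).trans_lt hy2
    have h1 := hM y hy1
    have h2 := hC y (by linarith)
    have h3 := mul_le_mul_of_nonneg_right (min_le_left ((p + 1) / (p * q)) (S / 4)) hl.le
    have h4 := (div_lt_iff₀ hc0).1 ((le_max_right _ _).trans_lt hy2)
    linarith
  refine tendsto_order.2 ⟨fun b hb => ?_, fun b hb => ?_⟩
  · obtain ⟨T₁, hT₁⟩ := eventually_atTop.1 (hlow.and (((g.tendsto_qZ hN hp hq hqp hc).eventually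
      (eventually_lt_nhds (show (0 : ℝ) < (S - b) / 2 by linarith))).and (eventually_gt_atTop 0)))
    filter_upwards [eventually_ge_atTop T₁] with x hx
    by_contra hle
    push Not at hle
    have hx0 : 0 < x := (hT₁ x hx).2.2
    have hstay : ∀ y, x < y → qX N p U V y < b := fun y hy => neg_lt_neg_iff.1 <|
      stay_above (f := fun z => -qX N p U V z) (c := -b)
        (fun z hz => (g.hasDerivAt_qX hN hp hq (hx0.trans_le hz)).neg) (neg_le_neg hle)
        (fun z hz hzc => neg_pos.2 (hneg (hx0.trans_le hz) (neg_injective hzc).le (by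
          linarith [(hT₁ z (hx.trans hz)).2.1]))) y hy
    set e := (S - b) / 4
    have he : 0 < e := by show 0 < (S - b) / 4; linarith
    have hanti : ∀ y, x + 1 ≤ y → Real.log (qX N p U V y) + e * Real.log y
        ≤ Real.log (qX N p U V (x + 1)) + e * Real.log (x + 1) := fun y hy => by
      have hd : ∀ z, x < z → HasDerivAt (fun z => Real.log (qX N p U V z) + e * Real.log z)
          ((qX N p U V z + qZ N p V z - N + 2 + 2 * e) / (2 * z)) z := fun z hz => by
        have hz0 : 0 < z := hx0.trans hz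
        refine (((g.hasDerivAt_qX hN hp hq hz0).log (g.qX_pos hN hp hq hz0).ne').add
          ((Real.hasDerivAt_log hz0.ne').const_mul e)).congr_deriv ?_
        have := (g.qX_pos hN hp hq hz0).ne'
        field_simp
      have := slope_le (f := fun z => Real.log (qX N p U V z) + e * Real.log z) (C := 0) hy
        (fun z hz => (hd z (by linarith [hz.1])).continuousAt.continuousWithinAt)
        (fun z hz => hd z (by linarith [hz.1])) fun z hz => by
          refine div_nonpos_of_nonpos_of_nonneg ?_ (by linarith [hz.1])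
          have h1 := hstay z (by linarith [hz.1])
          have h2 := (hT₁ z (by linarith [hz.1])).2.1
          simp only [e, S] at h2 ⊢
          linarith
      linarith
    obtain ⟨y, hy1, hy2⟩ := ((eventually_ge_atTop (x + 1)).and (Real.tendsto_log_atTop.eventually
      (eventually_gt_atTop ((Real.log (qX N p U V (x + 1)) + e * Real.log (x + 1) - Real.log c) / e)))).exists
    have h1 := hanti y hy1
    have h2 := Real.log_lt_log hc0 (hT₁ y (by linarith)).1
    rw [div_lt_iff₀ he] at hy2
    linarith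
  · filter_upwards [eventually_gt_atTop 0] with x hx
    exact lt_trans (g.qX_lt hN hp hq hx) hb

/-- `S - ξ < S Z / N`, that is `w₁ < α/S`. -/
theorem qX_gap (hT : 0 < T) :
    N - 2 - qX N p U V T < (N - 2) / N * qZ N p V T := by
  have hN0 : 0 < N := by linarith
  by_contra h
  push Not at h
  set f : ℝ → ℝ := fun x => N - 2 - qX N p U V x - (N - 2) / N * qZ N p V x
  set f' : ℝ → ℝ := fun x => (-(qX N p U V x * (qX N p U V x + qZ N p V x - N + 2))
    - (N - 2) / N * (qZ N p V x * (N - p * qX N q V U x - qZ N p V x))) / (2 * x)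
  have hd : ∀ x, T ≤ x → HasDerivAt f (f' x) x := fun x hx => by
    refine (((g.hasDerivAt_qX hN hp hq (hT.trans_le hx)).const_sub (N - 2)).sub
      ((g.hasDerivAt_qZ hN hp hq (hT.trans_le hx)).const_mul ((N - 2) / N))).congr_deriv ?_
    simp only [f']; ring
  have key : ∀ x, 0 < x → (qX N p U V x + 2 * qZ N p V x / N) * f x / (2 * x) < f' x := fun x hx => by
    have hr := mul_lt_mul_of_pos_left (g.qZ_rate hN hp hq hqp hc hx)
      (mul_pos (show 0 < N - 2 by linarith) (g.qZ_pos hN hp hq hx.le))
    refine div_lt_div_of_pos_right (lt_of_mul_lt_mul_left ?_ (mul_pos hN0 hN0).le) (by linarith)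
    simp only [f]
    field_simp
    linarith
  have hpos : ∀ x, T < x → 0 < f x := stay_above hd (by simp only [f]; linarith) fun x hx he => by
    have := key x (hT.trans_le hx)
    rw [he, mul_zero, zero_div] at this
    exact this
  have hup : ∀ x, T + 1 ≤ x → f (T + 1) ≤ f x := fun x hx => by
    have := le_slope (f := f) (C := 0) hx (fun y hy => (hd y (by linarith [hy.1])).continuousAt.continuousWithinAt)
      (fun y hy => hd y (by linarith [hy.1])) fun y hy => by
        have hy0 : 0 < y := by linarith [hy.1]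
        have := hpos y (by linarith [hy.1])
        have := g.qX_pos hN hp hq hy0
        have := g.qZ_pos hN hp hq hy0.le
        exact le_trans (by positivity) (key y hy0).le
    linarith
  have hlim : Tendsto f atTop (𝓝 0) := by
    have := ((g.tendsto_qX hN hp hq hqp hc).const_sub (N - 2)).sub
      ((g.tendsto_qZ hN hp hq hqp hc).const_mul ((N - 2) / N))
    simpa using this
  have := ge_of_tendsto hlim (eventually_atTop.2 ⟨T + 1, hup⟩)
  linarith [hpos (T + 1) (lt_add_one T)]

/-- `w₁ < α/S`. -/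
theorem pW_lt (hT : 0 < T) : pW N p q U V T < N / (q + 1) / (N - 2) := by
  have h := g.qX_gap hN hp hq hqp hc hT
  have hX := g.qX_pos hN hp hq hT
  have hN0 : 0 < N := by linarith
  have hS : 0 < N - 2 := by linarith
  unfold pW
  rw [div_div, div_lt_div_iff₀ (by positivity) (by positivity)]
  have h2 := mul_lt_mul_of_pos_left h (mul_pos hN0 (show 0 < q + 1 by linarith))
  have e : N * (q + 1) * ((N - 2) / N * qZ N p V T) = (q + 1) * (N - 2) * qZ N p V T := by field_simp
  linarith

/-- `ξ` increases. -/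
theorem qX_rate_pos (hT : 0 < T) : 0 < qX N p U V T + qZ N p V T - N + 2 := by
  have h := g.qX_gap hN hp hq hqp hc hT
  have hZ := g.qZ_pos hN hp hq hT.le
  have : (N - 2) / N * qZ N p V T ≤ qZ N p V T :=
    mul_le_of_le_one_left hZ.le ((div_le_one (by linarith)).2 (by linarith))
  linarith

/-- `w₁ → α/S`. -/
theorem tendsto_pW : Tendsto (pW N p q U V) atTop (𝓝 (N / (q + 1) / (N - 2))) := by
  have h := ((g.tendsto_qZ hN hp hq hqp hc).const_sub N).div
    ((g.tendsto_qX hN hp hq hqp hc).const_mul (q + 1))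
    (mul_ne_zero (by linarith) (show N - 2 ≠ 0 by linarith))
  rw [sub_zero, ← div_div] at h
  exact h

omit hqp hc in
/-- `ξ / T` stays bounded near `0`. -/
theorem qX_small : Tendsto (qX N p U V) (𝓝[>] 0) (𝓝 0) := by
  have h : ContinuousWithinAt (qX N p U V) (Ici 0) 0 :=
    ((continuous_const.mul continuous_id).mul (continuous_du hN hp g.cont_v)).continuousWithinAt.div
      g.cont_u.continuousWithinAt (g.pair_u le_rfl).ne'
  have := h.tendsto.mono_left (nhdsWithin_mono 0 Ioi_subset_Ici_self)
  rwa [show qX N p U V 0 = 0 by simp [qX]] at this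

/-- `ζ → ζ₀` at the centre. -/
theorem tendsto_pZeta_zero : Tendsto (pZeta N p q U V) (𝓝[>] 0) (𝓝 (zeta0 N p)) := by
  refine tendsto_order.2 ⟨fun b hb => ?_, fun b hb => ?_⟩
  · set δ := zeta0 N p - b
    have hδ : 0 < δ := sub_pos.2 hb
    set W := (q + 1) * (N / (q + 1) / (N - 2))
    have hW : 0 < W := by have : 0 < N - 2 := by linarith
                          positivity
    obtain ⟨b', hb', hsub⟩ := mem_nhdsGT_iff_exists_Ioo_subset.1
      ((g.qX_small hN hp hq).eventually (eventually_lt_nhds (show 0 < (N + 2) * δ / (2 * W) by positivity)))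
    filter_upwards [Ioo_mem_nhdsGT hb'] with x hx
    set m := (N + 2) / 2
    have hm : 0 < m := by show 0 < (N + 2) / 2; linarith
    let f : ℝ → ℝ := fun y => y ^ m * (zeta0 N p - pZeta N p q U V y) - δ / 2 * y ^ m
    have hd : ∀ y, 0 < y → HasDerivAt f (y ^ m * (qX N p U V y * (q + 1) * (1 - pZeta N p q U V y)
        * (pW N p q U V y - pZeta N p q U V y) - (N + 2) * (δ / 2)) / (2 * y)) y := fun y hy => by
      refine (((Real.hasDerivAt_rpow_const (p := m) (Or.inl hy.ne')).mul
        ((g.hasDerivAt_pZeta hN hp hq hc hy).const_sub (zeta0 N p))).sub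
          ((Real.hasDerivAt_rpow_const (p := m) (Or.inl hy.ne')).const_mul (δ / 2))).congr_deriv ?_
      rw [Real.rpow_sub hy, Real.rpow_one]
      simp only [m]
      field_simp
      ring
    have hbd : ∀ y, 0 < y → y < x → f x ≤ f y := fun y hy hyx => by
      have := slope_le (f := f) (C := 0) hyx.le (fun z hz => (hd z (hy.trans_le hz.1)).continuousAt.continuousWithinAt)
        (fun z hz => hd z (hy.trans hz.1)) fun z hz => by
          have hz0 : 0 < z := hy.trans hz.1
          have hX := g.qX_pos hN hp hq hz0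
          have hXs : qX N p U V z < (N + 2) * δ / (2 * W) := hsub ⟨hz0, (hz.2.trans hx.2)⟩
          have h1 := g.pZeta_pos hN hp hq hc hz0
          have h2 := sub_pos.2 (g.pZeta_lt_one hN hp hq hc hz0)
          have h3 := sub_pos.2 (g.pZeta_lt_pW hN hp hq hc hqp hz0)
          have h4 := g.pW_lt hN hp hq hqp hc hz0
          refine div_nonpos_of_nonpos_of_nonneg (mul_nonpos_of_nonneg_of_nonpos (Real.rpow_nonneg hz0.le _)
            (sub_nonpos.2 ?_)) (by linarith)
          calc qX N p U V z * (q + 1) * (1 - pZeta N p q U V z) * (pW N p q U V z - pZeta N p q U V z)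
              ≤ qX N p U V z * (q + 1) * 1 * (N / (q + 1) / (N - 2)) := by gcongr <;> linarith
            _ = qX N p U V z * W := by simp only [W]; ring
            _ ≤ (N + 2) * δ / (2 * W) * W := mul_le_mul_of_nonneg_right hXs.le hW.le
            _ = _ := by field_simp
      linarith
    have hlim : Tendsto f (𝓝[>] 0) (𝓝 0) := by
      have hpow := (Real.continuousAt_rpow_const 0 m (Or.inr hm.le)).tendsto.mono_left
        (nhdsWithin_le_nhds (s := Ioi (0 : ℝ)))
      rw [Real.zero_rpow hm.ne'] at hpow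
      have hb0 := hpow.const_mul (|zeta0 N p| + 1 + δ / 2)
      rw [mul_zero] at hb0
      refine squeeze_zero_norm' ?_ hb0
      filter_upwards [self_mem_nhdsWithin] with y hy
      have hy : 0 < y := hy
      have h1 := g.pZeta_pos hN hp hq hc hy
      have h2 := g.pZeta_lt_one hN hp hq hc hy
      rw [Real.norm_eq_abs, show f y = (zeta0 N p - pZeta N p q U V y - δ / 2) * y ^ m by simp only [f]; ring,
        abs_mul, abs_of_pos (Real.rpow_pos_of_pos hy _)]
      refine mul_le_mul_of_nonneg_right ?_ (Real.rpow_nonneg hy.le _)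
      rw [abs_le]
      constructor <;> linarith [abs_nonneg (zeta0 N p), le_abs_self (zeta0 N p), neg_abs_le (zeta0 N p)]
    have h0 : f x ≤ 0 := ge_of_tendsto hlim (by
      filter_upwards [Ioo_mem_nhdsGT hx.1] with y hy using hbd y hy.1 hy.2)
    have h5 : zeta0 N p - pZeta N p q U V x ≤ δ / 2 :=
      le_of_mul_le_mul_left (by simp only [f] at h0; linarith) (Real.rpow_pos_of_pos hx.1 m)
    simp only [δ] at h5 hδ
    linarith
  · filter_upwards [self_mem_nhdsWithin] with x hx
    exact (g.pZeta_lt_zeta0 hN hp hq hc hqp hx).trans hb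

/-- `β/S < ζ`. -/
theorem lt_pZeta (hT : 0 < T) : N / (p + 1) / (N - 2) < pZeta N p q U V T := by
  have hN0 : 0 < N := by linarith
  have hS : 0 < N - 2 := by linarith
  set α := N / (q + 1)
  set β := N / (p + 1)
  have hβ : 0 < β := by positivity
  have hα : 0 < α := by positivity
  have hβS : β / (N - 2) < zeta0 N p := by
    have hab : β < α := div_lt_div_of_pos_left hN0 (by linarith) (by linarith)
    have e : zeta0 N p = (N - β) / (N + 2) := by
      simp only [zeta0, β]; field_simp; ring
    rw [e, div_lt_div_iff₀ hS (by linarith)]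
    have h2 := mul_pos hN0 (show 0 < N - 2 - 2 * β by linarith)
    linarith
  obtain ⟨y, hy1, hy2⟩ := (((g.tendsto_pZeta_zero hN hp hq hqp hc).eventually (eventually_gt_nhds hβS)).and
    (Ioo_mem_nhdsGT hT)).exists
  refine stay_above (fun x hx => g.hasDerivAt_pZeta hN hp hq hc (hy2.1.trans_le hx)) hy1.le
    (fun x hx he => ?_) T hy2.2
  have hx0 : 0 < x := hy2.1.trans_le hx
  refine div_pos ?_ (by linarith)
  have h3 := sub_pos.2 (g.pZeta_lt_pW hN hp hq hc hqp hx0)
  have hX := g.qX_pos hN hp hq hx0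
  have h4 : 0 < 1 - pZeta N p q U V x := sub_pos.2 (g.pZeta_lt_one hN hp hq hc hx0)
  have hb : qX N p U V x * (q + 1) * (1 - pZeta N p q U V x) * (pW N p q U V x - pZeta N p q U V x)
      < (N - 2) * (q + 1) * (1 - β / (N - 2)) * (α / (N - 2) - β / (N - 2)) := by
    rw [he] at h3 h4 ⊢
    have := g.qX_lt hN hp hq hx0
    have h5 : pW N p q U V x - β / (N - 2) ≤ α / (N - 2) - β / (N - 2) := by
      linarith [g.pW_lt hN hp hq hqp hc hx0]
    refine mul_lt_mul' ?_ ?_ h3.le (by positivity) |>.trans_le le_rfl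
    · gcongr
    · linarith [g.pW_lt hN hp hq hqp hc hx0]
  have e : (N - 2) * (q + 1) * (1 - β / (N - 2)) * (α / (N - 2) - β / (N - 2))
      = (N + 2) * (zeta0 N p - β / (N - 2)) := by
    have ez : (N + 2) * zeta0 N p = N - β := by simp only [zeta0, β]; field_simp; ring
    rw [mul_sub (N + 2), ez]
    have eα : (q + 1) * α = N := by simp only [α]; field_simp
    have e1 : β = N - 2 - α := by linarith
    rw [e1]
    field_simp
    linear_combination (2 * α - (N - 2)) * eα
  rw [e, ← he] at hb
  linarith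

/-- `Z < W`, that is `w₁ + ζ > 1`. -/
theorem qZ_lt_qW (hT : 0 < T) : qZ N p V T < qZ N q U T := by
  have hN0 : 0 < N := by linarith
  set D : ℝ → ℝ := fun x => qZ N q U x - qZ N p V x
  set D' : ℝ → ℝ := fun x => (qZ N q U x * (N - q * qX N p U V x - qZ N q U x)
    - qZ N p V x * (N - p * qX N q V U x - qZ N p V x)) / (2 * x)
  have hd : ∀ x, 0 < x → HasDerivAt D (D' x) x := fun x hx =>
    ((g.hasDerivAt_qW hN hp hq hx).sub (g.hasDerivAt_qZ hN hp hq hx)).congr_deriv (by simp only [D']; ring)
  have hpY : ∀ x, 0 < x → q * qX N p U V x < p * qX N q V U x := fun x hx => by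
    have h1 := g.one_lt_eta hN hp hq hqp hc hx.le
    rw [g.qY_eq hN hp hq hx.le]
    have hk : q < sig p q * p := by rw [sig_mul hp]; linarith [sig_lt_one (q := q) hp hqp]
    calc q * qX N p U V x < sig p q * p * qX N p U V x :=
          mul_lt_mul_of_pos_right hk (g.qX_pos hN hp hq hx)
      _ ≤ sig p q * p * qX N p U V x * eta N p q U V x :=
          le_mul_of_one_le_right (mul_nonneg (hq.trans hk).le (g.qX_pos hN hp hq hx).le) h1.le
      _ = _ := by ring
  have hpos : ∀ x, 0 < x → D x ≤ 0 → N ≤ qZ N q U x + qZ N p V x → 0 < D' x := by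
    intro x hx h1 h2
    refine div_pos ?_ (by linarith)
    have ha := mul_nonneg_of_nonpos_of_nonpos h1 (show N - qZ N q U x - qZ N p V x ≤ 0 by linarith)
    have hb := mul_lt_mul_of_pos_left (hpY x hx) (g.qW_pos hN hp hq hx.le)
    have hc' := mul_le_mul_of_nonneg_right (show qZ N q U x ≤ qZ N p V x by simp only [D] at h1; linarith)
      (mul_pos hp (g.qY_pos hN hp hq hx)).le
    simp only [D] at ha
    linarith
  -- near the centre `Z + W > N`
  have hcont : ∀ {r : ℝ} {A : ℝ → ℝ}, 0 < r → Continuous A → (∀ x ∈ Ici (0 : ℝ), du N r A x ≠ 0) →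
      ContinuousWithinAt (qZ N r A) (Ici 0) 0 := fun hr hA h =>
    (continuous_pow_comp hr hA).continuousWithinAt.div (continuous_du hN hr hA).continuousWithinAt
      (h 0 self_mem_Ici)
  have cZ := hcont hp g.cont_v fun x hx => (g.du_u_pos hN hp hx).ne'
  have cW := hcont hq g.cont_u fun x hx => (g.du_v_pos hN hq hx).ne'
  have hZ0 : qZ N p V 0 = N := by
    have : 0 < V 0 ^ p := Real.rpow_pos_of_pos (g.pair_v le_rfl) p
    unfold qZ; rw [du_zero hN]; field_simp
  have hW0 : qZ N q U 0 = N := by
    unfold qZ; rw [du_zero hN, g.u_zero, Real.one_rpow]; field_simp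
  have hev : ∀ᶠ x in 𝓝[≥] (0 : ℝ), N ≤ qZ N q U x + qZ N p V x :=
    (cW.add cZ).eventually (eventually_ge_nhds (show N < qZ N q U 0 + qZ N p V 0 by rw [hZ0, hW0]; linarith))
  obtain ⟨b, hb, hsub⟩ := mem_nhdsGE_iff_exists_Icc_subset.1 hev
  have hb : (0 : ℝ) < b := hb
  obtain ⟨y, hy0, hy⟩ := exists_between (lt_min hb hT)
  have hDy : 0 < D y := by
    by_contra hbad
    push Not at hbad
    obtain ⟨z, hz, hmin⟩ := isCompact_Icc.exists_isMinOn (nonempty_Icc.2 hy0.le)
      (f := D) fun x hx => by
        rcases hx.1.eq_or_lt with rfl | h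
        · exact (cW.sub cZ).mono Icc_subset_Ici_self
        · exact (hd x h).continuousAt.continuousWithinAt
    have hz0 : 0 < z := hz.1.lt_of_ne fun e => by
      have h1 : D z ≤ D y := hmin ⟨hy0.le, le_rfl⟩
      have hD0 : D 0 = 0 := by show qZ N q U 0 - qZ N p V 0 = 0; rw [hZ0, hW0, sub_self]
      -- the minimum is also reached at `y`
      have hy' := hpos y hy0 hbad (hsub ⟨hy0.le, hy.le.trans (min_le_left _ _)⟩)
      obtain ⟨v, hv1, hv2⟩ := ((eventually_lt_of_deriv_neg (hd y hy0).neg (neg_neg_of_pos hy')).2.and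
        (Ioo_mem_nhdsLT hy0)).exists
      simp only [Pi.neg_apply] at hv1
      have h2 : D z ≤ D v := hmin ⟨hv2.1.le, hv2.2.le⟩
      rw [← e] at h1 h2
      linarith
    have hDz : D z ≤ 0 := (hmin ⟨hy0.le, le_rfl⟩ : D z ≤ D y).trans hbad
    obtain ⟨v, hv1, hv2⟩ := ((eventually_lt_of_deriv_neg (hd z hz0).neg (neg_neg_of_pos (hpos z hz0 hDz
      (hsub ⟨hz0.le, hz.2.trans (hy.le.trans (min_le_left _ _))⟩)))).2.and (Ioo_mem_nhdsLT hz0)).exists
    simp only [Pi.neg_apply] at hv1
    have h2 : D z ≤ D v := hmin ⟨hv2.1.le, hv2.2.le.trans hz.2⟩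
    linarith
  have hstep : 0 < D T := stay_above (fun x hx => hd x (hy0.trans_le hx)) hDy.le (fun x hx he => by
    have hx0 : 0 < x := hy0.trans_le hx
    refine div_pos ?_ (by linarith)
    have e : qZ N q U x = qZ N p V x := by simp only [D] at he; linarith
    rw [e]
    have := mul_lt_mul_of_pos_left (hpY x hx0) (g.qZ_pos hN hp hq hx0.le)
    linarith) T (hy.trans_le (min_le_right _ _))
  simp only [D] at hstep
  linarith

theorem one_lt_pW_add (hT : 0 < T) : 1 < pW N p q U V T + pZeta N p q U V T := by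
  have h1 := g.one_sub_zeta hN hp hq hc hT
  have hX := g.qX_pos hN hp hq hT
  have h2 : (N - qZ N q U T) / ((q + 1) * qX N p U V T) < pW N p q U V T :=
    div_lt_div_of_pos_right (by linarith [g.qZ_lt_qW hN hp hq hqp hc hT]) (by positivity)
  linarith

end Ground

end

end Vale.Agent.P100.Orbit
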