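import Mathlib

/-!
# P100: the radial integral operator in the variable `T = ρ² / 2`

`N U_T + 2 T U_TT = -f` with `U_T` bounded at `0` is `U_T = -(ker N f) / 2`, on both sides of `T = 0`.
-/

namespace Vale.Agent.P100.Orbit

open MeasureTheory Set Filter Topology intervalIntegral

noncomputable section

/-- `∫₀¹ s ^ (N/2 - 1) f (T s) ds`. -/
def ker (N : ℝ) (f : ℝ → ℝ) (T : ℝ) : ℝ := ∫ s in (0 : ℝ)..1, s ^ (N / 2 - 1) * f (T * s)

variable {N : ℝ} {f g : ℝ → ℝ} {T B : ℝ}

theorem continuous_weight (hN : 2 < N) : Continuous fun s : ℝ => s ^ (N / 2 - 1) :=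
  continuous_id.rpow_const fun _ => Or.inr (by linarith)

theorem integral_weight (hN : 2 < N) : ∫ s in (0 : ℝ)..1, s ^ (N / 2 - 1) = 2 / N := by
  have : N ≠ 0 := by linarith
  rw [integral_rpow (Or.inl (by linarith)), Real.one_rpow, Real.zero_rpow (by linarith)]
  rw [sub_zero, show N / 2 - 1 + 1 = N / 2 by ring]
  field_simp

theorem continuous_ker (hN : 2 < N) (hf : Continuous f) : Continuous (ker N f) :=
  intervalIntegral.continuous_parametric_intervalIntegral_of_continuous'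
    (((continuous_weight hN).comp continuous_snd).mul
      (hf.comp (continuous_fst.mul continuous_snd))) 0 1

theorem mem_uIcc_mul {s : ℝ} (hs : s ∈ Icc (0 : ℝ) 1) (T : ℝ) : T * s ∈ uIcc 0 T := by
  obtain ⟨h0, h1⟩ := hs
  rcases le_total 0 T with hT | hT
  · exact mem_uIcc.2 (Or.inl ⟨mul_nonneg hT h0, mul_le_of_le_one_right hT h1⟩)
  · exact mem_uIcc.2 (Or.inr ⟨by nlinarith, mul_nonpos_of_nonpos_of_nonneg hT h0⟩)

theorem ker_congr (h : ∀ x ∈ uIcc 0 T, f x = g x) : ker N f T = ker N g T := by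
  refine intervalIntegral.integral_congr fun s hs => ?_
  rw [uIcc_of_le (zero_le_one' ℝ)] at hs
  show s ^ (N / 2 - 1) * f (T * s) = s ^ (N / 2 - 1) * g (T * s)
  rw [h _ (mem_uIcc_mul hs T)]

theorem intervalIntegrable_ker (hN : 2 < N) (hf : Continuous f) (T : ℝ) :
    IntervalIntegrable (fun s => s ^ (N / 2 - 1) * f (T * s)) volume 0 1 :=
  ((continuous_weight hN).mul (hf.comp (continuous_const.mul continuous_id))).intervalIntegrable _ _

theorem ker_mono (hN : 2 < N) (hf : Continuous f) (hg : Continuous g)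
    (h : ∀ x ∈ uIcc 0 T, f x ≤ g x) : ker N f T ≤ ker N g T :=
  intervalIntegral.integral_mono_on zero_le_one (intervalIntegrable_ker hN hf T)
    (intervalIntegrable_ker hN hg T) fun s hs =>
      mul_le_mul_of_nonneg_left (h _ (mem_uIcc_mul hs T)) (Real.rpow_nonneg hs.1 _)

theorem ker_const (hN : 2 < N) (B T : ℝ) : ker N (fun _ => B) T = 2 / N * B := by
  rw [ker, intervalIntegral.integral_mul_const, integral_weight hN]

theorem ker_zero (hN : 2 < N) (f : ℝ → ℝ) : ker N f 0 = 2 / N * f 0 := by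
  rw [ker]
  simp only [zero_mul]
  rw [intervalIntegral.integral_mul_const, integral_weight hN]

theorem ker_le (hN : 2 < N) (hf : Continuous f) (h : ∀ x ∈ uIcc 0 T, f x ≤ B) :
    ker N f T ≤ 2 / N * B :=
  (ker_mono hN hf continuous_const h).trans_eq (ker_const hN B T)

theorem le_ker (hN : 2 < N) (hf : Continuous f) (h : ∀ x ∈ uIcc 0 T, B ≤ f x) :
    2 / N * B ≤ ker N f T :=
  (ker_const hN B T).symm.trans_le (ker_mono hN continuous_const hf h)

theorem ker_nonneg (hN : 2 < N) (hf : Continuous f) (h : ∀ x ∈ uIcc 0 T, 0 ≤ f x) :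
    0 ≤ ker N f T := by simpa using le_ker hN hf h

theorem ker_sub (hN : 2 < N) (hf : Continuous f) (hg : Continuous g) (T : ℝ) :
    ker N f T - ker N g T = ker N (fun x => f x - g x) T := by
  rw [ker, ker, ker, ← intervalIntegral.integral_sub (intervalIntegrable_ker hN hf T)
    (intervalIntegrable_ker hN hg T)]
  simp only [mul_sub]

theorem abs_ker_le (hN : 2 < N) (hf : Continuous f) (h : ∀ x ∈ uIcc 0 T, |f x| ≤ B) :
    |ker N f T| ≤ 2 / N * B := by
  refine abs_le.2 ⟨?_, ker_le hN hf fun x hx => (abs_le.1 (h x hx)).2⟩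
  have := le_ker (B := -B) hN hf fun x hx => (abs_le.1 (h x hx)).1
  linarith

theorem ker_neg (N : ℝ) (f : ℝ → ℝ) (T : ℝ) : ker N f T = ker N (fun x => f (-x)) (-T) := by
  simp [ker]

/-- `T ^ (N/2) ker N f T` is the primitive of `T ^ (N/2 - 1) f`. -/
theorem rpow_mul_ker (hN : 2 < N) (f : ℝ → ℝ) (hT : 0 ≤ T) :
    T ^ (N / 2) * ker N f T = ∫ x in (0 : ℝ)..T, x ^ (N / 2 - 1) * f x := by
  rcases hT.eq_or_lt with rfl | hT
  · simp [Real.zero_rpow (show N / 2 ≠ 0 by linarith)]
  have h := intervalIntegral.smul_integral_comp_mul_left (a := 0) (b := 1)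
    (fun x => x ^ (N / 2 - 1) * f x) T
  rw [mul_zero, mul_one, smul_eq_mul] at h
  rw [← h, ker, ← intervalIntegral.integral_const_mul, ← intervalIntegral.integral_const_mul]
  refine intervalIntegral.integral_congr fun s hs => ?_
  rw [uIcc_of_le zero_le_one] at hs
  show T ^ (N / 2) * (s ^ (N / 2 - 1) * f (T * s)) = T * ((T * s) ^ (N / 2 - 1) * f (T * s))
  have e : T ^ (N / 2) = T * T ^ (N / 2 - 1) := by
    rw [← Real.rpow_one_add' hT.le (by linarith)]
    ring_nf
  rw [Real.mul_rpow hT.le hs.1, e]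
  ring

theorem hasDerivAt_ker_pos (hN : 2 < N) (hf : Continuous f) (hT : 0 < T) :
    HasDerivAt (ker N f) ((f T - N / 2 * ker N f T) / T) T := by
  have hc : Continuous fun x : ℝ => x ^ (N / 2 - 1) * f x := (continuous_weight hN).mul hf
  have hP := hc.integral_hasStrictDerivAt 0 T |>.hasDerivAt
  have hpow : HasDerivAt (fun x : ℝ => x ^ (-(N / 2))) (-(N / 2) * T ^ (-(N / 2) - 1)) T :=
    Real.hasDerivAt_rpow_const (Or.inl hT.ne')
  have h := hpow.mul hP
  have e : (fun x => x ^ (-(N / 2)) * ∫ y in (0 : ℝ)..x, y ^ (N / 2 - 1) * f y) =ᶠ[𝓝 T] ker N f := by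
    filter_upwards [Ioi_mem_nhds hT] with x hx
    show x ^ (-(N / 2)) * (∫ y in (0 : ℝ)..x, y ^ (N / 2 - 1) * f y) = ker N f x
    rw [← rpow_mul_ker hN f (le_of_lt hx), ← mul_assoc, ← Real.rpow_add hx, neg_add_cancel,
      Real.rpow_zero, one_mul]
  refine (h.congr_of_eventuallyEq e.symm).congr_deriv ?_
  rw [← rpow_mul_ker hN f hT.le, Real.rpow_sub hT, Real.rpow_one, Real.rpow_sub hT, Real.rpow_one,
    Real.rpow_neg hT.le]
  field_simp
  ring

theorem hasDerivAt_ker (hN : 2 < N) (hf : Continuous f) (hT : T ≠ 0) :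
    HasDerivAt (ker N f) ((f T - N / 2 * ker N f T) / T) T := by
  rcases hT.lt_or_gt with hT | hT
  · have h := (hasDerivAt_ker_pos hN (hf.comp continuous_neg) (neg_pos.2 hT)).comp T
      (hasDerivAt_neg T)
    refine (h.congr_of_eventuallyEq (Eventually.of_forall fun x => ker_neg N f x)).congr_deriv ?_
    show (f (- -T) - N / 2 * ker N (fun x => f (-x)) (-T)) / -T * -1 = _
    rw [neg_neg, ← ker_neg, div_neg]
    ring
  · exact hasDerivAt_ker_pos hN hf hT

end

end Vale.Agent.P100.Orbit
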