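import Vale.Agent.P100.Orbit.Forward

/-!
# P100: the ratio `V / U^σ` decreases along the forward ground pair

With `η = (V'/V) / (σ U'/U)` and `G = W - Z - (1-σ) X`, the set `η < 1, G < 0` is forward invariant
and incompatible with `V ≤ ℓ U^σ`, `U → 0`.
-/

namespace Vale.Agent.P100.Orbit

open MeasureTheory Set Filter Topology intervalIntegral

noncomputable section

variable {N p q a T : ℝ} {U V : ℝ → ℝ}

theorem eventually_lt_of_deriv_neg {f : ℝ → ℝ} {d x : ℝ} (h : HasDerivAt f d x) (hd : d < 0) :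
    (∀ᶠ y in 𝓝[>] x, f y < f x) ∧ ∀ᶠ y in 𝓝[<] x, f x < f y := by
  have ht := hasDerivAt_iff_tendsto_slope.1 h
  constructor
  · filter_upwards [((ht.eventually (eventually_lt_nhds hd))).filter_mono
      (nhdsWithin_mono _ fun y hy => ne_of_gt hy), self_mem_nhdsWithin] with y h1 h2
    have h2 : x < y := h2
    rw [slope_def_field, div_neg_iff] at h1
    rcases h1 with ⟨-, h3⟩ | ⟨h3, -⟩ <;> linarith
  · filter_upwards [((ht.eventually (eventually_lt_nhds hd))).filter_mono
      (nhdsWithin_mono _ fun y hy => ne_of_lt hy), self_mem_nhdsWithin] with y h1 h2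
    have h2 : y < x := h2
    rw [slope_def_field, div_neg_iff] at h1
    rcases h1 with ⟨h3, -⟩ | ⟨-, h3⟩ <;> linarith

/-- The quotient of the logarithmic slopes of V and U, over sigma. -/
def eta (N p q : ℝ) (U V : ℝ → ℝ) (T : ℝ) : ℝ :=
  U T * du N q U T / (sig p q * (V T * du N p V T))

/-- `X = 2 T (-U_T)/U`. -/
def qX (N p : ℝ) (U V : ℝ → ℝ) (T : ℝ) : ℝ := 2 * T * du N p V T / U T

/-- `Z = V^p / (-U_T)`. -/
def qZ (N p : ℝ) (V : ℝ → ℝ) (T : ℝ) : ℝ := V T ^ p / du N p V T

/-- `G = W - Z - (1 - σ) X`. -/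
def qG (N p q : ℝ) (U V : ℝ → ℝ) (T : ℝ) : ℝ :=
  qZ N q U T - qZ N p V T - (1 - sig p q) * qX N p U V T

/-- `2 T` times the derivative of `G`. -/
def qG' (N p q : ℝ) (U V : ℝ → ℝ) (T : ℝ) : ℝ :=
  qZ N q U T * (N - q * qX N p U V T - qZ N q U T)
    - qZ N p V T * (N - p * qX N q V U T - qZ N p V T)
    - (1 - sig p q) * qX N p U V T * (qX N p U V T + qZ N p V T - N + 2)

/-- `G + σ X (η - 1)`, so `2 T η' = η φ`. -/
def qphi (N p q : ℝ) (U V : ℝ → ℝ) (T : ℝ) : ℝ :=
  qG N p q U V T + sig p q * qX N p U V T * (eta N p q U V T - 1)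

/-- The ratio `V / U^σ`. -/
def ratio (p q : ℝ) (U V : ℝ → ℝ) (T : ℝ) : ℝ := V T / U T ^ sig p q

theorem eta_le_zero_iff_algebra {N q k e X Z : ℝ} (hk : 0 < k) (hq : 0 < q) (he : 0 < e) (he1 : e ≤ 1)
    (hX : 0 < X) (hZ : 0 ≤ Z) (hrel : e * ((q + 1) * X + (Z + k * X) - N) = N - Z) :
    (Z + k * X) * (N - q * X - (Z + k * X)) - Z * (N - (q + k) * e * X - Z)
      - k * X * (X + Z - N + 2) < 0 := by
  have e1 : (Z + k * X) * (N - q * X - (Z + k * X)) - Z * (N - (q + k) * e * X - Z)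
      - k * X * (X + Z - N + 2)
      = X * (k * (2 * N - 2 - (q + 1 + k) * X - 2 * Z) - (q + k) * (1 - e) * Z) := by ring
  have e2 : (1 + e) * (2 * N - 2 - (q + 1 + k) * X - 2 * Z)
      = -2 * (1 + e) + (q + 1 + k) * X * (e - 1) := by linear_combination (-2) * hrel
  have h1 : (q + 1 + k) * X * (e - 1) ≤ 0 :=
    mul_nonpos_of_nonneg_of_nonpos (by positivity) (by linarith)
  have h2 : 2 * N - 2 - (q + 1 + k) * X - 2 * Z < 0 := by
    by_contra h
    push Not at h
    have := mul_nonneg (show (0 : ℝ) ≤ 1 + e by linarith) h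
    linarith
  have h3 := mul_neg_of_pos_of_neg hk h2
  have h4 : 0 ≤ (q + k) * (1 - e) * Z := by
    have : 0 ≤ 1 - e := by linarith
    positivity
  rw [e1]
  exact mul_neg_of_pos_of_neg hX (by linarith)

namespace Ground

variable (hN : 2 < N) (hp : 0 < p) (hq : 0 < q) (g : Ground N p q a U V)
include hN hp hq g

theorem eta_pos (hT : 0 ≤ T) : 0 < eta N p q U V T := by
  have := g.pair_u hT
  have := g.pair_v hT
  have := g.du_u_pos hN hp hT
  have := g.du_v_pos hN hq hT
  have := sig_pos hp hq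
  unfold eta
  positivity

theorem continuousOn_eta : ContinuousOn (eta N p q U V) (Ici 0) :=
  (g.cont_u.mul (continuous_du hN hq g.cont_u)).continuousOn.div
    (continuous_const.mul (g.cont_v.mul (continuous_du hN hp g.cont_v))).continuousOn fun x hx =>
      (mul_pos (sig_pos hp hq) (mul_pos (g.pair_v hx) (g.du_u_pos hN hp hx))).ne'

theorem qX_pos (hT : 0 < T) : 0 < qX N p U V T := by
  have := g.pair_u hT.le
  have := g.du_u_pos hN hp hT.le
  unfold qX
  positivity

theorem qZ_nonneg (hT : 0 ≤ T) : 0 ≤ qZ N p V T := by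
  have := g.pair_v hT
  have := g.du_u_pos hN hp hT
  unfold qZ
  positivity

theorem qY_eq (hT : 0 ≤ T) : qX N q V U T = sig p q * eta N p q U V T * qX N p U V T := by
  have h1 := (g.pair_u hT).ne'
  have h2 := (g.pair_v hT).ne'
  have h3 := (g.du_u_pos hN hp hT).ne'
  have h4 := (sig_pos hp hq).ne'
  unfold qX eta
  field_simp

theorem relation (hc : N / (p + 1) + N / (q + 1) = N - 2) (hT : 0 < T) :
    eta N p q U V T * ((q + 1) * qX N p U V T + qZ N q U T - N) = N - qZ N p V T := by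
  have hE := energy_eq_zero hN hp hq hc (g T hT.le) hT
  unfold energy at hE
  have h1 := g.pair_u hT.le
  have h2 := g.pair_v hT.le
  have h3 := g.du_u_pos hN hp hT.le
  have h4 := g.du_v_pos hN hq hT.le
  unfold eta qX qZ sig du
  rw [Real.rpow_add_one h1.ne', Real.rpow_add_one h2.ne'] at hE
  unfold du at h3 h4
  generalize hK : ker N (fun x => V x ^ p) T = K at hE h3 ⊢
  generalize hL : ker N (fun x => U x ^ q) T = L at hE h4 ⊢
  have hK0 : K ≠ 0 := by linarith
  have hL0 : L ≠ 0 := by linarith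
  field_simp at hE ⊢
  linear_combination hE

theorem hasDerivAt_qX (hT : 0 < T) : HasDerivAt (qX N p U V)
    (qX N p U V T * (qX N p U V T + qZ N p V T - N + 2) / (2 * T)) T := by
  have h1 := (g.pair_u hT.le).ne'
  have h3 := (g.du_u_pos hN hp hT.le).ne'
  refine ((((hasDerivAt_id T).const_mul 2).mul (hasDerivAt_du hN hp g.cont_v hT.ne')).div
    (g.hasDerivAt_u hN hp hT) h1).congr_deriv ?_
  simp only [id_eq, mul_one, Pi.mul_apply]
  unfold qX qZ
  field_simp
  ring

theorem hasDerivAt_qZ (hT : 0 < T) : HasDerivAt (qZ N p V)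
    (qZ N p V T * (N - p * qX N q V U T - qZ N p V T) / (2 * T)) T := by
  have h2 := (g.pair_v hT.le).ne'
  have h3 := (g.du_u_pos hN hp hT.le).ne'
  refine (((g.hasDerivAt_v hN hq hT).rpow_const (p := p) (Or.inl h2)).div
    (hasDerivAt_du hN hp g.cont_v hT.ne') h3).congr_deriv ?_
  unfold qX qZ
  rw [Real.rpow_sub_one h2]
  field_simp
  ring

theorem hasDerivAt_qW (hT : 0 < T) : HasDerivAt (qZ N q U)
    (qZ N q U T * (N - q * qX N p U V T - qZ N q U T) / (2 * T)) T := by
  have h2 := (g.pair_u hT.le).ne'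
  have h3 := (g.du_v_pos hN hq hT.le).ne'
  refine (((g.hasDerivAt_u hN hp hT).rpow_const (p := q) (Or.inl h2)).div
    (hasDerivAt_du hN hq g.cont_u hT.ne') h3).congr_deriv ?_
  unfold qX qZ
  rw [Real.rpow_sub_one h2]
  field_simp
  ring

theorem hasDerivAt_qG (hT : 0 < T) :
    HasDerivAt (qG N p q U V) (qG' N p q U V T / (2 * T)) T := by
  refine (((g.hasDerivAt_qW hN hp hq hT).sub (g.hasDerivAt_qZ hN hp hq hT)).sub
    ((g.hasDerivAt_qX hN hp hq hT).const_mul _)).congr_deriv ?_
  unfold qG'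
  ring

theorem hasDerivAt_eta (hT : 0 < T) :
    HasDerivAt (eta N p q U V) (eta N p q U V T * qphi N p q U V T / (2 * T)) T := by
  have h1 := (g.pair_u hT.le).ne'
  have h2 := (g.pair_v hT.le).ne'
  have h3 := (g.du_u_pos hN hp hT.le).ne'
  have h4 := (g.du_v_pos hN hq hT.le).ne'
  have h5 := (sig_pos hp hq).ne'
  refine (((g.hasDerivAt_u hN hp hT).mul (hasDerivAt_du hN hq g.cont_u hT.ne')).div
    (((g.hasDerivAt_v hN hq hT).mul (hasDerivAt_du hN hp g.cont_v hT.ne')).const_mul (sig p q))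
    (mul_ne_zero h5 (mul_ne_zero h2 h3))).congr_deriv ?_
  simp only [Pi.mul_apply]
  unfold qphi qG eta qX qZ
  field_simp
  ring

theorem qG'_neg (hqp : q < p) (hc : N / (p + 1) + N / (q + 1) = N - 2) (hT : 0 < T)
    (he : eta N p q U V T ≤ 1) (hG : qG N p q U V T = 0) : qG' N p q U V T < 0 := by
  have hW : qZ N q U T = qZ N p V T + (1 - sig p q) * qX N p U V T := by
    unfold qG at hG; linarith
  have hr := g.relation hN hp hq hc hT
  rw [hW] at hr
  have hY : p * qX N q V U T = (q + (1 - sig p q)) * eta N p q U V T * qX N p U V T := by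
    rw [g.qY_eq hN hp hq hT.le, show q + (1 - sig p q) = sig p q * p by rw [sig_mul hp]; ring]
    ring
  unfold qG'
  rw [hW, hY]
  exact eta_le_zero_iff_algebra (sub_pos.2 (sig_lt_one hp hqp)) hq (g.eta_pos hN hp hq hT.le) he
    (g.qX_pos hN hp hq hT) (g.qZ_nonneg hN hp hq hT.le) hr

/-- The logarithmic slopes compare strictly: `V'/V < σ U'/U`. -/
theorem one_lt_eta (hqp : q < p) (hc : N / (p + 1) + N / (q + 1) = N - 2) (hT : 0 ≤ T) :
    1 < eta N p q U V T := by
  by_contra hcon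
  push Not at hcon
  have ha : 0 < a := g.v_zero ▸ g.pair_v le_rfl
  have hs := sig_pos hp hq
  have hη0 : 1 < eta N p q U V 0 := by
    have h := Real.rpow_lt_rpow ha.le (g.a_lt_rtop hN hp hq hqp) (by linarith : (0 : ℝ) < p + 1)
    have h' := mul_lt_mul_of_pos_left h hs
    rw [rtop_eq hp hq, Real.rpow_add_one ha.ne'] at h'
    have e : eta N p q U V 0 = 1 / (sig p q * (a ^ p * a)) := by
      unfold eta
      rw [du_zero hN, du_zero hN, g.u_zero, g.v_zero, Real.one_rpow]
      have : N ≠ 0 := by linarith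
      field_simp
    rw [e, one_lt_div (by positivity)]
    exact h'
  set K := Icc 0 T ∩ eta N p q U V ⁻¹' Iic 1
  have hKc : IsClosed K :=
    ((g.continuousOn_eta hN hp hq).mono Icc_subset_Ici_self).preimage_isClosed_of_isClosed
      isClosed_Icc isClosed_Iic
  have hKb : BddBelow K := ⟨0, fun x hx => hx.1.1⟩
  obtain ⟨hT₁I, hT₁⟩ : sInf K ∈ K := hKc.csInf_mem ⟨T, ⟨hT, le_rfl⟩, hcon⟩ hKb
  set T₁ := sInf K
  have hT₁0 : 0 < T₁ := hT₁I.1.lt_of_ne fun e => by
    rw [← e] at hT₁
    exact absurd hη0 (not_lt.2 hT₁)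
  have hbef : ∀ x ∈ Ico 0 T₁, 1 < eta N p q U V x := fun x hx => not_le.1 fun h =>
    not_le.2 hx.2 (csInf_le hKb ⟨⟨hx.1, hx.2.le.trans hT₁I.2⟩, h⟩)
  have hη1 : eta N p q U V T₁ = 1 := by
    refine le_antisymm hT₁ (not_lt.1 fun hlt => ?_)
    obtain ⟨x, hx, e⟩ := intermediate_value_Ioo' hT₁I.1
      ((g.continuousOn_eta hN hp hq).mono Icc_subset_Ici_self) ⟨hlt, hη0⟩
    exact (hbef x ⟨hx.1.le, hx.2⟩).ne' e
  have hk : 0 < 1 - sig p q := sub_pos.2 (sig_lt_one hp hqp)
  have hG1 : qG N p q U V T₁ ≤ 0 := not_lt.1 fun hG => by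
    have hd : -(eta N p q U V T₁ * qphi N p q U V T₁ / (2 * T₁)) < 0 := by
      unfold qphi
      rw [hη1, sub_self, mul_zero, add_zero, one_mul, neg_lt_zero]
      positivity
    obtain ⟨y, hy1, hy2⟩ := ((eventually_lt_of_deriv_neg ((g.hasDerivAt_eta hN hp hq hT₁0).neg) hd).2.and
      (Ioo_mem_nhdsLT hT₁0)).exists
    have := hbef y ⟨hy2.1.le, hy2.2⟩
    simp only [Pi.neg_apply, hη1] at hy1
    linarith
  have hphi : ∀ x > 0, HasDerivAt (qphi N p q U V) (qG' N p q U V x / (2 * x)
      + sig p q * ((qX N p U V x * (qX N p U V x + qZ N p V x - N + 2) / (2 * x))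
        * (eta N p q U V x - 1)
        + qX N p U V x * (eta N p q U V x * qphi N p q U V x / (2 * x)))) x := fun x hx => by
    have h := ((g.hasDerivAt_qX hN hp hq hx).mul ((g.hasDerivAt_eta hN hp hq hx).sub_const 1)).const_mul (sig p q)
    refine (((g.hasDerivAt_qG hN hp hq hx).add h).congr_of_eventuallyEq
      (Eventually.of_forall fun y => ?_)).congr_deriv ?_
    · simp only [qphi, Pi.add_apply, Pi.mul_apply]; ring
    · rfl
  have hevR : ∀ᶠ x in 𝓝[>] T₁, qphi N p q U V x < 0 ∧ qG N p q U V x < 0 := by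
    rcases hG1.lt_or_eq with hG | hG
    · have h1 : qphi N p q U V T₁ < 0 := by
        unfold qphi; rw [hη1, sub_self, mul_zero, add_zero]; exact hG
      exact (((hphi T₁ hT₁0).continuousAt.eventually (eventually_lt_nhds h1)).and
        ((g.hasDerivAt_qG hN hp hq hT₁0).continuousAt.eventually (eventually_lt_nhds hG))).filter_mono
          nhdsWithin_le_nhds
    · have h0 : qphi N p q U V T₁ = 0 := by
        unfold qphi; rw [hη1, hG, sub_self, mul_zero, add_zero]
      have hneg := div_neg_of_neg_of_pos (g.qG'_neg hN hp hq hqp hc hT₁0 hη1.le hG)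
        (show 0 < 2 * T₁ by linarith)
      have h1 := eventually_lt_of_deriv_neg (hphi T₁ hT₁0) (by
        rw [h0, hη1, sub_self]
        simpa using hneg)
      have h2 := eventually_lt_of_deriv_neg (g.hasDerivAt_qG hN hp hq hT₁0) hneg
      filter_upwards [h1.1, h2.1] with x hx hx'
      exact ⟨hx.trans_eq h0, hx'.trans_eq hG⟩
  obtain ⟨b, hb, hsub⟩ := mem_nhdsGT_iff_exists_Ioo_subset.1 hevR
  have hb : T₁ < b := hb
  obtain ⟨T₂, h12, hT₂b⟩ := exists_between hb
  have hT₂0 : 0 < T₂ := hT₁0.trans h12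
  obtain ⟨c, hc', e⟩ := exists_hasDerivAt_eq_slope _ _ h12
    ((g.continuousOn_eta hN hp hq).mono fun x hx => hT₁0.le.trans hx.1)
    fun x hx => g.hasDerivAt_eta hN hp hq (hT₁0.trans hx.1)
  have hη2 : eta N p q U V T₂ < 1 := by
    have hc0 : 0 < c := hT₁0.trans hc'.1
    have hneg : eta N p q U V c * qphi N p q U V c / (2 * c) < 0 :=
      div_neg_of_neg_of_pos (mul_neg_of_pos_of_neg (g.eta_pos hN hp hq hc0.le)
        (hsub ⟨hc'.1, hc'.2.trans hT₂b⟩).1) (by linarith)
    rw [e, div_neg_iff] at hneg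
    rcases hneg with ⟨-, h⟩ | ⟨h, -⟩ <;> linarith
  have hG2 : qG N p q U V T₂ < 0 := (hsub ⟨h12, hT₂b⟩).2
  -- invariance of the region
  have hinv : ∀ x, T₂ ≤ x → eta N p q U V x < 1 ∧ qG N p q U V x < 0 := by
    intro x hx
    by_contra hbad
    have hcont : ContinuousOn (qG N p q U V) (Icc T₂ x) := fun y hy =>
      (g.hasDerivAt_qG hN hp hq (hT₂0.trans_le hy.1)).continuousAt.continuousWithinAt
    have hA : ContinuousOn (fun y => eta N p q U V y - 1) (Icc T₂ x) :=
      ((g.continuousOn_eta hN hp hq).mono fun y hy => hT₂0.le.trans hy.1).sub continuousOn_const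
    have hcm : ContinuousOn (fun y => max (eta N p q U V y - 1) (qG N p q U V y)) (Icc T₂ x) :=
      continuous_max.comp_continuousOn (hA.prodMk hcont)
    set S := Icc T₂ x ∩ (fun y => max (eta N p q U V y - 1) (qG N p q U V y)) ⁻¹' Ici 0
    have hSx : x ∈ S := ⟨⟨hx, le_rfl⟩,
      show (0 : ℝ) ≤ max (eta N p q U V x - 1) (qG N p q U V x) from le_max_iff.2 (by
        by_contra h
        push Not at h
        exact hbad ⟨by linarith [h.1], h.2⟩)⟩
    have hSb : BddBelow S := ⟨T₂, fun y hy => hy.1.1⟩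
    obtain ⟨hI, hv⟩ : sInf S ∈ S :=
      (hcm.preimage_isClosed_of_isClosed isClosed_Icc isClosed_Ici).csInf_mem ⟨x, hSx⟩ hSb
    set T₃ := sInf S
    have h23 : T₂ < T₃ := hI.1.lt_of_ne fun e => by
      rw [← e] at hv
      rcases le_max_iff.1 (show (0 : ℝ) ≤ max (eta N p q U V _ - 1) (qG N p q U V _) from hv) with h | h <;> linarith
    have hbef : ∀ y ∈ Ico T₂ T₃, eta N p q U V y < 1 ∧ qG N p q U V y < 0 := fun y hy => by
      have h : ¬ (0 : ℝ) ≤ max (eta N p q U V y - 1) (qG N p q U V y) := fun h =>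
        not_le.2 hy.2 (csInf_le hSb ⟨⟨hy.1, hy.2.le.trans hI.2⟩, h⟩)
      rw [le_max_iff] at h
      push Not at h
      exact ⟨by linarith [h.1], h.2⟩
    have hT₃ : 0 < T₃ := hT₂0.trans h23
    have hIoo := Ioo_mem_nhdsLT h23
    have hle : eta N p q U V T₃ ≤ 1 ∧ qG N p q U V T₃ ≤ 0 :=
      ⟨le_of_tendsto ((g.hasDerivAt_eta hN hp hq hT₃).continuousAt.mono_left nhdsWithin_le_nhds)
          (mem_of_superset hIoo fun y hy => (hbef y ⟨hy.1.le, hy.2⟩).1.le),
        le_of_tendsto ((g.hasDerivAt_qG hN hp hq hT₃).continuousAt.mono_left nhdsWithin_le_nhds)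
          (mem_of_superset hIoo fun y hy => (hbef y ⟨hy.1.le, hy.2⟩).2.le)⟩
    rcases hle.2.lt_or_eq with hG | hG
    · have he : eta N p q U V T₃ = 1 := le_antisymm hle.1 (by
        rcases le_max_iff.1 (show (0 : ℝ) ≤ max (eta N p q U V _ - 1) (qG N p q U V _) from hv) with h | h <;> linarith)
      have hd : eta N p q U V T₃ * qphi N p q U V T₃ / (2 * T₃) < 0 := by
        unfold qphi
        rw [he, sub_self, mul_zero, add_zero, one_mul]
        exact div_neg_of_neg_of_pos hG (by linarith)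
      obtain ⟨y, hy1, hy2⟩ := ((eventually_lt_of_deriv_neg (g.hasDerivAt_eta hN hp hq hT₃) hd).2.and
        hIoo).exists
      linarith [(hbef y ⟨hy2.1.le, hy2.2⟩).1]
    · obtain ⟨y, hy1, hy2⟩ := ((eventually_lt_of_deriv_neg (g.hasDerivAt_qG hN hp hq hT₃)
        (div_neg_of_neg_of_pos (g.qG'_neg hN hp hq hqp hc hT₃ hle.1 hG) (by linarith))).2.and
        hIoo).exists
      linarith [(hbef y ⟨hy2.1.le, hy2.2⟩).2]
  have hle2 : ∀ x, T₂ ≤ x → eta N p q U V x ≤ eta N p q U V T₂ := by
    intro x hx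
    have := slope_le (f := eta N p q U V) (C := 0) hx
      ((g.continuousOn_eta hN hp hq).mono fun y hy => hT₂0.le.trans hy.1)
      (fun y hy => g.hasDerivAt_eta hN hp hq (hT₂0.trans hy.1)) fun y hy => by
        have hy0 : 0 < y := hT₂0.trans hy.1
        have h := hinv y hy.1.le
        refine (div_neg_of_neg_of_pos (mul_neg_of_pos_of_neg (g.eta_pos hN hp hq hy0.le) ?_) (by linarith)).le
        unfold qphi
        have := mul_neg_of_pos_of_neg (mul_pos hs (g.qX_pos hN hp hq hy0))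
          (show eta N p q U V y - 1 < 0 by linarith [h.1])
        linarith [h.2]
    linarith
  set c₂ := sig p q * eta N p q U V T₂
  have hc₂ : c₂ < sig p q := mul_lt_of_lt_one_right hs hη2
  set K₂ := Real.log (V T₂) - c₂ * Real.log (U T₂)
  have hbig : ∀ x, T₂ ≤ x → K₂ ≤ Real.log (V x) - c₂ * Real.log (U x) := by
    intro x hx
    have := le_slope (f := fun y => Real.log (V y) - c₂ * Real.log (U y)) (C := 0) hx
      (fun y hy => ((((g.hasDerivAt_v hN hq (hT₂0.trans_le hy.1)).log (g.pair_v (hT₂0.le.trans hy.1)).ne').sub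
        (((g.hasDerivAt_u hN hp (hT₂0.trans_le hy.1)).log (g.pair_u (hT₂0.le.trans hy.1)).ne').const_mul c₂))).continuousAt.continuousWithinAt)
      (fun y hy => ((g.hasDerivAt_v hN hq (hT₂0.trans hy.1)).log (g.pair_v (hT₂0.trans hy.1).le).ne').sub
        (((g.hasDerivAt_u hN hp (hT₂0.trans hy.1)).log (g.pair_u (hT₂0.trans hy.1).le).ne').const_mul c₂))
      fun y hy => by
        have hy0 : 0 ≤ y := (hT₂0.trans hy.1).le
        have h1 := g.pair_u hy0
        have h2 := g.pair_v hy0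
        have h3 := g.du_u_pos hN hp hy0
        have h := mul_le_mul_of_nonneg_left (hle2 y hy.1.le) hs.le
        have e : sig p q * eta N p q U V y = du N q U y / V y / (du N p V y / U y) := by
          unfold eta
          have := hs.ne'
          have := h1.ne'
          have := h2.ne'
          have := h3.ne'
          field_simp
        rw [e, div_le_iff₀ (by positivity)] at h
        have e2 : -du N q U y / V y - c₂ * (-du N p V y / U y)
            = c₂ * (du N p V y / U y) - du N q U y / V y := by ring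
        rw [e2]
        linarith
    linarith
  set L := Real.log (rtop p q)
  have hbound : ∀ x, T₂ ≤ x → Real.exp ((K₂ - L) / (sig p q - c₂)) ≤ U x := by
    intro x hx
    have hx0 := hT₂0.le.trans hx
    have hu := g.pair_u hx0
    have hv := g.pair_v hx0
    have hg := g.gap_nonpos hN hp hq hqp.le hx0
    unfold gap at hg
    have h1 := Real.log_le_log hv (by linarith : V x ≤ rtop p q * U x ^ sig p q)
    rw [Real.log_mul (rtop_pos hp hq).ne' (Real.rpow_pos_of_pos hu _).ne', Real.log_rpow hu] at h1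
    have h2 := hbig x hx
    rw [← Real.le_log_iff_exp_le hu, div_le_iff₀ (sub_pos.2 hc₂)]
    linarith
  have := (g.tendsto_u hN hp hq).eventually (eventually_lt_nhds (Real.exp_pos ((K₂ - L) / (sig p q - c₂))))
  obtain ⟨x, hx1, hx2⟩ := (this.and (eventually_ge_atTop T₂)).exists
  exact not_le.2 hx1 (hbound x hx2)

theorem hasDerivAt_ratio (hT : 0 < T) : HasDerivAt (ratio p q U V)
    (ratio p q U V T * (sig p q * (du N p V T / U T) - du N q U T / V T)) T := by
  have h1 := g.pair_u hT.le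
  have h2 := (g.pair_v hT.le).ne'
  have h3 := (Real.rpow_pos_of_pos h1 (sig p q)).ne'
  refine ((g.hasDerivAt_v hN hq hT).div ((g.hasDerivAt_u hN hp hT).rpow_const (Or.inl h1.ne')) h3).congr_deriv ?_
  unfold ratio
  rw [Real.rpow_sub_one h1.ne']
  field_simp
  ring

theorem continuousOn_ratio : ContinuousOn (ratio p q U V) (Ici 0) :=
  g.cont_v.continuousOn.div (continuous_pow_comp (sig_pos hp hq) g.cont_u).continuousOn fun _ hx =>
    (Real.rpow_pos_of_pos (g.pair_u hx) _).ne'

/-- The ratio `V / U^σ` decreases strictly. -/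
theorem strictAntiOn_ratio (hqp : q < p) (hc : N / (p + 1) + N / (q + 1) = N - 2) :
    StrictAntiOn (ratio p q U V) (Ici 0) := by
  refine strictAntiOn_of_deriv_neg (convex_Ici 0) (g.continuousOn_ratio hN hp hq) fun x hx => ?_
  rw [interior_Ici] at hx
  have hx : (0 : ℝ) < x := hx
  rw [(g.hasDerivAt_ratio hN hp hq hx).deriv]
  have h1 := g.pair_u hx.le
  have h2 := g.pair_v hx.le
  have h3 := g.du_u_pos hN hp hx.le
  have hs := sig_pos hp hq
  refine mul_neg_of_pos_of_neg (div_pos h2 (Real.rpow_pos_of_pos h1 _)) (sub_neg.2 ?_)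
  have h := g.one_lt_eta hN hp hq hqp hc hx.le
  unfold eta at h
  rw [one_lt_div (by positivity)] at h
  calc sig p q * (du N p V x / U x) = sig p q * (V x * du N p V x) / (U x * V x) := by field_simp
    _ < U x * du N q U x / (U x * V x) := div_lt_div_of_pos_right h (by positivity)
    _ = du N q U x / V x := by field_simp

theorem ratio_lt_rtop (hqp : q < p) (hc : N / (p + 1) + N / (q + 1) = N - 2) (hT : 0 ≤ T) :
    ratio p q U V T < rtop p q := by
  have h0 : ratio p q U V 0 = a := by rw [ratio, g.u_zero, g.v_zero, Real.one_rpow, div_one]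
  have h := g.a_lt_rtop hN hp hq hqp
  rcases hT.eq_or_lt with rfl | hT
  · linarith
  · have := g.strictAntiOn_ratio hN hp hq hqp hc self_mem_Ici hT.le hT
    linarith

end Ground

end

end Vale.Agent.P100.Orbit
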