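import Vale.Agent.P100.Orbit.Glue

/-!
# P100: the scale-invariant phase variables of the orbit

With `ξ = 2 T (-U_T)/U`, `Z = V^p/(-U_T)`: `ζ = (N - Z)/((p+1) Y)` and `w = (N - Z)/((q+1) ξ)`,
where `Y` is `ξ` for `V`.
-/

namespace Vale.Agent.P100.Orbit

open MeasureTheory Set Filter Topology intervalIntegral

noncomputable section

variable {N p q a T : ℝ} {U V : ℝ → ℝ}

/-- The variable `ζ`. -/
def pZeta (N p q : ℝ) (U V : ℝ → ℝ) (T : ℝ) : ℝ :=
  (N - qZ N p V T) / ((p + 1) * qX N q V U T)

/-- The variable `w₁`. -/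
def pW (N p q : ℝ) (U V : ℝ → ℝ) (T : ℝ) : ℝ :=
  (N - qZ N p V T) / ((q + 1) * qX N p U V T)

/-- The value of `ζ` at the centre. -/
def zeta0 (N p : ℝ) : ℝ := N * p / ((p + 1) * (N + 2))

namespace Ground

variable (hN : 2 < N) (hp : 0 < p) (hq : 0 < q) (g : Ground N p q a U V)
include hN hp hq g

theorem qY_pos (hT : 0 < T) : 0 < qX N q V U T := by
  have := g.pair_v hT.le
  have := g.du_v_pos hN hq hT.le
  unfold qX
  positivity

theorem qZ_pos (hT : 0 ≤ T) : 0 < qZ N p V T := by
  have := g.pair_v hT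
  have := g.du_u_pos hN hp hT
  unfold qZ
  positivity

/-- `ξ < N - 2`. -/
theorem qX_lt (hT : 0 < T) : qX N p U V T < N - 2 := by
  have hle : ∀ S, 0 < S → qX N p U V S ≤ N - 2 := by
    intro S hS
    set γ := (N - 2) / 2
    have hγ : 0 < γ := div_pos (by linarith) two_pos
    set m := S ^ (N / 2) * du N p V S
    have hm : 0 < m := mul_pos (Real.rpow_pos_of_pos hS _) (g.du_u_pos hN hp hS.le)
    have hanti : ∀ R, S ≤ R → U R - m / γ * R ^ (-γ) ≤ U S - m / γ * S ^ (-γ) := by
      intro R hR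
      have := slope_le (f := fun x => U x - m / γ * x ^ (-γ)) (C := 0) hR
        (fun x hx => ((g.hasDerivAt_u hN hp (hS.trans_le hx.1)).sub ((Real.hasDerivAt_rpow_const (p := -γ)
          (Or.inl (hS.trans_le hx.1).ne')).const_mul (m / γ))).continuousAt.continuousWithinAt)
        (fun x hx => (g.hasDerivAt_u hN hp (hS.trans hx.1)).sub ((Real.hasDerivAt_rpow_const (p := -γ)
          (Or.inl (hS.trans hx.1).ne')).const_mul (m / γ))) fun x hx => by
          have hx0 : 0 < x := hS.trans hx.1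
          have h := rpow_mul_ker_mono hN (continuous_pow_comp hp g.cont_v) hS.le hx.1.le fun y hy =>
            Real.rpow_nonneg (g.pair_v (hS.le.trans hy.1)).le _
          have e : x ^ (-γ - 1) = (x ^ (N / 2))⁻¹ := by
            rw [← Real.rpow_neg hx0.le]
            simp only [γ]
            ring_nf
          rw [e, show -du N p V x - m / γ * (-γ * (x ^ (N / 2))⁻¹) = -du N p V x + m / x ^ (N / 2) by
            field_simp; ring]
          have h2 : m / x ^ (N / 2) ≤ du N p V x := by
            rw [div_le_iff₀ (Real.rpow_pos_of_pos hx0 _)]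
            simp only [m, du]
            linarith
          linarith
      linarith
    have hlim : Tendsto (fun R => U R - m / γ * R ^ (-γ)) atTop (𝓝 0) := by
      simpa using (g.tendsto_u hN hp hq).sub ((tendsto_rpow_neg_atTop hγ).const_mul (m / γ))
    have h0 : 0 ≤ U S - m / γ * S ^ (-γ) :=
      le_of_tendsto hlim (eventually_atTop.2 ⟨S, hanti⟩)
    have hu := g.pair_u hS.le
    have e : m / γ * S ^ (-γ) = 2 * S * du N p V S / (N - 2) := by
      have : S ^ (N / 2) = S * S ^ γ := by
        rw [← Real.rpow_one_add' hS.le (by positivity)]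
        simp only [γ]; ring_nf
      simp only [m]
      rw [this, Real.rpow_neg hS.le]
      have := (Real.rpow_pos_of_pos hS γ).ne'
      simp only [γ]
      field_simp
    rw [e, sub_nonneg, div_le_iff₀ (by linarith)] at h0
    unfold qX
    rw [div_le_iff₀ hu]
    linarith
  refine (hle T hT).lt_of_ne fun e => ?_
  have hd : -(qX N p U V T * (qX N p U V T + qZ N p V T - N + 2) / (2 * T)) < 0 := by
    have := g.qX_pos hN hp hq hT
    have := g.qZ_pos hN hp hq hT.le
    have : 0 < qX N p U V T + qZ N p V T - N + 2 := by linarith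
    have : 0 < qX N p U V T * (qX N p U V T + qZ N p V T - N + 2) / (2 * T) := by positivity
    linarith
  obtain ⟨y, hy1, hy2⟩ := ((eventually_lt_of_deriv_neg ((g.hasDerivAt_qX hN hp hq hT).neg) hd).1.and
    (Ioo_mem_nhdsGT (lt_add_one T))).exists
  have := hle y (hT.trans hy2.1)
  simp only [Pi.neg_apply] at hy1
  linarith

/-- `Z < N`. -/
theorem qZ_lt (hT : 0 < T) : qZ N p V T < N := by
  refine (g.qZ_le hN hp hq hT.le).lt_of_ne fun e => ?_
  have hd : qZ N p V T * (N - p * qX N q V U T - qZ N p V T) / (2 * T) < 0 := by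
    refine div_neg_of_neg_of_pos (mul_neg_of_pos_of_neg (g.qZ_pos hN hp hq hT.le) ?_) (by linarith)
    have := mul_pos hp (g.qY_pos hN hp hq hT)
    linarith
  obtain ⟨y, hy1, hy2⟩ := ((eventually_lt_of_deriv_neg (g.hasDerivAt_qZ hN hp hq hT) hd).2.and
    (Ioo_mem_nhdsLT hT)).exists
  linarith [g.qZ_le hN hp hq hy2.1.le]

omit hN hp hq in
theorem swap (hN : 2 < N) (hp : 0 < p) (hq : 0 < q) (hc : N / (p + 1) + N / (q + 1) = N - 2)
    (hT : 0 < T) : 0 < qX N q V U T ∧
      (N - qZ N q U T) * qX N q V U T / (q + 1) + (N - qZ N p V T) * qX N p U V T / (p + 1)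
        = qX N p U V T * qX N q V U T := by
  have hr := g.relation hN hp hq hc hT
  refine ⟨g.qY_pos hN hp hq hT, ?_⟩
  rw [g.qY_eq hN hp hq hT.le]
  unfold sig
  field_simp
  linear_combination (-qX N p U V T) * hr

theorem hasDerivAt_qY (hT : 0 < T) : HasDerivAt (qX N q V U)
    (qX N q V U T * (qX N q V U T + qZ N q U T - N + 2) / (2 * T)) T :=
  hasDerivAt_qX_of hN hq g.cont_u hT.ne' (g.pair_v hT.le).ne' (g.du_v_pos hN hq hT.le).ne'
    (g.hasDerivAt_v hN hq hT)

variable (hc : N / (p + 1) + N / (q + 1) = N - 2)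
include hc

theorem one_sub_zeta (hT : 0 < T) :
    1 - pZeta N p q U V T = (N - qZ N q U T) / ((q + 1) * qX N p U V T) := by
  obtain ⟨hY, h⟩ := g.swap hN hp hq hc hT
  have hX := g.qX_pos hN hp hq hT
  unfold pZeta
  field_simp at h ⊢
  linear_combination -h

theorem pZeta_pos (hT : 0 < T) : 0 < pZeta N p q U V T :=
  div_pos (sub_pos.2 (g.qZ_lt hN hp hq hT)) (mul_pos (by linarith) (g.qY_pos hN hp hq hT))

theorem pW_pos (hT : 0 < T) : 0 < pW N p q U V T :=
  div_pos (sub_pos.2 (g.qZ_lt hN hp hq hT)) (mul_pos (by linarith) (g.qX_pos hN hp hq hT))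

/-- `w₁ = η ζ`. -/
theorem pW_eq (hT : 0 < T) : pW N p q U V T = eta N p q U V T * pZeta N p q U V T := by
  unfold pW pZeta
  rw [g.qY_eq hN hp hq hT.le]
  have := (g.qX_pos hN hp hq hT).ne'
  have := (g.eta_pos hN hp hq hT.le).ne'
  unfold sig
  field_simp

theorem pZeta_lt_pW (hqp : q < p) (hT : 0 < T) : pZeta N p q U V T < pW N p q U V T := by
  rw [g.pW_eq hN hp hq hc hT]
  exact lt_mul_of_one_lt_left (g.pZeta_pos hN hp hq hc hT) (g.one_lt_eta hN hp hq hqp hc hT.le)

omit hc in
/-- `W < N`. -/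
theorem qW_lt (hT : 0 < T) : qZ N q U T < N := by
  have hle : ∀ S, 0 < S → qZ N q U S ≤ N := by
    intro S hS
    have hk := le_ker (T := S) (B := U S ^ q) hN (continuous_pow_comp hq g.cont_u) fun x hx => by
      rw [uIcc_of_le hS.le] at hx
      exact Real.rpow_le_rpow (g.pair_u hS.le).le (g.antitone_u hN hp hx.1 hx.2) hq.le
    have hN0 : 0 < N := by linarith
    unfold qZ
    rw [div_le_iff₀ (g.du_v_pos hN hq hS.le)]
    unfold du
    have e : N * (2 / N * U S ^ q / 2) = U S ^ q := by field_simp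
    have := mul_le_mul_of_nonneg_left (div_le_div_of_nonneg_right hk (by norm_num : (0 : ℝ) ≤ 2)) hN0.le
    linarith
  refine (hle T hT).lt_of_ne fun e => ?_
  have hW : 0 < qZ N q U T := by rw [e]; linarith
  have hd : qZ N q U T * (N - q * qX N p U V T - qZ N q U T) / (2 * T) < 0 := by
    refine div_neg_of_neg_of_pos (mul_neg_of_pos_of_neg hW ?_) (by linarith)
    have := mul_pos hq (g.qX_pos hN hp hq hT)
    linarith
  obtain ⟨y, hy1, hy2⟩ := ((eventually_lt_of_deriv_neg (g.hasDerivAt_qW hN hp hq hT) hd).2.and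
    (Ioo_mem_nhdsLT hT)).exists
  linarith [hle y hy2.1]

omit hc in
/-- The second slope is below `N - 2` as well. -/
theorem qY_lt (hT : 0 < T) : qX N q V U T < N - 2 := by
  have hle : ∀ S, 0 < S → qX N q V U S ≤ N - 2 := by
    intro S hS
    set γ := (N - 2) / 2
    have hγ : 0 < γ := div_pos (by linarith) two_pos
    set m := S ^ (N / 2) * du N q U S
    have hanti : ∀ R, S ≤ R → V R - m / γ * R ^ (-γ) ≤ V S - m / γ * S ^ (-γ) := by
      intro R hR
      have := slope_le (f := fun x => V x - m / γ * x ^ (-γ)) (C := 0) hR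
        (fun x hx => ((g.hasDerivAt_v hN hq (hS.trans_le hx.1)).sub ((Real.hasDerivAt_rpow_const (p := -γ)
          (Or.inl (hS.trans_le hx.1).ne')).const_mul (m / γ))).continuousAt.continuousWithinAt)
        (fun x hx => (g.hasDerivAt_v hN hq (hS.trans hx.1)).sub ((Real.hasDerivAt_rpow_const (p := -γ)
          (Or.inl (hS.trans hx.1).ne')).const_mul (m / γ))) fun x hx => by
          have hx0 : 0 < x := hS.trans hx.1
          have h := rpow_mul_ker_mono hN (continuous_pow_comp hq g.cont_u) hS.le hx.1.le fun y hy =>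
            Real.rpow_nonneg (g.pair_u (hS.le.trans hy.1)).le _
          have e : x ^ (-γ - 1) = (x ^ (N / 2))⁻¹ := by
            rw [← Real.rpow_neg hx0.le]
            simp only [γ]
            ring_nf
          rw [e, show -du N q U x - m / γ * (-γ * (x ^ (N / 2))⁻¹) = -du N q U x + m / x ^ (N / 2) by
            field_simp; ring]
          have h2 : m / x ^ (N / 2) ≤ du N q U x := by
            rw [div_le_iff₀ (Real.rpow_pos_of_pos hx0 _)]
            simp only [m, du]
            linarith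
          linarith
      linarith
    have hlim : Tendsto (fun R => V R - m / γ * R ^ (-γ)) atTop (𝓝 0) := by
      simpa using (g.tendsto_v hN hp hq).sub ((tendsto_rpow_neg_atTop hγ).const_mul (m / γ))
    have h0 : 0 ≤ V S - m / γ * S ^ (-γ) :=
      le_of_tendsto hlim (eventually_atTop.2 ⟨S, hanti⟩)
    have hv := g.pair_v hS.le
    have e : m / γ * S ^ (-γ) = 2 * S * du N q U S / (N - 2) := by
      have : S ^ (N / 2) = S * S ^ γ := by
        rw [← Real.rpow_one_add' hS.le (by positivity)]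
        simp only [γ]; ring_nf
      simp only [m]
      rw [this, Real.rpow_neg hS.le]
      have := (Real.rpow_pos_of_pos hS γ).ne'
      simp only [γ]
      field_simp
    rw [e, sub_nonneg, div_le_iff₀ (by linarith)] at h0
    unfold qX
    rw [div_le_iff₀ hv]
    linarith
  refine (hle T hT).lt_of_ne fun e => ?_
  have hW : 0 < qZ N q U T := by
    have := g.pair_u hT.le
    have := g.du_v_pos hN hq hT.le
    unfold qZ; positivity
  have hd : -(qX N q V U T * (qX N q V U T + qZ N q U T - N + 2) / (2 * T)) < 0 := by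
    have := g.qY_pos hN hp hq hT
    have : 0 < qX N q V U T + qZ N q U T - N + 2 := by linarith
    have : 0 < qX N q V U T * (qX N q V U T + qZ N q U T - N + 2) / (2 * T) := by positivity
    linarith
  obtain ⟨y, hy1, hy2⟩ := ((eventually_lt_of_deriv_neg ((g.hasDerivAt_qY hN hp hq hT).neg) hd).1.and
    (Ioo_mem_nhdsGT (lt_add_one T))).exists
  have := hle y (hT.trans hy2.1)
  simp only [Pi.neg_apply] at hy1
  linarith

theorem pZeta_lt_one (hT : 0 < T) : pZeta N p q U V T < 1 := by
  have h : 0 < 1 - pZeta N p q U V T := by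
    rw [g.one_sub_zeta hN hp hq hc hT]
    exact div_pos (sub_pos.2 (g.qW_lt hN hp hq hT)) (mul_pos (by linarith) (g.qX_pos hN hp hq hT))
  linarith

theorem hasDerivAt_pZeta (hT : 0 < T) : HasDerivAt (pZeta N p q U V)
    (((N + 2) * (zeta0 N p - pZeta N p q U V T) - qX N p U V T * (q + 1)
      * (1 - pZeta N p q U V T) * (pW N p q U V T - pZeta N p q U V T)) / (2 * T)) T := by
  have hY := (g.qY_pos hN hp hq hT).ne'
  have hX := (g.qX_pos hN hp hq hT).ne'
  have hp1 : p + 1 ≠ 0 := by linarith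
  have hq1 : q + 1 ≠ 0 := by linarith
  refine (((g.hasDerivAt_qZ hN hp hq hT).const_sub N).div ((g.hasDerivAt_qY hN hp hq hT).const_mul (p + 1))
    (mul_ne_zero hp1 hY)).congr_deriv ?_
  have key : qX N p U V T * (q + 1) * (1 - pZeta N p q U V T) = N - qZ N q U T := by
    rw [g.one_sub_zeta hN hp hq hc hT]; field_simp
  have key2 : qX N p U V T * (q + 1) * (1 - pZeta N p q U V T) * pW N p q U V T
      = (1 - pZeta N p q U V T) * (N - qZ N p V T) := by
    unfold pW; field_simp
  have key3 : qX N p U V T * (q + 1) * (1 - pZeta N p q U V T)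
      * (pW N p q U V T - pZeta N p q U V T)
      = (1 - pZeta N p q U V T) * (N - qZ N p V T) - (N - qZ N q U T) * pZeta N p q U V T := by
    rw [mul_sub, key2, key]
  rw [key3]
  unfold pZeta zeta0
  have : N + 2 ≠ 0 := by linarith
  field_simp
  ring

theorem hasDerivAt_pW (hT : 0 < T) : HasDerivAt (pW N p q U V)
    (pW N p q U V T * ((N + 2) * (zeta0 N p - pZeta N p q U V T) / pZeta N p q U V T
      + qX N p U V T * (2 * N * pZeta N p q U V T * pW N p q U V T - (N / (q + 1) + 2) * pW N p q U V T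
        - N / (q + 1) * pZeta N p q U V T) / (N / (q + 1) * pZeta N p q U V T)) / (2 * T)) T := by
  have hY := (g.qY_pos hN hp hq hT).ne'
  have hX := (g.qX_pos hN hp hq hT).ne'
  have hp1 : p + 1 ≠ 0 := by linarith
  have hq1 : q + 1 ≠ 0 := by linarith
  have hZ : N - qZ N p V T ≠ 0 := (sub_pos.2 (g.qZ_lt hN hp hq hT)).ne'
  have hN0 : N ≠ 0 := by linarith
  have hN2 : N + 2 ≠ 0 := by linarith
  have hζ := (g.pZeta_pos hN hp hq hc hT).ne'
  have h2 : (N / (q + 1) + 2) * (p + 1) = N * p := by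
    have h : N / (p + 1) * (p + 1) = N := div_mul_cancel₀ _ hp1
    linear_combination (p + 1) * hc - h
  have h1 : qX N p U V T * (2 * N * pZeta N p q U V T * pW N p q U V T
      - (N / (q + 1) + 2) * pW N p q U V T - N / (q + 1) * pZeta N p q U V T)
        / (N / (q + 1) * pZeta N p q U V T)
      = 2 * (N - qZ N p V T) - (N / (q + 1) + 2) * (p + 1) * qX N q V U T / N - qX N p U V T := by
    unfold pW pZeta
    field_simp
  have h3 : (N + 2) * (zeta0 N p - pZeta N p q U V T) / pZeta N p q U V T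
      = N * p * qX N q V U T / (N - qZ N p V T) - (N + 2) := by
    unfold pZeta zeta0
    field_simp
  rw [h1, h2, h3]
  refine (((g.hasDerivAt_qZ hN hp hq hT).const_sub N).div ((g.hasDerivAt_qX hN hp hq hT).const_mul (q + 1))
    (mul_ne_zero hq1 hX)).congr_deriv ?_
  unfold pW
  field_simp
  ring

/-- `ζ < ζ₀` for `T > 0`. -/
theorem pZeta_lt_zeta0 (hqp : q < p) (hT : 0 < T) : pZeta N p q U V T < zeta0 N p := by
  set f : ℝ → ℝ := fun x => x ^ ((N + 2) / 2) * (zeta0 N p - pZeta N p q U V x)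
  have hd : ∀ x, 0 < x → ∃ d, 0 < d ∧ HasDerivAt f d x := by
    intro x hx
    refine ⟨x ^ ((N + 2) / 2) * (qX N p U V x * (q + 1) * (1 - pZeta N p q U V x)
      * (pW N p q U V x - pZeta N p q U V x) / (2 * x)), ?_, ?_⟩
    · have := g.qX_pos hN hp hq hx
      have := sub_pos.2 (g.pZeta_lt_one hN hp hq hc hx)
      have := sub_pos.2 (g.pZeta_lt_pW hN hp hq hc hqp hx)
      have := Real.rpow_pos_of_pos hx ((N + 2) / 2)
      positivity
    · refine ((Real.hasDerivAt_rpow_const (p := (N + 2) / 2) (Or.inl hx.ne')).mul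
        ((g.hasDerivAt_pZeta hN hp hq hc hx).const_sub (zeta0 N p))).congr_deriv ?_
      rw [Real.rpow_sub hx, Real.rpow_one]
      field_simp
      ring
  have hmono : ∀ x y, 0 < x → x < y → f x < f y := by
    intro x y hx hxy
    choose d hd1 hd2 using hd
    obtain ⟨c, hc', e⟩ := exists_hasDerivAt_eq_slope f (fun z => if h : 0 < z then d z h else 0) hxy
      (fun z hz => (hd2 z (hx.trans_le hz.1)).continuousAt.continuousWithinAt)
      fun z hz => by rw [dif_pos (hx.trans hz.1)]; exact hd2 z _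
    have := hd1 c (hx.trans hc'.1)
    rw [dif_pos (hx.trans hc'.1)] at e
    rw [e, div_pos_iff_of_pos_right (sub_pos.2 hxy)] at this
    linarith
  have hlim : Tendsto f (𝓝[>] 0) (𝓝 0) := by
    have h0 : Tendsto (fun x : ℝ => (|zeta0 N p| + 1) * x ^ ((N + 2) / 2)) (𝓝[>] 0) (𝓝 0) := by
      have h := ((Real.continuousAt_rpow_const 0 ((N + 2) / 2) (Or.inr (by linarith))).tendsto.mono_left
        (nhdsWithin_le_nhds (s := Ioi (0 : ℝ)))).const_mul (|zeta0 N p| + 1)
      rwa [Real.zero_rpow (by linarith), mul_zero] at h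
    refine squeeze_zero_norm' ?_ h0
    filter_upwards [self_mem_nhdsWithin] with x hx
    have hx : 0 < x := hx
    have h1 := g.pZeta_pos hN hp hq hc hx
    have h2 := g.pZeta_lt_one hN hp hq hc hx
    rw [Real.norm_eq_abs, abs_mul, abs_of_pos (Real.rpow_pos_of_pos hx _), mul_comm]
    refine mul_le_mul_of_nonneg_right ((abs_sub _ _).trans ?_) (Real.rpow_nonneg hx.le _)
    rw [abs_of_pos h1]
    linarith
  have h := hmono (T / 2) T (by linarith) (by linarith)
  have h2 : 0 ≤ f (T / 2) := le_of_tendsto hlim (by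
    filter_upwards [Ioo_mem_nhdsGT (show (0 : ℝ) < T / 2 by linarith)] with x hx
    exact (hmono x (T / 2) hx.1 hx.2).le)
  have h3 : 0 < f T := h2.trans_lt h
  exact sub_pos.1 ((mul_pos_iff_of_pos_left (Real.rpow_pos_of_pos hT _)).1 h3)

end Ground

end

end Vale.Agent.P100.Orbit
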