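import Vale.Agent.P100.Orbit.Invariant

/-!
# P100: the phase variables on the backward part `T₀ ≤ T < 0`, and the bridge to the forward facts
-/

namespace Vale.Agent.P100.Orbit

open MeasureTheory Set Filter Topology intervalIntegral

noncomputable section

variable {N p q T₁ T₀ T : ℝ} {U V : ℝ → ℝ}

namespace CriticalOrbit

theorem toGround (hN : 2 < N) (hp : 0 < p) (hq : 0 < q) (o : CriticalOrbit N p q T₁ T₀ U V) :
    Ground N p q (V 0) U V := by
  intro R hR
  have h0 : T₁ < 0 := o.T₁_lt.trans o.T₀_neg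
  have key : ∀ {A B : ℝ → ℝ} {r : ℝ}, 0 < r → Continuous B →
      (∀ x, T₁ < x → HasDerivAt A (-du N r B x) x) → ∀ T ∈ uIcc 0 R,
      A T = A 0 - 1 / 2 * ∫ τ in (0 : ℝ)..T, ker N (fun x => B x ^ r) τ := by
    intro A B r hr hB hA T hT
    rw [uIcc_of_le hR] at hT
    have hk := continuous_ker hN (continuous_pow_comp hr hB)
    have h := intervalIntegral.integral_eq_sub_of_hasDerivAt (f := A) (a := 0) (b := T)
      (f' := fun τ => -(1 / 2) * ker N (fun x => B x ^ r) τ) (fun x hx => by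
        rw [uIcc_of_le hT.1] at hx
        exact (hA x (h0.trans_le hx.1)).congr_deriv (by unfold du; ring))
      ((continuous_const.mul hk).intervalIntegrable _ _)
    rw [intervalIntegral.integral_const_mul] at h
    linarith
  refine ⟨⟨o.cont_u, o.cont_v, fun T hT => ?_, key hq o.cont_u o.deriv_v⟩,
    fun T hT => o.pos_u T ?_, fun T hT => o.pos_v T ?_⟩
  · have h := key hp o.cont_v o.deriv_u T hT
    rwa [o.u_zero] at h
  all_goals rw [uIcc_of_le hR] at hT; exact h0.le.trans hT.1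

variable (hN : 2 < N) (hp : 0 < p) (hq : 0 < q) (o : CriticalOrbit N p q T₁ T₀ U V)
include hN hp hq o

theorem qX_neg (hT : T₁ ≤ T) (hT0 : T < 0) : qX N p U V T < 0 := by
  have := o.pos_u T hT
  have := o.du_u_pos T hT
  unfold qX
  exact div_neg_of_neg_of_pos (mul_neg_of_neg_of_pos (by linarith) (o.du_u_pos T hT)) (o.pos_u T hT)

theorem qY_neg (hT : T₁ ≤ T) (hT0 : T < 0) : qX N q V U T < 0 :=
  div_neg_of_neg_of_pos (mul_neg_of_neg_of_pos (by linarith) (o.du_v_pos T hT)) (o.pos_v T hT)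

theorem hasDerivAt_xi (hT : T₁ < T) (h0 : T ≠ 0) : HasDerivAt (qX N p U V)
    (qX N p U V T * (qX N p U V T + qZ N p V T - N + 2) / (2 * T)) T :=
  hasDerivAt_qX_of hN hp o.cont_v h0 (o.pos_u T hT.le).ne' (o.du_u_pos T hT.le).ne' (o.deriv_u T hT)

theorem hasDerivAt_yv (hT : T₁ < T) (h0 : T ≠ 0) : HasDerivAt (qX N q V U)
    (qX N q V U T * (qX N q V U T + qZ N q U T - N + 2) / (2 * T)) T :=
  hasDerivAt_qX_of hN hq o.cont_u h0 (o.pos_v T hT.le).ne' (o.du_v_pos T hT.le).ne' (o.deriv_v T hT)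

theorem hasDerivAt_zv (hT : T₁ < T) (h0 : T ≠ 0) : HasDerivAt (qZ N p V)
    (qZ N p V T * (N - p * qX N q V U T - qZ N p V T) / (2 * T)) T := by
  have h2 := (o.pos_v T hT.le).ne'
  have h3 := (o.du_u_pos T hT.le).ne'
  refine (((o.deriv_v T hT).rpow_const (p := p) (Or.inl h2)).div
    (hasDerivAt_du hN hp o.cont_v h0) h3).congr_deriv ?_
  unfold qX qZ
  rw [Real.rpow_sub_one h2]
  field_simp
  ring

theorem hasDerivAt_wu (hT : T₁ < T) (h0 : T ≠ 0) : HasDerivAt (qZ N q U)
    (qZ N q U T * (N - q * qX N p U V T - qZ N q U T) / (2 * T)) T := by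
  have h2 := (o.pos_u T hT.le).ne'
  have h3 := (o.du_v_pos T hT.le).ne'
  refine (((o.deriv_u T hT).rpow_const (p := q) (Or.inl h2)).div
    (hasDerivAt_du hN hq o.cont_u h0) h3).congr_deriv ?_
  unfold qX qZ
  rw [Real.rpow_sub_one h2]
  field_simp
  ring

theorem identity (hT : T₁ ≤ T) :
    (N - qZ N q U T) * qX N q V U T / (q + 1) + (N - qZ N p V T) * qX N p U V T / (p + 1)
      = qX N p U V T * qX N q V U T := by
  have hE := o.first_integral T hT
  have h1 := o.pos_u T hT
  have h2 := o.pos_v T hT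
  have h3 := o.du_u_pos T hT
  have h4 := o.du_v_pos T hT
  unfold energy at hE
  rw [Real.rpow_add_one h1.ne', Real.rpow_add_one h2.ne'] at hE
  unfold qX qZ du
  unfold du at h3 h4
  generalize hK : ker N (fun x => V x ^ p) T = K at hE h3 ⊢
  generalize hL : ker N (fun x => U x ^ q) T = L at hE h4 ⊢
  have hK0 : K ≠ 0 := by linarith
  have hL0 : L ≠ 0 := by linarith
  field_simp at hE ⊢
  linear_combination (-T) * hE

theorem one_sub_zeta_eq (hT : T₁ ≤ T) (h0 : T ≠ 0) :
    1 - pZeta N p q U V T = (N - qZ N q U T) / ((q + 1) * qX N p U V T) := by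
  have h := o.identity hN hp hq hT
  have hX : qX N p U V T ≠ 0 :=
    div_ne_zero (mul_ne_zero (mul_ne_zero two_ne_zero h0) (o.du_u_pos T hT).ne') (o.pos_u T hT).ne'
  have hY : qX N q V U T ≠ 0 :=
    div_ne_zero (mul_ne_zero (mul_ne_zero two_ne_zero h0) (o.du_v_pos T hT).ne') (o.pos_v T hT).ne'
  unfold pZeta
  field_simp at h ⊢
  linear_combination -h

theorem hasDerivAt_zeta (hT : T₁ < T) (h0 : T ≠ 0) : HasDerivAt (pZeta N p q U V)
    (((N + 2) * (zeta0 N p - pZeta N p q U V T) - qX N p U V T * (q + 1)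
      * (1 - pZeta N p q U V T) * (pW N p q U V T - pZeta N p q U V T)) / (2 * T)) T := by
  have hX : qX N p U V T ≠ 0 :=
    div_ne_zero (mul_ne_zero (mul_ne_zero two_ne_zero h0) (o.du_u_pos T hT.le).ne') (o.pos_u T hT.le).ne'
  have hY : qX N q V U T ≠ 0 :=
    div_ne_zero (mul_ne_zero (mul_ne_zero two_ne_zero h0) (o.du_v_pos T hT.le).ne') (o.pos_v T hT.le).ne'
  have hp1 : p + 1 ≠ 0 := by linarith
  have hq1 : q + 1 ≠ 0 := by linarith
  refine (((o.hasDerivAt_zv hN hp hq hT h0).const_sub N).div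
    ((o.hasDerivAt_yv hN hp hq hT h0).const_mul (p + 1)) (mul_ne_zero hp1 hY)).congr_deriv ?_
  have key : qX N p U V T * (q + 1) * (1 - pZeta N p q U V T) = N - qZ N q U T := by
    rw [o.one_sub_zeta_eq hN hp hq hT.le h0]; field_simp
  have key3 : qX N p U V T * (q + 1) * (1 - pZeta N p q U V T)
      * (pW N p q U V T - pZeta N p q U V T)
      = (1 - pZeta N p q U V T) * (N - qZ N p V T) - (N - qZ N q U T) * pZeta N p q U V T := by
    rw [mul_sub, key]
    congr 1
    rw [← key]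
    unfold pW
    field_simp
  rw [key3]
  unfold pZeta zeta0
  have : N + 2 ≠ 0 := by linarith
  field_simp
  ring

theorem one_le_u (hT : T₁ < T) (hT0 : T ≤ 0) : 1 ≤ U T := by
  have := slope_le (f := U) (C := 0) hT0 o.cont_u.continuousOn
    (fun x hx => o.deriv_u x (hT.trans hx.1))
    fun x hx => neg_nonpos.2 (o.du_u_pos x (hT.trans hx.1).le).le
  rw [o.u_zero] at this
  linarith

theorem le_zv (hT : T₁ < T) (hT0 : T ≤ 0) : N ≤ qZ N p V T := by
  have hanti : ∀ x ∈ Icc T 0, V x ≤ V T := fun x hx => by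
    have := slope_le (f := V) (C := 0) hx.1 o.cont_v.continuousOn
      (fun y hy => o.deriv_v y (hT.trans hy.1))
      fun y hy => neg_nonpos.2 (o.du_v_pos y (hT.trans hy.1).le).le
    linarith
  have hk := ker_le (T := T) (B := V T ^ p) hN (continuous_pow_comp hp o.cont_v) fun x hx => by
    rw [uIcc_of_ge hT0] at hx
    exact Real.rpow_le_rpow (o.pos_v x (hT.le.trans hx.1)).le (hanti x hx) hp.le
  have hN0 : 0 < N := by linarith
  unfold qZ
  rw [le_div_iff₀ (o.du_u_pos T hT.le)]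
  unfold du
  have e : N * (2 / N * V T ^ p / 2) = V T ^ p := by field_simp
  have := mul_le_mul_of_nonneg_left (div_le_div_of_nonneg_right hk (by norm_num : (0 : ℝ) ≤ 2)) hN0.le
  linarith

theorem le_wu (hT : T₁ < T) (hT0 : T ≤ 0) : N ≤ qZ N q U T := by
  have hanti : ∀ x ∈ Icc T 0, U x ≤ U T := fun x hx => by
    have := slope_le (f := U) (C := 0) hx.1 o.cont_u.continuousOn
      (fun y hy => o.deriv_u y (hT.trans hy.1))
      fun y hy => neg_nonpos.2 (o.du_u_pos y (hT.trans hy.1).le).le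
    linarith
  have hk := ker_le (T := T) (B := U T ^ q) hN (continuous_pow_comp hq o.cont_u) fun x hx => by
    rw [uIcc_of_ge hT0] at hx
    exact Real.rpow_le_rpow (o.pos_u x (hT.le.trans hx.1)).le (hanti x hx) hq.le
  have hN0 : 0 < N := by linarith
  unfold qZ
  rw [le_div_iff₀ (o.du_v_pos T hT.le)]
  unfold du
  have e : N * (2 / N * U T ^ q / 2) = U T ^ q := by field_simp
  have := mul_le_mul_of_nonneg_left (div_le_div_of_nonneg_right hk (by norm_num : (0 : ℝ) ≤ 2)) hN0.le
  linarith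

theorem zeta_mem (hT : T₁ < T) (hT0 : T < 0) :
    0 ≤ pZeta N p q U V T ∧ pZeta N p q U V T ≤ 1 := by
  constructor
  · exact div_nonneg_of_nonpos (sub_nonpos.2 (o.le_zv hN hp hq hT hT0.le))
      (mul_nonpos_of_nonneg_of_nonpos (by linarith) (o.qY_neg hN hp hq hT.le hT0).le)
  · have h := o.one_sub_zeta_eq hN hp hq hT.le hT0.ne
    have : 0 ≤ (N - qZ N q U T) / ((q + 1) * qX N p U V T) :=
      div_nonneg_of_nonpos (sub_nonpos.2 (o.le_wu hN hp hq hT hT0.le))
        (mul_nonpos_of_nonneg_of_nonpos (by linarith) (o.qX_neg hN hp hq hT.le hT0).le)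
    linarith

/-- `w₁ = η ζ`. -/
theorem pW_eq_back (hT : T₁ ≤ T) (h0 : T ≠ 0) :
    pW N p q U V T = eta N p q U V T * pZeta N p q U V T := by
  have := (o.du_u_pos T hT).ne'
  have := (o.du_v_pos T hT).ne'
  have := (o.pos_u T hT).ne'
  have := (o.pos_v T hT).ne'
  unfold pW pZeta eta qX sig
  field_simp

theorem zeta_le_w (hT : T₀ ≤ T) (hT0 : T < 0) : pZeta N p q U V T ≤ pW N p q U V T := by
  have hT1 := o.T₁_lt.trans_le hT
  rw [o.pW_eq_back hN hp hq hT1.le hT0.ne]
  refine le_mul_of_one_le_left (o.zeta_mem hN hp hq hT1 hT0).1 ?_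
  unfold eta
  rw [one_le_div (mul_pos (sig_pos hp hq) (mul_pos (o.pos_v T hT1.le) (o.du_u_pos T hT1.le)))]
  exact (o.det_pos T hT).le

/-- `ζ₀ ≤ ζ` on the backward part. -/
theorem zeta0_le (hT : T₀ ≤ T) (hT0 : T < 0) : zeta0 N p ≤ pZeta N p q U V T := by
  set m := (N + 2) / 2
  have hm : 0 < m := by show 0 < (N + 2) / 2; linarith
  let f : ℝ → ℝ := fun x => (-x) ^ m * (zeta0 N p - pZeta N p q U V x)
  have hd : ∀ x, T₀ ≤ x → x < 0 → ∃ d, 0 ≤ d ∧ HasDerivAt f d x := by
    intro x hx hx0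
    have hx1 := o.T₁_lt.trans_le hx
    refine ⟨(-x) ^ m * (qX N p U V x * (q + 1) * (1 - pZeta N p q U V x)
      * (pW N p q U V x - pZeta N p q U V x) / (2 * x)), ?_, ?_⟩
    · refine mul_nonneg (Real.rpow_nonneg (by linarith) _) (div_nonneg_of_nonpos ?_ (by linarith))
      exact mul_nonpos_of_nonpos_of_nonneg (mul_nonpos_of_nonpos_of_nonneg
        (mul_nonpos_of_nonpos_of_nonneg (o.qX_neg hN hp hq hx1.le hx0).le (by linarith))
        (sub_nonneg.2 (o.zeta_mem hN hp hq hx1 hx0).2)) (sub_nonneg.2 (o.zeta_le_w hN hp hq hx hx0))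
    · refine (((hasDerivAt_neg x).rpow_const (p := m) (Or.inl (neg_pos.2 hx0).ne')).mul
        ((o.hasDerivAt_zeta hN hp hq hx1 hx0.ne).const_sub (zeta0 N p))).congr_deriv ?_
      have := hx0.ne
      rw [Real.rpow_sub (neg_pos.2 hx0), Real.rpow_one]
      simp only [m]
      field_simp
      ring
  choose! d hd1 hd2 using hd
  have hmono : ∀ y, T < y → y < 0 → f T ≤ f y := fun y hy hy0 => by
    have := le_slope (f := f) (C := 0) hy.le
      (fun z hz => (hd2 z (hT.trans hz.1) (hz.2.trans_lt hy0)).continuousAt.continuousWithinAt)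
      (fun z hz => hd2 z (hT.trans hz.1.le) (hz.2.trans hy0))
      fun z hz => hd1 z (hT.trans hz.1.le) (hz.2.trans hy0)
    linarith
  have hlim : Tendsto f (𝓝[<] 0) (𝓝 0) := by
    have hcn : Continuous fun x : ℝ => (-x) ^ m := continuous_neg.rpow_const fun _ => Or.inr hm.le
    have hb0 := ((hcn.tendsto 0).mono_left (nhdsWithin_le_nhds (s := Iio (0 : ℝ)))).const_mul (|zeta0 N p| + 1)
    rw [neg_zero, Real.zero_rpow hm.ne', mul_zero] at hb0
    refine squeeze_zero_norm' ?_ hb0
    filter_upwards [Ioo_mem_nhdsLT (o.T₁_lt.trans o.T₀_neg)] with y hy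
    have h := o.zeta_mem hN hp hq hy.1 hy.2
    rw [Real.norm_eq_abs, show f y = (zeta0 N p - pZeta N p q U V y) * (-y) ^ m by simp only [f]; ring,
      abs_mul, abs_of_pos (Real.rpow_pos_of_pos (neg_pos.2 hy.2) _)]
    refine mul_le_mul_of_nonneg_right ((abs_sub _ _).trans ?_) (Real.rpow_nonneg (by linarith [hy.2]) _)
    rw [abs_of_nonneg h.1]
    linarith [h.2]
  have h0 : f T ≤ 0 := ge_of_tendsto hlim (by
    filter_upwards [Ioo_mem_nhdsLT hT0] with y hy using hmono y hy.1 hy.2)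
  have := nonpos_of_mul_nonpos_right h0 (Real.rpow_pos_of_pos (neg_pos.2 hT0) m)
  linarith

/-- On the backward part `ξ` has rate at least `2` and `w₁ + ζ > 1`. -/
theorem back_rates (hqp : q < p) (hc : N / (p + 1) + N / (q + 1) = N - 2) (hT : T₀ ≤ T) (hT0 : T < 0) :
    2 ≤ qX N p U V T + qZ N p V T - N + 2 ∧ 1 < pW N p q U V T + pZeta N p q U V T := by
  have h1 := o.zeta0_le hN hp hq hT hT0
  have h2 := o.zeta_le_w hN hp hq hT hT0
  have hN0 : 0 < N := by linarith
  have hz : 1 / 2 < zeta0 N p ∧ 1 / (q + 1) < zeta0 N p := by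
    set α := N / (q + 1)
    set β := N / (p + 1)
    have hab : β < α := div_lt_div_of_pos_left hN0 (by linarith) (by linarith)
    have hα : α < N := by
      have : 0 < β := by positivity
      linarith
    have e : zeta0 N p = (α + 2) / (N + 2) := by
      have e' : zeta0 N p = (N - β) / (N + 2) := by simp only [zeta0, β]; field_simp; ring
      rw [e', show N - β = α + 2 by linarith]
    have e2 : 1 / (q + 1) = α / N := by simp only [α]; field_simp
    rw [e, e2, lt_div_iff₀ (by linarith), div_lt_div_iff₀ hN0 (by linarith)]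
    exact ⟨by linarith, by linarith⟩
  refine ⟨?_, by linarith⟩
  have hX := o.qX_neg hN hp hq (o.T₁_lt.le.trans hT) hT0
  have hw : 1 / (q + 1) < pW N p q U V T := by linarith
  unfold pW at hw
  rw [div_lt_iff₀ (show (0 : ℝ) < q + 1 by linarith)] at hw
  have e : (N - qZ N p V T) / ((q + 1) * qX N p U V T) * (q + 1) = (N - qZ N p V T) / qX N p U V T := by
    have := hX.ne
    field_simp
  rw [e, lt_div_iff_of_neg hX] at hw
  linarith

theorem hasDerivAt_w (hc : N / (p + 1) + N / (q + 1) = N - 2) (hT : T₁ < T) (h0 : T ≠ 0)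
    (hz : pZeta N p q U V T ≠ 0) : HasDerivAt (pW N p q U V)
    (pW N p q U V T * ((N + 2) * (zeta0 N p - pZeta N p q U V T) / pZeta N p q U V T
      + qX N p U V T * (2 * N * pZeta N p q U V T * pW N p q U V T - (N / (q + 1) + 2) * pW N p q U V T
        - N / (q + 1) * pZeta N p q U V T) / (N / (q + 1) * pZeta N p q U V T)) / (2 * T)) T := by
  have hX : qX N p U V T ≠ 0 :=
    div_ne_zero (mul_ne_zero (mul_ne_zero two_ne_zero h0) (o.du_u_pos T hT.le).ne') (o.pos_u T hT.le).ne'
  have hY : qX N q V U T ≠ 0 :=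
    div_ne_zero (mul_ne_zero (mul_ne_zero two_ne_zero h0) (o.du_v_pos T hT.le).ne') (o.pos_v T hT.le).ne'
  have hp1 : p + 1 ≠ 0 := by linarith
  have hq1 : q + 1 ≠ 0 := by linarith
  have hZ : N - qZ N p V T ≠ 0 := by
    intro h
    unfold pZeta at hz
    simp [h] at hz
  have hN0 : N ≠ 0 := by linarith
  have hN2 : N + 2 ≠ 0 := by linarith
  have h2 : (N / (q + 1) + 2) * (p + 1) = N * p := by
    have h : N / (p + 1) * (p + 1) = N := div_mul_cancel₀ _ hp1
    linear_combination (p + 1) * hc - h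
  have h1 : qX N p U V T * (2 * N * pZeta N p q U V T * pW N p q U V T
      - (N / (q + 1) + 2) * pW N p q U V T - N / (q + 1) * pZeta N p q U V T)
        / (N / (q + 1) * pZeta N p q U V T)
      = 2 * (N - qZ N p V T) - (N / (q + 1) + 2) * (p + 1) * qX N q V U T / N - qX N p U V T := by
    unfold pW pZeta
    field_simp
  have h3 : (N + 2) * (zeta0 N p - pZeta N p q U V T) / pZeta N p q U V T
      = N * p * qX N q V U T / (N - qZ N p V T) - (N + 2) := by
    unfold pZeta zeta0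
    field_simp
  rw [h1, h2, h3]
  refine (((o.hasDerivAt_zv hN hp hq hT h0).const_sub N).div
    ((o.hasDerivAt_xi hN hp hq hT h0).const_mul (q + 1)) (mul_ne_zero hq1 hX)).congr_deriv ?_
  unfold pW
  field_simp
  ring

/-- `Z ζ = σ r^(p+1) W w₁`. -/
theorem ratio_identity (hT : T₁ ≤ T) (h0 : T ≠ 0) :
    qZ N p V T * pZeta N p q U V T
      = sig p q * ratio p q U V T ^ (p + 1) * (qZ N q U T * pW N p q U V T) := by
  have hu := o.pos_u T hT
  have hv := o.pos_v T hT
  have := (o.du_u_pos T hT).ne'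
  have := (o.du_v_pos T hT).ne'
  have := sig_pos hp hq
  rw [o.pW_eq_back hN hp hq hT h0]
  have e : ratio p q U V T ^ (p + 1) = V T ^ p * V T / (U T ^ q * U T) := by
    rw [ratio, Real.div_rpow hv.le (Real.rpow_nonneg hu.le _), ← Real.rpow_mul hu.le,
      show sig p q * (p + 1) = q + 1 by unfold sig; field_simp, Real.rpow_add_one hv.ne',
      Real.rpow_add_one hu.ne']
  rw [e]
  have := (Real.rpow_pos_of_pos hu q).ne'
  unfold qZ eta
  field_simp

/-- The bound on `-ξ` coming from `r ≤ rtop`. -/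
theorem xi_bound (hT : T₀ ≤ T) (hT0 : T < 0) :
    qZ N p V T * pZeta N p q U V T ≤ qZ N q U T * pW N p q U V T ∧
      -(qX N p U V T) * (q + 1) * (pW N p q U V T * (2 * pZeta N p q U V T - 1))
        ≤ N * (pW N p q U V T - pZeta N p q U V T) := by
  have hT1 := o.T₁_lt.trans_le hT
  have h := o.ratio_identity hN hp hq hT1.le hT0.ne
  have hr : sig p q * ratio p q U V T ^ (p + 1) ≤ 1 := by
    have hle : ratio p q U V T ≤ rtop p q := by
      rcases hT.eq_or_lt with e | e
      · rw [← e, o.ratio_top]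
      · have := o.ratio_anti self_mem_Ici hT e
        rw [o.ratio_top] at this
        exact this.le
    have hpos : 0 ≤ ratio p q U V T :=
      div_nonneg (o.pos_v T hT1.le).le (Real.rpow_nonneg (o.pos_u T hT1.le).le _)
    exact (mul_le_mul_of_nonneg_left (Real.rpow_le_rpow hpos hle (by linarith)) (sig_pos hp hq).le).trans_eq
      (rtop_eq hp hq)
  have hW : 0 ≤ qZ N q U T * pW N p q U V T := by
    refine mul_nonneg ?_ ((o.zeta_mem hN hp hq hT1 hT0).1.trans (o.zeta_le_w hN hp hq hT hT0))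
    linarith [o.le_wu hN hp hq hT1 hT0.le]
  have h1 : qZ N p V T * pZeta N p q U V T ≤ qZ N q U T * pW N p q U V T := by
    rw [h]; exact mul_le_of_le_one_left hW hr
  refine ⟨h1, ?_⟩
  have e1 : qX N p U V T * (q + 1) * pW N p q U V T = N - qZ N p V T := by
    unfold pW
    have := (o.qX_neg hN hp hq hT1.le hT0).ne
    have : q + 1 ≠ 0 := by linarith
    field_simp
  have e2 : qX N p U V T * (q + 1) * (1 - pZeta N p q U V T) = N - qZ N q U T := by
    rw [o.one_sub_zeta_eq hN hp hq hT1.le hT0.ne]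
    have := (o.qX_neg hN hp hq hT1.le hT0).ne
    have : q + 1 ≠ 0 := by linarith
    field_simp
  rw [show qZ N p V T = N - qX N p U V T * (q + 1) * pW N p q U V T by linarith,
    show qZ N q U T = N - qX N p U V T * (q + 1) * (1 - pZeta N p q U V T) by linarith] at h1
  linarith

end CriticalOrbit

end

end Vale.Agent.P100.Orbit
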