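import Vale.Agent.P100.Orbit.Increase

/-!
# P100: `φ > 1/2` on the forward orbit

`φ = (N + 2) (ζ₀ - ζ) / (ξ (q + 1) (1 - ζ) (w₁ - ζ))`.
-/

namespace Vale.Agent.P100.Orbit

open MeasureTheory Set Filter Topology intervalIntegral

noncomputable section

variable {N p q a T : ℝ} {U V : ℝ → ℝ}

theorem half_endpoint {S α f z : ℝ} (hS : 0 < S) (hα : S / 2 ≤ α) (hf : α = f * S) (hz : 0 ≤ z)
    (hz0 : z ≤ (α + 2) / (S + 4)) :
    0 ≤ f ^ 2 * ((S + 2) / 2 - (S - α)) + z ^ 2 * ((S + 2) / 2 - 2 * f) - (S + 2) * z ^ 3 := by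
  subst hf
  obtain ⟨ε, hε, rfl⟩ : ∃ ε, 0 ≤ ε ∧ f = (1 + ε) / 2 :=
    ⟨2 * f - 1, sub_nonneg.2 (by nlinarith), by ring⟩
  set A := ((1 + ε) / 2) ^ 2 * ((S + 2) / 2 - (S - (1 + ε) / 2 * S))
  set B := (S + 2) / 2 - 2 * ((1 + ε) / 2)
  have hA : 0 ≤ A := by
    have : 0 ≤ (S + 2) / 2 - (S - (1 + ε) / 2 * S) := by
      have := mul_nonneg hε hS.le
      linarith
    positivity
  have hend : 0 ≤ A + ((((1 + ε) / 2 * S) + 2) / (S + 4)) ^ 2 * B
      - (S + 2) * ((((1 + ε) / 2 * S) + 2) / (S + 4)) ^ 3 := by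
    have e : A + ((((1 + ε) / 2 * S) + 2) / (S + 4)) ^ 2 * B
        - (S + 2) * ((((1 + ε) / 2 * S) + 2) / (S + 4)) ^ 3
        = (ε * (S + 4) ^ 2 + (S + 2) ^ 2 * (S + 4) * ε ^ 2 + ε ^ 3 * (S ^ 3 + 5 * S ^ 2 + 8 * S))
          / (S + 4) ^ 3 := by
      simp only [A, B]
      field_simp
      ring
    rw [e]
    positivity
  set z₀ := (((1 + ε) / 2 * S) + 2) / (S + 4)
  rcases le_total ((S + 2) * z) B with h | h
  · have := mul_nonneg (sq_nonneg z) (sub_nonneg.2 h)
    linarith
  · have h1 : B * (z₀ + z) ≤ (S + 2) * z * (z₀ + z) := mul_le_mul_of_nonneg_right h (by linarith)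
    have h2 : 0 ≤ (S + 2) * z₀ ^ 2 := by positivity
    have := mul_nonneg (sub_nonneg.2 hz0) (show 0 ≤ (S + 2) * (z₀ ^ 2 + z₀ * z + z ^ 2) - B * (z₀ + z) by
      linarith)
    linarith

theorem half_quad {S α f z u : ℝ} (hS : 0 < S) (hα : S / 2 ≤ α) (hf : α = f * S) (hz : 0 ≤ z)
    (hz0 : z ≤ (α + 2) / (S + 4)) (hu : 0 ≤ u) (hw : z + u ≤ f) :
    0 ≤ 2 * (α + 1 - (S + 2) * z) * z ^ 2
      + u * z * ((S + 2) * f + (α - (S - α)) + 2 - 2 * (S + 2) * z)
      + u ^ 2 * ((S + 2) / 2 - (S - α) - (S + 2) * z) := by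
  have hend := half_endpoint hS hα hf hz hz0
  have hc0 : 0 ≤ α + 1 - (S + 2) * z := by
    rw [le_div_iff₀ (by linarith)] at hz0
    have h := mul_le_mul_of_nonneg_left hz0 (show (0 : ℝ) ≤ S + 2 by linarith)
    by_contra hc
    push Not at hc
    have h2 := mul_lt_mul_of_pos_right hc (show (0 : ℝ) < S + 4 by linarith)
    linarith
  have hf0 : 0 ≤ f := by linarith
  have hNf : 0 ≤ (S + 2) * f := by positivity
  set c₂ := (S + 2) / 2 - (S - α) - (S + 2) * z with hc2
  set c₁ := (S + 2) * f + (α - (S - α)) + 2 - 2 * (S + 2) * z with hc1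
  rcases le_total 0 c₂ with h | h
  · have : 0 ≤ c₁ := by linarith
    positivity
  · -- concave in `u`
    set m := f - z
    have hm : 0 ≤ m := by simp only [m]; linarith
    have hum : u ≤ m := by simp only [m]; linarith
    have hQ : 0 ≤ 2 * (α + 1 - (S + 2) * z) * z ^ 2 + m * z * c₁ + m ^ 2 * c₂ := by
      refine hend.trans_eq ?_
      simp only [m, hc1, hc2, hf]
      ring
    rcases hm.eq_or_lt with e | e
    · have : u = 0 := by linarith
      subst this
      simpa using (show 0 ≤ 2 * (α + 1 - (S + 2) * z) * z ^ 2 by positivity)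
    · have h1 : 0 ≤ (m - u) * (2 * (α + 1 - (S + 2) * z) * z ^ 2) := by
        have := sub_nonneg.2 hum
        positivity
      have h2 := mul_nonneg hu hQ
      have h3 : 0 ≤ u * (m - u) * m * (-c₂) := by
        have := sub_nonneg.2 hum
        have := neg_nonneg.2 h
        positivity
      refine nonneg_of_mul_nonneg_right (a := m) ?_ e
      linarith

namespace Ground

/-- `2 (N + 2) (ζ₀ - ζ) - ξ (q + 1) (1 - ζ) (w₁ - ζ)`, positive iff `φ > 1/2`. -/
def halfGap (N p q : ℝ) (U V : ℝ → ℝ) (T : ℝ) : ℝ :=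
  2 * ((N + 2) * (zeta0 N p - pZeta N p q U V T)) - qX N p U V T * (q + 1)
    * (1 - pZeta N p q U V T) * (pW N p q U V T - pZeta N p q U V T)

variable (hN : 2 < N) (hp : 0 < p) (hq : 0 < q) (g : Ground N p q a U V)
include hN hp hq g
variable (hqp : q < p) (hc : N / (p + 1) + N / (q + 1) = N - 2)
include hqp hc

/-- `w₁` has a limit above `ζ₀` at the centre. -/
theorem tendsto_gap_zero : ∃ d > 0, Tendsto (fun x => pW N p q U V x - pZeta N p q U V x) (𝓝[>] 0) (𝓝 d) := by
  have hη : Tendsto (eta N p q U V) (𝓝[>] 0) (𝓝 (eta N p q U V 0)) :=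
    (((g.continuousOn_eta hN hp hq) 0 self_mem_Ici).tendsto).mono_left
      (nhdsWithin_mono 0 Ioi_subset_Ici_self)
  have hz := g.tendsto_pZeta_zero hN hp hq hqp hc
  refine ⟨(eta N p q U V 0 - 1) * zeta0 N p, mul_pos (sub_pos.2 (g.one_lt_eta hN hp hq hqp hc le_rfl))
    (by unfold zeta0; positivity), ((hη.sub_const 1).mul hz).congr' ?_⟩
  filter_upwards [self_mem_nhdsWithin] with x hx
  rw [g.pW_eq hN hp hq hc hx]
  ring

/-- `φ > 1/2`. -/
theorem halfGap_pos (hT : 0 < T) : 0 < halfGap N p q U V T := by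
  set F : ℝ → ℝ := halfGap N p q U V
  set zd : ℝ → ℝ := fun x => ((N + 2) * (zeta0 N p - pZeta N p q U V x) - qX N p U V x * (q + 1)
      * (1 - pZeta N p q U V x) * (pW N p q U V x - pZeta N p q U V x)) / (2 * x)
  set wd : ℝ → ℝ := fun x => pW N p q U V x * ((N + 2) * (zeta0 N p - pZeta N p q U V x) / pZeta N p q U V x
      + qX N p U V x * (2 * N * pZeta N p q U V x * pW N p q U V x - (N / (q + 1) + 2) * pW N p q U V x
        - N / (q + 1) * pZeta N p q U V x) / (N / (q + 1) * pZeta N p q U V x)) / (2 * x)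
  set xd : ℝ → ℝ := fun x => qX N p U V x * (qX N p U V x + qZ N p V x - N + 2) / (2 * x)
  set F' : ℝ → ℝ := fun x => 2 * ((N + 2) * -zd x) - (xd x * (q + 1) * (1 - pZeta N p q U V x)
        * (pW N p q U V x - pZeta N p q U V x)
      + qX N p U V x * (q + 1) * (-zd x) * (pW N p q U V x - pZeta N p q U V x)
      + qX N p U V x * (q + 1) * (1 - pZeta N p q U V x) * (wd x - zd x))
  have hd : ∀ x, 0 < x → HasDerivAt F (F' x) x := fun x hx => by
    refine ((((g.hasDerivAt_pZeta hN hp hq hc hx).const_sub (zeta0 N p)).const_mul (N + 2)).const_mul 2).sub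
      ((((g.hasDerivAt_qX hN hp hq hx).mul_const (q + 1)).mul
        ((g.hasDerivAt_pZeta hN hp hq hc hx).const_sub 1)).mul
        ((g.hasDerivAt_pW hN hp hq hc hx).sub (g.hasDerivAt_pZeta hN hp hq hc hx))) |>.congr_deriv ?_
    simp only [Pi.mul_apply, Pi.sub_apply, F', zd, wd, xd]
    ring
  have hpos : ∀ x, 0 < x → F x = 0 → 0 < F' x := fun x hx he => by
    have hX := g.qX_pos hN hp hq hx
    have hXS := g.qX_lt hN hp hq hx
    have hz := g.pZeta_pos hN hp hq hc hx
    have hz1 := sub_pos.2 (g.pZeta_lt_one hN hp hq hc hx)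
    have hu := sub_pos.2 (g.pZeta_lt_pW hN hp hq hc hqp hx)
    have hz0 := (g.pZeta_lt_zeta0 hN hp hq hc hqp hx).le
    have hw := (g.pW_lt hN hp hq hqp hc hx).le
    have hha := half_lt_alpha hN hq hqp hc hp
    rw [zeta0_eq hN hp hq hqp hc] at hz0
    have hq1 : q + 1 ≠ 0 := by linarith
    have hS : 0 < N - 2 := by linarith
    have hN0 : 0 < N := by linarith
    set α := N / (q + 1) with hαdef
    have hα : 0 < α := by positivity
    have hqα : q + 1 = N / α := by rw [hαdef]; field_simp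
    set z := pZeta N p q U V x with hzdef
    set w := pW N p q U V x with hwdef
    set X := qX N p U V x with hXdef
    set u := w - z with hudef
    have hP : (N + 2) * (zeta0 N p - z) = X * (q + 1) * (1 - z) * u / 2 := by
      simp only [F, halfGap, ← hzdef, ← hwdef, ← hXdef] at he
      linarith
    have hZ : qZ N p V x = N - (q + 1) * X * w := by
      simp only [hwdef, pW, ← hXdef]
      field_simp
      ring
    set NG := 2 * (α + 1 - N * z) * z ^ 2 + u * z * (α - (N - 2 - α) + 2 - 2 * N * z)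
      + u ^ 2 * (N / 2 - (N - 2 - α) - N * z)
    have e : F' x * (2 * x) * (α * z) = X * (q + 1) * (1 - z) * (N * α * z * u + X * NG) := by
      simp only [F', zd, wd, xd, ← hzdef, ← hwdef, ← hXdef]
      rw [hP, hZ, ← hαdef, hqα]
      simp only [NG, hudef]
      field_simp
      ring
    have hH := half_quad (S := N - 2) (α := α) (f := α / (N - 2)) (z := z) (u := u) hS hha.le
      (div_mul_cancel₀ α hS.ne').symm hz.le (by rw [show N - 2 + 4 = N + 2 by ring]; exact hz0) hu.le
      (by simp only [hudef]; linarith)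
    have h1 : 0 < N * α * z * u + X * NG := by
      have h2 : N * α * z * u + X * NG = (1 - X / (N - 2)) * (N * α * z * u)
          + X * (2 * (α + 1 - (N - 2 + 2) * z) * z ^ 2
            + u * z * ((N - 2 + 2) * (α / (N - 2)) + (α - (N - 2 - α)) + 2 - 2 * (N - 2 + 2) * z)
            + u ^ 2 * ((N - 2 + 2) / 2 - (N - 2 - α) - (N - 2 + 2) * z)) := by
        simp only [NG]
        field_simp
        ring
      rw [h2]
      have h3 : 0 < 1 - X / (N - 2) := sub_pos.2 ((div_lt_one hS).2 hXS)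
      positivity
    have h4 : 0 < F' x * (2 * x) * (α * z) := by rw [e]; positivity
    exact (mul_pos_iff_of_pos_right (by linarith : 0 < 2 * x)).1
      ((mul_pos_iff_of_pos_right (by positivity : 0 < α * z)).1 h4)
  by_contra hle
  push Not at hle
  have hneg : ∀ x, 0 < x → x < T → F x < 0 := fun x hx hxT => not_le.1 fun h => by
    have := stay_above (fun z hz => hd z (hx.trans_le hz)) h
      (fun z hz he => hpos z (hx.trans_le hz) he) T hxT
    exact not_lt.2 hle this
  obtain ⟨d, hd0, hgap⟩ := g.tendsto_gap_zero hN hp hq hqp hc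
  have hlz := g.tendsto_pZeta_zero hN hp hq hqp hc
  have hlX := g.qX_small hN hp hq
  have hz01 : zeta0 N p < 1 := by
    rw [zeta0_eq hN hp hq hqp hc, div_lt_one (by linarith)]
    have : N / (q + 1) < N := div_lt_self (by linarith) (by linarith)
    linarith
  set K₀ := (q + 1) * (1 - zeta0 N p) * d
  have hK₀ : 0 < K₀ := by
    have := sub_pos.2 hz01
    positivity
  have hlK : Tendsto (fun x => (q + 1) * (1 - pZeta N p q U V x)
      * (pW N p q U V x - pZeta N p q U V x)) (𝓝[>] 0) (𝓝 K₀) :=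
    ((hlz.const_sub 1).const_mul (q + 1)).mul hgap
  have hev : ∀ᶠ x in 𝓝[>] (0 : ℝ), x < T ∧ qX N p U V x < 1 / 5 ∧
      9 / 10 * K₀ < (q + 1) * (1 - pZeta N p q U V x) * (pW N p q U V x - pZeta N p q U V x) ∧
      (q + 1) * (1 - pZeta N p q U V x) * (pW N p q U V x - pZeta N p q U V x) < 11 / 10 * K₀ := by
    filter_upwards [nhdsWithin_le_nhds (eventually_lt_nhds hT), hlX.eventually (eventually_lt_nhds (show (0 : ℝ) < 1 / 5 by norm_num)),
      hlK.eventually (eventually_gt_nhds (show 9 / 10 * K₀ < K₀ by linarith)),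
      hlK.eventually (eventually_lt_nhds (show K₀ < 11 / 10 * K₀ by linarith))]
      with x h1 h2 h3 h4 using ⟨h1, h2, h3, h4⟩
  obtain ⟨b, hb, hsub⟩ := mem_nhdsGT_iff_exists_Ioo_subset.1 hev
  have hb : 0 < b := hb
  set h : ℝ → ℝ := fun x => zeta0 N p - pZeta N p q U V x - 9 / 50 * K₀ * qX N p U V x
  have hmono : ∀ x y, 0 < x → x ≤ y → y < b → h x ≤ h y := fun x y hx hxy hy => by
    have hhd : ∀ z, 0 < z → HasDerivAt h (-zd z - 9 / 50 * K₀ * xd z) z := fun z hz =>
      ((g.hasDerivAt_pZeta hN hp hq hc hz).const_sub (zeta0 N p)).sub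
        ((g.hasDerivAt_qX hN hp hq hz).const_mul _)
    have := le_slope (f := h) (C := 0) hxy
      (fun z hz => (hhd z (hx.trans_le hz.1)).continuousAt.continuousWithinAt)
      (fun z hz => hhd z (hx.trans hz.1)) fun z hz => by
        have hz0 : 0 < z := hx.trans hz.1
        obtain ⟨k1, k2, k3, k4⟩ := hsub ⟨hz0, hz.2.trans hy⟩
        have hX := g.qX_pos hN hp hq hz0
        have hw := g.pW_pos hN hp hq hc hz0
        have hq1 : 0 < q + 1 := by linarith
        have hF := hneg z hz0 k1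
        simp only [F, halfGap] at hF
        have hZ : qZ N p V z = N - (q + 1) * qX N p U V z * pW N p q U V z := by
          simp only [pW]
          field_simp
          ring
        have e : -zd z - 9 / 50 * K₀ * xd z = (qX N p U V z * (q + 1) * (1 - pZeta N p q U V z)
            * (pW N p q U V z - pZeta N p q U V z) - (N + 2) * (zeta0 N p - pZeta N p q U V z)
            - 9 / 50 * K₀ * (qX N p U V z * (qX N p U V z + qZ N p V z - N + 2))) / (2 * z) := by
          simp only [zd, xd]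
          ring
        rw [e]
        refine div_nonneg ?_ (by linarith)
        rw [hZ]
        have m1 := mul_lt_mul_of_pos_left k3 hX
        have m2 : 0 ≤ K₀ * qX N p U V z * (1 / 5 - qX N p U V z) := by
          have := sub_nonneg.2 k2.le
          positivity
        have m3 : 0 ≤ K₀ * qX N p U V z * ((q + 1) * qX N p U V z * pW N p q U V z) := by positivity
        have m4 := mul_pos hK₀ hX
        linarith
    linarith
  have hlim : Tendsto h (𝓝[>] 0) (𝓝 0) := by
    have := (hlz.const_sub (zeta0 N p)).sub (hlX.const_mul (9 / 50 * K₀))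
    simpa [h] using this
  obtain ⟨y, hy0, hyb⟩ := exists_between hb
  have h0 : 0 ≤ h y := le_of_tendsto hlim (by
    filter_upwards [Ioo_mem_nhdsGT hy0] with x hx using hmono x y hx.1 hx.2.le hyb)
  obtain ⟨k1, k2, k3, k4⟩ := hsub ⟨hy0, hyb⟩
  have hF := hneg y hy0 k1
  have hX := g.qX_pos hN hp hq hy0
  simp only [F, halfGap] at hF
  simp only [h] at h0
  have m1 := mul_lt_mul_of_pos_left k4 hX
  have m2 := mul_le_mul_of_nonneg_left (show 9 / 50 * K₀ * qX N p U V y ≤ zeta0 N p - pZeta N p q U V y by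
    linarith) (show (0 : ℝ) ≤ N + 2 by linarith)
  have m3 : 0 < (N - 2) * (K₀ * qX N p U V y) := mul_pos (by linarith) (mul_pos hK₀ hX)
  have m4 := mul_pos hK₀ hX
  linarith

end Ground

end

end Vale.Agent.P100.Orbit
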