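import Vale.Agent.P100.Orbit.Kernel

/-!
# P100: the radial system with bounded Lipschitz sources

Global solutions on both sides of `T = 0`, depending continuously on the initial values, by a
contraction in a weighted norm.
-/

namespace Vale.Agent.P100.Orbit

open MeasureTheory Set Filter Topology intervalIntegral BoundedContinuousFunction

noncomputable section

/-- The system `U_T = -ker g(V) / 2`, `V_T = -ker h(U) / 2` in integrated form. -/
structure Sys (N : ℝ) (g h : ℝ → ℝ) (u₀ v₀ : ℝ) (U V : ℝ → ℝ) : Prop where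
  cont_u : Continuous U
  cont_v : Continuous V
  eq_u : ∀ T, U T = u₀ - (1 / 2) * ∫ τ in (0 : ℝ)..T, ker N (fun x => g (V x)) τ
  eq_v : ∀ T, V T = v₀ - (1 / 2) * ∫ τ in (0 : ℝ)..T, ker N (fun x => h (U x)) τ

/-- Bounded and Lipschitz. -/
structure Nice (g : ℝ → ℝ) (L B : ℝ) : Prop where
  lip : ∀ x y, |g x - g y| ≤ L * |x - y|
  bound : ∀ x, |g x| ≤ B

variable {N L B : ℝ} {g h : ℝ → ℝ} {u₀ v₀ : ℝ}

theorem Nice.continuous (hg : Nice g L B) : Continuous g :=
  (LipschitzWith.of_dist_le_mul (K := L.toNNReal) fun x y => by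
    rw [Real.dist_eq, Real.dist_eq]
    exact (hg.lip x y).trans (mul_le_mul_of_nonneg_right L.le_coe_toNNReal (abs_nonneg _))).continuous

theorem Nice.nonneg_lip (hg : Nice g L B) : 0 ≤ L := by
  have := hg.lip 1 0
  simp at this
  exact le_trans (abs_nonneg _) this

theorem Nice.nonneg_bound (hg : Nice g L B) : 0 ≤ B := (abs_nonneg _).trans (hg.bound 0)

theorem abs_integral_exp_le {k : ℝ} (hk : 0 < k) {F : ℝ → ℝ} {C : ℝ} (hC : 0 ≤ C) (T : ℝ)
    (hF : ∀ τ ∈ uIcc 0 T, |F τ| ≤ C * Real.exp (k * |τ|)) :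
    |∫ τ in (0 : ℝ)..T, F τ| ≤ C / k * Real.exp (k * |T|) := by
  have hprim : ∀ T : ℝ, 0 ≤ T → ∫ τ in (0 : ℝ)..T, C * Real.exp (k * τ)
      = C / k * (Real.exp (k * T) - 1) := by
    intro T _
    have hd : ∀ x ∈ uIcc 0 T, HasDerivAt (fun y => C / k * Real.exp (k * y))
        (C * Real.exp (k * x)) x := fun x _ => by
      refine ((((hasDerivAt_id x).const_mul k).exp).const_mul (C / k)).congr_deriv ?_
      simp only [id_eq, mul_one]
      field_simp
    rw [intervalIntegral.integral_eq_sub_of_hasDerivAt hd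
      ((continuous_const.mul (Real.continuous_exp.comp (continuous_const.mul continuous_id))).intervalIntegrable _ _)]
    simp
    ring
  have hnn : 0 ≤ C / k := div_nonneg hC hk.le
  have key : ∀ T : ℝ, 0 ≤ T → ∀ G : ℝ → ℝ, (∀ τ ∈ Icc 0 T, |G τ| ≤ C * Real.exp (k * τ)) →
      |∫ τ in (0 : ℝ)..T, G τ| ≤ C / k * Real.exp (k * T) := by
    intro T hT G hG
    have h := intervalIntegral.norm_integral_le_of_norm_le hT (μ := volume)
      (f := G) (g := fun τ => C * Real.exp (k * τ))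
      (ae_of_all _ fun τ hτ => hG τ ⟨hτ.1.le, hτ.2⟩)
      ((continuous_const.mul (Real.continuous_exp.comp
        (continuous_const.mul continuous_id))).intervalIntegrable _ _)
    rw [Real.norm_eq_abs, hprim T hT] at h
    exact h.trans (mul_le_mul_of_nonneg_left (by linarith) hnn)
  rcases le_total 0 T with hT | hT
  · rw [abs_of_nonneg hT]
    exact key T hT F fun τ hτ => by simpa [abs_of_nonneg hτ.1] using hF τ (by rwa [uIcc_of_le hT])
  · have h := key (-T) (neg_nonneg.2 hT) (fun τ => F (-τ)) fun τ hτ => by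
      have h := hF (-τ) (by rw [uIcc_of_ge hT]; exact ⟨by linarith [hτ.2], by linarith [hτ.1]⟩)
      rwa [abs_neg, abs_of_nonneg hτ.1] at h
    rw [intervalIntegral.integral_comp_neg, neg_neg, neg_zero, intervalIntegral.integral_symm,
      abs_neg] at h
    rwa [abs_of_nonpos hT]

theorem continuous_half_step (hN : 2 < N) (hg : Continuous g) {W : ℝ → ℝ} (hW : Continuous W)
    (u₀ : ℝ) :
    Continuous fun T => u₀ - (1 / 2) * ∫ τ in (0 : ℝ)..T, ker N (fun x => g (W x)) τ :=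
  continuous_const.sub (continuous_const.mul
    (intervalIntegral.continuous_primitive
      (fun a b => (continuous_ker hN (hg.comp hW)).intervalIntegrable a b) 0))

theorem half_step_bound (hN : 2 < N) (hg : Nice g L B) {W : ℝ → ℝ} (hW : Continuous W)
    (u₀ T : ℝ) :
    |u₀ - (1 / 2) * ∫ τ in (0 : ℝ)..T, ker N (fun x => g (W x)) τ| ≤ |u₀| + B / N * |T| := by
  refine (abs_sub _ _).trans (add_le_add le_rfl ?_)
  have h := intervalIntegral.norm_integral_le_of_norm_le_const (a := 0) (b := T)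
    (f := fun τ => ker N (fun x => g (W x)) τ) (C := 2 / N * B) fun τ _ =>
      abs_ker_le hN (hg.continuous.comp hW) fun x _ => hg.bound _
  rw [Real.norm_eq_abs, sub_zero] at h
  rw [abs_mul, abs_of_pos (by norm_num : (0 : ℝ) < 1 / 2)]
  calc 1 / 2 * |∫ τ in (0 : ℝ)..T, ker N (fun x => g (W x)) τ| ≤ 1 / 2 * (2 / N * B * |T|) :=
        mul_le_mul_of_nonneg_left h (by norm_num)
    _ = B / N * |T| := by ring

theorem half_step_lip (hN : 2 < N) (hg : Nice g L B) {W W' : ℝ → ℝ} (hW : Continuous W)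
    (hW' : Continuous W') {k D : ℝ} (hk : 0 < k) (hD : 0 ≤ D) (T : ℝ)
    (h : ∀ x ∈ uIcc 0 T, |W x - W' x| ≤ D * Real.exp (k * |x|)) :
    |(∫ τ in (0 : ℝ)..T, ker N (fun x => g (W x)) τ)
        - ∫ τ in (0 : ℝ)..T, ker N (fun x => g (W' x)) τ|
      ≤ 2 / N * L * D / k * Real.exp (k * |T|) := by
  have hL := hg.nonneg_lip
  have c1 : Continuous fun x => g (W x) := hg.continuous.comp hW
  have c2 : Continuous fun x => g (W' x) := hg.continuous.comp hW'
  rw [← intervalIntegral.integral_sub ((continuous_ker hN c1).intervalIntegrable _ _)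
    ((continuous_ker hN c2).intervalIntegrable _ _)]
  refine abs_integral_exp_le hk (by positivity) T fun τ hτ => ?_
  rw [ker_sub hN c1 c2]
  refine (abs_ker_le (B := L * (D * Real.exp (k * |τ|))) hN
    ((hg.continuous.comp hW).sub (hg.continuous.comp hW')) fun x hx => ?_).trans_eq (by ring)
  refine (hg.lip _ _).trans (mul_le_mul_of_nonneg_left ?_ hL)
  refine (h x (uIcc_subset_uIcc left_mem_uIcc hτ hx)).trans ?_
  have hxτ : |x| ≤ |τ| := by simpa using abs_sub_left_of_mem_uIcc hx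
  gcongr

/-- One component of the weighted map. -/
def stepMap (hN : 2 < N) (hg : Nice g L B) (k : ℝ) (hk : 0 < k) (u₀ : ℝ) (w : ℝ →ᵇ ℝ) : ℝ →ᵇ ℝ :=
  BoundedContinuousFunction.ofNormedAddCommGroup
    (fun T => Real.exp (-(k * |T|)) *
      (u₀ - (1 / 2) * ∫ τ in (0 : ℝ)..T, ker N (fun x => g (Real.exp (k * |x|) * w x)) τ))
    ((Real.continuous_exp.comp (continuous_const.mul continuous_abs).neg).mul
      (continuous_half_step hN hg.continuous
        ((Real.continuous_exp.comp (continuous_const.mul continuous_abs)).mul w.continuous) u₀))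
    (|u₀| + B / N / k) fun T => by
      rw [Real.norm_eq_abs, abs_mul, abs_of_pos (Real.exp_pos _)]
      refine (mul_le_mul_of_nonneg_left (half_step_bound hN hg
        ((Real.continuous_exp.comp (continuous_const.mul continuous_abs)).mul w.continuous) u₀ T)
        (Real.exp_pos _).le).trans ?_
      have hB := hg.nonneg_bound
      have he : Real.exp (-(k * |T|)) ≤ 1 := Real.exp_le_one_iff.2 (by
        have := mul_nonneg hk.le (abs_nonneg T); linarith)
      have hT : Real.exp (-(k * |T|)) * |T| ≤ 1 / k := by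
        rw [le_div_iff₀ hk, Real.exp_neg, inv_mul_eq_div, div_mul_eq_mul_div,
          div_le_one (Real.exp_pos _)]
        have := Real.add_one_le_exp (k * |T|)
        linarith
      rw [mul_add]
      refine add_le_add (mul_le_of_le_one_left (abs_nonneg _) he) ?_
      calc Real.exp (-(k * |T|)) * (B / N * |T|) = B / N * (Real.exp (-(k * |T|)) * |T|) := by ring
        _ ≤ B / N * (1 / k) := mul_le_mul_of_nonneg_left hT (by positivity)
        _ = B / N / k := by ring

theorem stepMap_lip (hN : 2 < N) (hg : Nice g L B) {k : ℝ} (hk : 0 < k) (hLk : L ≤ k)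
    (u₀ u₁ : ℝ) (w w' : ℝ →ᵇ ℝ) :
    ‖stepMap hN hg k hk u₀ w - stepMap hN hg k hk u₁ w'‖ ≤ |u₀ - u₁| + 1 / 2 * ‖w - w'‖ := by
  refine (BoundedContinuousFunction.norm_le (by positivity)).2 fun T => ?_
  have hec : Continuous fun x : ℝ => Real.exp (k * |x|) :=
    Real.continuous_exp.comp (continuous_const.mul continuous_abs)
  have h := half_step_lip hN hg (hec.mul w.continuous) (hec.mul w'.continuous) hk (norm_nonneg (w - w')) T
    fun x _ => by
      simp only [Pi.mul_apply]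
      rw [← mul_sub, abs_mul, abs_of_pos (Real.exp_pos _), mul_comm]
      exact mul_le_mul_of_nonneg_right ((w - w').norm_coe_le_norm x) (Real.exp_pos _).le
  show ‖Real.exp (-(k * |T|)) * _ - Real.exp (-(k * |T|)) * _‖ ≤ _
  rw [← mul_sub, Real.norm_eq_abs, abs_mul, abs_of_pos (Real.exp_pos _)]
  set I := ∫ τ in (0 : ℝ)..T, ker N (fun x => g (Real.exp (k * |x|) * w x)) τ
  set I' := ∫ τ in (0 : ℝ)..T, ker N (fun x => g (Real.exp (k * |x|) * w' x)) τ
  have h1 : |u₀ - 1 / 2 * I - (u₁ - 1 / 2 * I')| ≤ |u₀ - u₁| + 1 / 2 * |I - I'| := by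
    rw [show u₀ - 1 / 2 * I - (u₁ - 1 / 2 * I') = (u₀ - u₁) - 1 / 2 * (I - I') by ring]
    exact (abs_sub _ _).trans_eq (by rw [abs_mul, abs_of_pos (by norm_num : (0 : ℝ) < 1 / 2)])
  have he : Real.exp (-(k * |T|)) ≤ 1 := Real.exp_le_one_iff.2 (by
    have := mul_nonneg hk.le (abs_nonneg T); linarith)
  have h2 : 2 / N * L / k ≤ 1 := by
    rw [div_mul_eq_mul_div, div_div, div_le_one (by positivity)]
    nlinarith [hg.nonneg_lip]
  refine (mul_le_mul_of_nonneg_left h1 (Real.exp_pos _).le).trans ?_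
  rw [mul_add]
  refine add_le_add (mul_le_of_le_one_left (abs_nonneg _) he) ?_
  calc Real.exp (-(k * |T|)) * (1 / 2 * |I - I'|)
      ≤ Real.exp (-(k * |T|)) * (1 / 2 * (2 / N * L * ‖w - w'‖ / k * Real.exp (k * |T|))) := by
        gcongr
        exact h
    _ = 1 / 2 * (2 / N * L / k) * ‖w - w'‖ *
          (Real.exp (-(k * |T|)) * Real.exp (k * |T|)) := by ring
    _ ≤ 1 / 2 * ‖w - w'‖ := by
        rw [← Real.exp_add, neg_add_cancel, Real.exp_zero, mul_one]
        refine mul_le_mul_of_nonneg_right ?_ (norm_nonneg _)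
        linarith

/-- Global solutions, Lipschitz in the second initial value. -/
theorem exists_sys (hN : 2 < N) {Lg Bg Lh Bh : ℝ} (hg : Nice g Lg Bg) (hh : Nice h Lh Bh)
    (u₀ : ℝ) :
    ∃ U V : ℝ → ℝ → ℝ, (∀ a, Sys N g h u₀ a (U a) (V a)) ∧
      ∃ k : ℝ, ∀ a b T, |U a T - U b T| ≤ 2 * |a - b| * Real.exp (k * |T|) ∧
        |V a T - V b T| ≤ 2 * |a - b| * Real.exp (k * |T|) := by
  set k := max (max Lg Lh) 1
  have hk : 0 < k := lt_of_lt_of_le one_pos (le_max_right _ _)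
  have hkg : Lg ≤ k := (le_max_left _ _).trans (le_max_left _ _)
  have hkh : Lh ≤ k := (le_max_right _ _).trans (le_max_left _ _)
  let P : ℝ → (ℝ →ᵇ ℝ) × (ℝ →ᵇ ℝ) → (ℝ →ᵇ ℝ) × (ℝ →ᵇ ℝ) := fun a w =>
    (stepMap hN hg k hk u₀ w.2, stepMap hN hh k hk a w.1)
  have hdist : ∀ a b w w', dist (P a w) (P b w') ≤ |a - b| + 1 / 2 * dist w w' := by
    intro a b w w'
    rw [Prod.dist_eq, dist_eq_norm, dist_eq_norm, dist_eq_norm w w', Prod.norm_def]
    refine max_le ((stepMap_lip hN hg hk hkg u₀ u₀ w.2 w'.2).trans ?_)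
      ((stepMap_lip hN hh hk hkh a b w.1 w'.1).trans ?_)
    · rw [sub_self, abs_zero]
      exact add_le_add (abs_nonneg _) (mul_le_mul_of_nonneg_left (le_max_right _ _) (by norm_num))
    · exact add_le_add le_rfl (mul_le_mul_of_nonneg_left (le_max_left _ _) (by norm_num))
  have hP : ∀ a, ContractingWith (1 / 2 : NNReal) (P a) := fun a =>
    ⟨by rw [← NNReal.coe_lt_coe]; norm_num,
      LipschitzWith.of_dist_le_mul fun w w' => by simpa using hdist a a w w'⟩
  let w : ℝ → (ℝ →ᵇ ℝ) × (ℝ →ᵇ ℝ) := fun a => (hP a).fixedPoint (P a)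
  have hw : ∀ a, P a (w a) = w a := fun a => (hP a).fixedPoint_isFixedPt
  have hwd : ∀ a b, dist (w a) (w b) ≤ 2 * |a - b| := by
    intro a b
    have h := hdist a b (w a) (w b)
    rw [hw, hw] at h
    linarith
  have hec : Continuous fun x : ℝ => Real.exp (k * |x|) :=
    Real.continuous_exp.comp (continuous_const.mul continuous_abs)
  refine ⟨fun a T => Real.exp (k * |T|) * (w a).1 T, fun a T => Real.exp (k * |T|) * (w a).2 T,
    fun a => ⟨hec.mul (w a).1.continuous, hec.mul (w a).2.continuous, fun T => ?_, fun T => ?_⟩,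
    k, fun a b T => ?_⟩
  · have e : (w a).1 T = (stepMap hN hg k hk u₀ (w a).2) T := by rw [show stepMap hN hg k hk u₀ (w a).2 = (w a).1 from congrArg Prod.fst (hw a)]
    show Real.exp (k * |T|) * (w a).1 T = _
    rw [e]
    show Real.exp (k * |T|) * (Real.exp (-(k * |T|)) * _) = _
    rw [← mul_assoc, ← Real.exp_add, add_neg_cancel, Real.exp_zero, one_mul]
  · have e : (w a).2 T = (stepMap hN hh k hk a (w a).1) T := by rw [show stepMap hN hh k hk a (w a).1 = (w a).2 from congrArg Prod.snd (hw a)]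
    show Real.exp (k * |T|) * (w a).2 T = _
    rw [e]
    show Real.exp (k * |T|) * (Real.exp (-(k * |T|)) * _) = _
    rw [← mul_assoc, ← Real.exp_add, add_neg_cancel, Real.exp_zero, one_mul]
  · have h1 := hwd a b
    rw [dist_eq_norm, Prod.norm_def, max_le_iff] at h1
    simp only [← mul_sub, abs_mul, abs_of_pos (Real.exp_pos (k * |T|))]
    rw [mul_comm (2 * |a - b|)]
    exact ⟨mul_le_mul_of_nonneg_left (((w a).1 - (w b).1).norm_coe_le_norm T |>.trans h1.1)
        (Real.exp_pos _).le,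
      mul_le_mul_of_nonneg_left (((w a).2 - (w b).2).norm_coe_le_norm T |>.trans h1.2)
        (Real.exp_pos _).le⟩

/-- The integrated system on the interval between `0` and `R`. -/
structure SysOn (N : ℝ) (g h : ℝ → ℝ) (u₀ v₀ R : ℝ) (U V : ℝ → ℝ) : Prop where
  cont_u : Continuous U
  cont_v : Continuous V
  eq_u : ∀ T ∈ uIcc 0 R, U T = u₀ - (1 / 2) * ∫ τ in (0 : ℝ)..T, ker N (fun x => g (V x)) τ
  eq_v : ∀ T ∈ uIcc 0 R, V T = v₀ - (1 / 2) * ∫ τ in (0 : ℝ)..T, ker N (fun x => h (U x)) τ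

variable {R : ℝ} {U V : ℝ → ℝ}

theorem Sys.on (s : Sys N g h u₀ v₀ U V) (R : ℝ) : SysOn N g h u₀ v₀ R U V :=
  ⟨s.cont_u, s.cont_v, fun T _ => s.eq_u T, fun T _ => s.eq_v T⟩

theorem SysOn.swap (s : SysOn N g h u₀ v₀ R U V) : SysOn N h g v₀ u₀ R V U :=
  ⟨s.cont_v, s.cont_u, s.eq_v, s.eq_u⟩

theorem Sys.swap (s : Sys N g h u₀ v₀ U V) : Sys N h g v₀ u₀ V U :=
  ⟨s.cont_v, s.cont_u, s.eq_v, s.eq_u⟩

theorem SysOn.mono {R' : ℝ} (s : SysOn N g h u₀ v₀ R U V) (hR : R' ∈ uIcc 0 R) :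
    SysOn N g h u₀ v₀ R' U V :=
  ⟨s.cont_u, s.cont_v, fun T hT => s.eq_u T (uIcc_subset_uIcc left_mem_uIcc hR hT),
    fun T hT => s.eq_v T (uIcc_subset_uIcc left_mem_uIcc hR hT)⟩

theorem SysOn.congr {g' h' : ℝ → ℝ} (s : SysOn N g h u₀ v₀ R U V)
    (hg : ∀ x ∈ uIcc 0 R, g (V x) = g' (V x)) (hh : ∀ x ∈ uIcc 0 R, h (U x) = h' (U x)) :
    SysOn N g' h' u₀ v₀ R U V := by
  refine ⟨s.cont_u, s.cont_v, fun T hT => ?_, fun T hT => ?_⟩
  · rw [s.eq_u T hT]
    congr 2
    exact intervalIntegral.integral_congr fun τ hτ => ker_congr fun x hx =>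
      hg x (uIcc_subset_uIcc left_mem_uIcc hT (uIcc_subset_uIcc left_mem_uIcc hτ hx))
  · rw [s.eq_v T hT]
    congr 2
    exact intervalIntegral.integral_congr fun τ hτ => ker_congr fun x hx =>
      hh x (uIcc_subset_uIcc left_mem_uIcc hT (uIcc_subset_uIcc left_mem_uIcc hτ hx))

/-- Uniqueness for bounded Lipschitz sources. -/
theorem SysOn.unique (hN : 2 < N) {Lg Bg Lh Bh : ℝ} (hg : Nice g Lg Bg) (hh : Nice h Lh Bh)
    {U' V' : ℝ → ℝ} (s : SysOn N g h u₀ v₀ R U V) (s' : SysOn N g h u₀ v₀ R U' V') :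
    ∀ T ∈ uIcc 0 R, U T = U' T ∧ V T = V' T := by
  set k := max (max Lg Lh) 1
  have hk : 0 < k := lt_of_lt_of_le one_pos (le_max_right _ _)
  have hkg : Lg ≤ k := (le_max_left _ _).trans (le_max_left _ _)
  have hkh : Lh ≤ k := (le_max_right _ _).trans (le_max_left _ _)
  let D : ℝ → ℝ := fun T => Real.exp (-(k * |T|)) * max |U T - U' T| |V T - V' T|
  have hD : Continuous D := (Real.continuous_exp.comp (continuous_const.mul continuous_abs).neg).mul
    ((s.cont_u.sub s'.cont_u).abs.max (s.cont_v.sub s'.cont_v).abs)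
  obtain ⟨T₀, hT₀, hmax⟩ := isCompact_uIcc.exists_isMaxOn nonempty_uIcc hD.continuousOn
  have hD0 : 0 ≤ D T₀ := mul_nonneg (Real.exp_pos _).le (le_max_of_le_left (abs_nonneg _))
  have hbd : ∀ T ∈ uIcc 0 R, max |U T - U' T| |V T - V' T| ≤ D T₀ * Real.exp (k * |T|) := by
    intro T hT
    have h := mul_le_mul_of_nonneg_right (hmax hT : D T ≤ D T₀) (Real.exp_pos (k * |T|)).le
    calc max |U T - U' T| |V T - V' T|
        = D T * Real.exp (k * |T|) := by
          show _ = Real.exp (-(k * |T|)) * max |U T - U' T| |V T - V' T| * Real.exp (k * |T|)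
          rw [mul_right_comm, ← Real.exp_add, neg_add_cancel, Real.exp_zero, one_mul]
      _ ≤ _ := h
  have half : ∀ {L B : ℝ} {f : ℝ → ℝ}, Nice f L B → L ≤ k → ∀ {W W' : ℝ → ℝ}, Continuous W →
      Continuous W' → (∀ x ∈ uIcc 0 R, |W x - W' x| ≤ D T₀ * Real.exp (k * |x|)) →
      ∀ (c : ℝ), |(c - 1 / 2 * ∫ τ in (0 : ℝ)..T₀, ker N (fun x => f (W x)) τ)
        - (c - 1 / 2 * ∫ τ in (0 : ℝ)..T₀, ker N (fun x => f (W' x)) τ)|
      ≤ 1 / 2 * (D T₀ * Real.exp (k * |T₀|)) := by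
    intro L B f hf hLk W W' hW hW' h c
    have h1 := half_step_lip hN hf hW hW' hk hD0 T₀ fun x hx =>
      h x (uIcc_subset_uIcc left_mem_uIcc hT₀ hx)
    rw [sub_sub_sub_cancel_left, ← mul_sub, abs_mul, abs_of_pos (by norm_num : (0 : ℝ) < 1 / 2),
      abs_sub_comm]
    refine mul_le_mul_of_nonneg_left (h1.trans ?_) (by norm_num)
    have h2 : 2 / N * L / k ≤ 1 := by
      rw [div_mul_eq_mul_div, div_div, div_le_one (by positivity)]
      nlinarith [hf.nonneg_lip]
    calc 2 / N * L * D T₀ / k * Real.exp (k * |T₀|)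
        = 2 / N * L / k * (D T₀ * Real.exp (k * |T₀|)) := by ring
      _ ≤ _ := mul_le_of_le_one_left (by positivity) h2
  have h1 := half hg hkg s.cont_v s'.cont_v (fun x hx => (le_max_right _ _).trans (hbd x hx)) u₀
  have h2 := half hh hkh s.cont_u s'.cont_u (fun x hx => (le_max_left _ _).trans (hbd x hx)) v₀
  rw [← s.eq_u T₀ hT₀, ← s'.eq_u T₀ hT₀] at h1
  rw [← s.eq_v T₀ hT₀, ← s'.eq_v T₀ hT₀] at h2
  have h3 : D T₀ ≤ 1 / 2 * D T₀ := by
    calc D T₀ ≤ Real.exp (-(k * |T₀|)) * (1 / 2 * (D T₀ * Real.exp (k * |T₀|))) :=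
          mul_le_mul_of_nonneg_left (max_le h1 h2) (Real.exp_pos _).le
      _ = 1 / 2 * D T₀ * (Real.exp (-(k * |T₀|)) * Real.exp (k * |T₀|)) := by ring
      _ = _ := by rw [← Real.exp_add, neg_add_cancel, Real.exp_zero, mul_one]
  have h0 : D T₀ = 0 := by linarith
  intro T hT
  have h := hbd T hT
  rw [h0, zero_mul, max_le_iff] at h
  exact ⟨sub_eq_zero.1 (abs_nonpos_iff.1 h.1), sub_eq_zero.1 (abs_nonpos_iff.1 h.2)⟩

theorem Sys.hasDerivAt_u (hN : 2 < N) (hg : Continuous g) (s : Sys N g h u₀ v₀ U V) (T : ℝ) :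
    HasDerivAt U (-(ker N (fun x => g (V x)) T / 2)) T := by
  have hk := continuous_ker hN (hg.comp s.cont_v)
  have h := (((hk.integral_hasStrictDerivAt 0 T).hasDerivAt).const_mul (1 / 2)).const_sub u₀
  exact (h.congr_of_eventuallyEq (Eventually.of_forall s.eq_u)).congr_deriv (by
    show -(1 / 2 * ker N (fun x => g (V x)) T) = _
    ring)

end

end Vale.Agent.P100.Orbit
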