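import Vale.Agent.P100.Orbit.Basic

/-!
# P100: shooting for a globally positive radial pair on the critical hyperbola
-/

namespace Vale.Agent.P100.Orbit

open MeasureTheory Set Filter Topology intervalIntegral

noncomputable section

/-- The first component is bound to vanish strictly before the second one. -/
def Hit (N p q u₀ v₀ : ℝ) : Prop :=
  ∃ R h U V, PosPair N p q u₀ v₀ R U V ∧ 0 < h ∧ h ≤ R ∧
    U R < half N * h * (ker N (fun x => V x ^ p) R / 2) ∧ h * (u₀ ^ q / N) < V R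

variable {N p q u₀ v₀ R : ℝ} {U V : ℝ → ℝ}

theorem not_hit_both (hN : 2 < N) (hp : 0 < p) (hq : 0 < q) (h₁ : Hit N p q u₀ v₀)
    (h₂ : Hit N q p v₀ u₀) : False := by
  obtain ⟨R₁, h₁, U₁, V₁, o₁, hh₁, hR₁, a₁, b₁⟩ := h₁
  obtain ⟨R₂, h₂, V₂, U₂, o₂', hh₂, hR₂, a₂, b₂⟩ := h₂
  have o₂ := o₂'.swap
  obtain ⟨m₁, hm₁, l₁⟩ := o₁.exists_lb
  obtain ⟨m₂, hm₂, l₂⟩ := o₂.exists_lb
  have hR₁' : 0 < R₁ := hh₁.trans_le hR₁
  have hR₂' : 0 < R₂ := hh₂.trans_le hR₂
  set M := max u₀ v₀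
  set δ := min (min m₁ m₂) (min (V₁ R₁ - h₁ * (u₀ ^ q / N)) (U₂ R₂ - h₂ * (v₀ ^ p / N)))
  have hδ : 0 < δ := lt_min (lt_min hm₁ hm₂) (lt_min (sub_pos.2 b₁) (sub_pos.2 b₂))
  have hδ₁ : δ ≤ m₁ := (min_le_left _ _).trans (min_le_left _ _)
  have hδ₂ : δ ≤ m₂ := (min_le_left _ _).trans (min_le_right _ _)
  have hδu : δ ≤ u₀ := by
    have h := (l₁ 0 left_mem_uIcc).1
    rw [o₁.u_zero] at h
    exact hδ₁.trans h
  have hδv : δ ≤ v₀ := by
    have h := (l₁ 0 left_mem_uIcc).2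
    rw [o₁.swap.u_zero] at h
    exact hδ₁.trans h
  have hu : u₀ ≤ M := le_max_left _ _
  have hv : v₀ ≤ M := le_max_right _ _
  have hδM : δ ≤ M := hδu.trans hu
  obtain ⟨U, V, s⟩ := exists_trunc hN hp hq hδ hδM u₀ v₀
  have hgp := (nice_clip hp hδ hδM).continuous
  have hgq := (nice_clip hq hδ hδM).continuous
  have e₁ := o₁.agree_trunc hN hp hq hR₁'.le hδ hδM hu hv
    (fun T hT => ⟨hδ₁.trans (l₁ T hT).1, hδ₁.trans (l₁ T hT).2⟩) s
  have e₂ := o₂.agree_trunc hN hp hq hR₂'.le hδ hδM hu hv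
    (fun T hT => ⟨hδ₂.trans (l₂ T hT).1, hδ₂.trans (l₂ T hT).2⟩) s
  set τ := min (R₁ + h₁) (R₂ + h₂)
  have hU : ∀ T ∈ Icc 0 τ, δ ≤ U T := by
    intro T hT
    rcases le_total T R₂ with h | h
    · rw [← (e₂ T ⟨hT.1, h⟩).1]
      exact hδ₂.trans (l₂ T (by rw [uIcc_of_le hR₂'.le]; exact ⟨hT.1, h⟩)).1
    · refine le_trans ?_ (s.le_u hN hgp hR₂'.le h (B := v₀ ^ p) fun x hx =>
        clip_le hp.le hδ.le hδM (s.swap.u_le hN hgq (clip_nonneg hδ.le hδM) hx.1) hδv)
      rw [← (e₂ R₂ ⟨hR₂'.le, le_rfl⟩).1]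
      have hTh : T - R₂ ≤ h₂ := by linarith [hT.2.trans (min_le_right (R₁ + h₁) (R₂ + h₂))]
      have hB : 0 ≤ v₀ ^ p / N := div_nonneg (Real.rpow_nonneg (hδ.le.trans hδv) _) (by linarith)
      have := mul_le_mul_of_nonneg_right hTh hB
      linarith [((min_le_right _ _).trans (min_le_right _ _) : δ ≤ U₂ R₂ - h₂ * (v₀ ^ p / N))]
  have hV : ∀ T ∈ Icc 0 τ, δ ≤ V T := by
    intro T hT
    rcases le_total T R₁ with h | h
    · rw [← (e₁ T ⟨hT.1, h⟩).2]
      exact hδ₁.trans (l₁ T (by rw [uIcc_of_le hR₁'.le]; exact ⟨hT.1, h⟩)).2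
    · refine le_trans ?_ (s.swap.le_u hN hgq hR₁'.le h (B := u₀ ^ q) fun x hx =>
        clip_le hq.le hδ.le hδM (s.u_le hN hgp (clip_nonneg hδ.le hδM) hx.1) hδu)
      rw [← (e₁ R₁ ⟨hR₁'.le, le_rfl⟩).2]
      have hTh : T - R₁ ≤ h₁ := by linarith [hT.2.trans (min_le_left (R₁ + h₁) (R₂ + h₂))]
      have hB : 0 ≤ u₀ ^ q / N := div_nonneg (Real.rpow_nonneg (hδ.le.trans hδu) _) (by linarith)
      have := mul_le_mul_of_nonneg_right hTh hB
      linarith [((min_le_right _ _).trans (min_le_left _ _) : δ ≤ V₁ R₁ - h₁ * (u₀ ^ q / N))]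
  have hτ : 0 ≤ τ := le_min (by linarith) (by linarith)
  rcases le_total (R₁ + h₁) (R₂ + h₂) with h | h
  · have hd := s.u_drop hN hgp (clip_nonneg hδ.le hδM) hR₁' hh₁.le hR₁
    have ek : ker N (fun x => clip δ M p (V x)) R₁ = ker N (fun x => V₁ x ^ p) R₁ :=
      ker_congr fun x hx => by
        have hl := (l₁ x hx).2
        rw [uIcc_of_le hR₁'.le] at hx
        rw [← (e₁ x hx).2]
        exact clip_eq ⟨hδ₁.trans hl, (o₁.swap.u_le hN hq hR₁'.le hx).trans hv⟩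
    rw [ek, ← (e₁ R₁ ⟨hR₁'.le, le_rfl⟩).1] at hd
    have := hU (R₁ + h₁) ⟨by linarith, by rw [show τ = R₁ + h₁ from min_eq_left h]⟩
    linarith
  · have hd := s.swap.u_drop hN hgq (clip_nonneg hδ.le hδM) hR₂' hh₂.le hR₂
    have ek : ker N (fun x => clip δ M q (U x)) R₂ = ker N (fun x => U₂ x ^ q) R₂ :=
      ker_congr fun x hx => by
        have hl := (l₂ x hx).1
        rw [uIcc_of_le hR₂'.le] at hx
        rw [← (e₂ x hx).1]
        exact clip_eq ⟨hδ₂.trans hl, (o₂.u_le hN hp hR₂'.le hx).trans hu⟩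
    rw [ek, ← (e₂ R₂ ⟨hR₂'.le, le_rfl⟩).2] at hd
    have := hV (R₂ + h₂) ⟨by linarith, by rw [show τ = R₂ + h₂ from min_eq_right h]⟩
    linarith

theorem abs_ker_clip_sub (hN : 2 < N) {δ M L B : ℝ} (hg : Nice (clip δ M p) L B)
    {W W' : ℝ → ℝ} (hW : Continuous W) (hW' : Continuous W') {D : ℝ} (T : ℝ)
    (h : ∀ x ∈ uIcc 0 T, |W x - W' x| ≤ D) :
    |ker N (fun x => clip δ M p (W x)) T - ker N (fun x => clip δ M p (W' x)) T| ≤ 2 / N * (L * D) := by
  have c1 : Continuous fun x => clip δ M p (W x) := hg.continuous.comp hW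
  have c2 : Continuous fun x => clip δ M p (W' x) := hg.continuous.comp hW'
  rw [ker_sub hN c1 c2]
  exact abs_ker_le hN (c1.sub c2) fun x hx =>
    (hg.lip _ _).trans (mul_le_mul_of_nonneg_left (h x hx) hg.nonneg_lip)

theorem tendsto_of_abs_sub_le {f : ℝ → ℝ} {x₀ c C : ℝ}
    (h : ∀ᶠ a in 𝓝 x₀, |f a - c| ≤ C * |a - x₀|) : Tendsto f (𝓝 x₀) (𝓝 c) := by
  have h0 : Tendsto (fun a => C * |a - x₀|) (𝓝 x₀) (𝓝 0) := by
    have : Continuous fun a => C * |a - x₀| := by fun_prop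
    simpa using this.tendsto x₀
  have := squeeze_zero_norm' (f := fun a => f a - c) (by simpa only [Real.norm_eq_abs] using h) h0
  simpa using this.add_const c

/-- Positive pairs persist, with their data at `R`, when the second initial value moves. -/
theorem posPair_near (hN : 2 < N) (hp : 0 < p) (hq : 0 < q) (o : PosPair N p q u₀ v₀ R U V)
    (hR : 0 ≤ R) : ∃ UU VV : ℝ → ℝ → ℝ,
      (∀ᶠ a in 𝓝 v₀, PosPair N p q u₀ a R (UU a) (VV a)) ∧
      Tendsto (fun a => UU a R) (𝓝 v₀) (𝓝 (U R)) ∧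
      Tendsto (fun a => VV a R) (𝓝 v₀) (𝓝 (V R)) ∧
      Tendsto (fun a => ker N (fun x => VV a x ^ p) R) (𝓝 v₀) (𝓝 (ker N (fun x => V x ^ p) R)) ∧
      Tendsto (fun a => ker N (fun x => UU a x ^ q) R) (𝓝 v₀) (𝓝 (ker N (fun x => U x ^ q) R)) := by
  obtain ⟨m, hm, hlb⟩ := o.exists_lb
  set M := max u₀ (v₀ + 1)
  set δ := m / 2
  have hδ : 0 < δ := (by linarith : (0 : ℝ) < m / 2)
  have hu : u₀ ≤ M := le_max_left _ _
  have hv : v₀ ≤ M := le_trans (by linarith) (le_max_right _ _)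
  have hδM : δ ≤ M := by
    have h := (hlb 0 left_mem_uIcc).1
    rw [o.u_zero] at h
    show m / 2 ≤ M
    linarith
  have hgp := nice_clip hp hδ hδM
  have hgq := nice_clip hq hδ hδM
  obtain ⟨UU, VV, hs, k, hk⟩ := exists_sys hN hgp hgq u₀
  have e := o.agree_trunc hN hp hq hR hδ hδM hu hv
    (fun T hT => ⟨le_trans (by show m / 2 ≤ m; linarith) (hlb T hT).1,
      le_trans (by show m / 2 ≤ m; linarith) (hlb T hT).2⟩) (hs v₀)
  set C := 2 * Real.exp (|k| * R)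
  have hC : 0 < C := by positivity
  have hcl : ∀ a, ∀ x ∈ Icc 0 R,
      |UU a x - U x| ≤ C * |a - v₀| ∧ |VV a x - V x| ≤ C * |a - v₀| := by
    intro a x hx
    have hb : 2 * |a - v₀| * Real.exp (k * |x|) ≤ C * |a - v₀| := by
      have : Real.exp (k * |x|) ≤ Real.exp (|k| * R) := by
        rw [abs_of_nonneg hx.1]
        exact Real.exp_le_exp.2 ((mul_le_mul_of_nonneg_right (le_abs_self k) hx.1).trans
          (mul_le_mul_of_nonneg_left hx.2 (abs_nonneg k)))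
      calc 2 * |a - v₀| * Real.exp (k * |x|) ≤ 2 * |a - v₀| * Real.exp (|k| * R) :=
            mul_le_mul_of_nonneg_left this (by positivity)
        _ = _ := by ring
    rw [(e x hx).1, (e x hx).2]
    exact ⟨(hk a v₀ x).1.trans hb, (hk a v₀ x).2.trans hb⟩
  have hlt : ∀ᶠ a in 𝓝 v₀, C * |a - v₀| ≤ m / 2 ∧ a ≤ M := by
    have h1 : ∀ᶠ a in 𝓝 v₀, C * |a - v₀| ≤ m / 2 :=
      ((show Continuous fun a => C * |a - v₀| by fun_prop).tendsto v₀).eventually
        (eventually_le_nhds (by simpa using (by linarith : (0 : ℝ) < m / 2)))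
    exact h1.and (eventually_le_nhds (lt_of_lt_of_le (lt_add_one v₀) (le_max_right _ _)))
  have hlow : ∀ a, C * |a - v₀| ≤ m / 2 → ∀ x ∈ Icc 0 R, δ ≤ UU a x ∧ δ ≤ VV a x := by
    intro a ha x hx
    have h := hcl a x hx
    have hl := hlb x (by rwa [uIcc_of_le hR])
    constructor
    · show m / 2 ≤ _
      linarith [(abs_le.1 h.1).1]
    · show m / 2 ≤ _
      linarith [(abs_le.1 h.2).1]
  have hpair : ∀ᶠ a in 𝓝 v₀, PosPair N p q u₀ a R (UU a) (VV a) :=
    hlt.mono fun a ha => orbit_of_trunc hN hp hq hδ hδM hu ha.2 (hs a) hR (hlow a ha.1)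
  have hcp : ∀ {W : ℝ → ℝ}, (∀ x ∈ Icc 0 R, δ ≤ W x ∧ W x ≤ M) → ∀ r : ℝ,
      ker N (fun x => W x ^ r) R = ker N (fun x => clip δ M r (W x)) R := by
    intro W hW r
    refine ker_congr fun x hx => ?_
    rw [uIcc_of_le hR] at hx
    exact (clip_eq (hW x hx)).symm
  have hbU : ∀ x ∈ Icc 0 R, δ ≤ U x ∧ U x ≤ M := fun x hx =>
    ⟨le_trans (by show m / 2 ≤ m; linarith) (hlb x (by rwa [uIcc_of_le hR])).1,
      (o.u_le hN hp hR hx).trans hu⟩
  have hbV : ∀ x ∈ Icc 0 R, δ ≤ V x ∧ V x ≤ M := fun x hx =>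
    ⟨le_trans (by show m / 2 ≤ m; linarith) (hlb x (by rwa [uIcc_of_le hR])).2,
      (o.swap.u_le hN hq hR hx).trans hv⟩
  refine ⟨UU, VV, hpair,
    tendsto_of_abs_sub_le (.of_forall fun a => (hcl a R ⟨hR, le_rfl⟩).1),
    tendsto_of_abs_sub_le (.of_forall fun a => (hcl a R ⟨hR, le_rfl⟩).2),
    tendsto_of_abs_sub_le (C := 2 / N * (p * (δ ^ (p - 1) + M ^ (p - 1)) * C)) ?_,
    tendsto_of_abs_sub_le (C := 2 / N * (q * (δ ^ (q - 1) + M ^ (q - 1)) * C)) ?_⟩
  · filter_upwards [hlt] with a ha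
    rw [hcp hbV, hcp fun x hx => ⟨(hlow a ha.1 x hx).2, ((hs a).swap.u_le hN hgq.continuous
      (clip_nonneg hδ.le hδM) hx.1).trans ha.2⟩]
    exact (abs_ker_clip_sub hN hgp (hs a).cont_v o.sys.cont_v R fun x hx =>
      (hcl a x (by rwa [← uIcc_of_le hR])).2).trans_eq (by ring)
  · filter_upwards [hlt] with a ha
    rw [hcp hbU, hcp fun x hx => ⟨(hlow a ha.1 x hx).1, ((hs a).u_le hN hgp.continuous
      (clip_nonneg hδ.le hδM) hx.1).trans hu⟩]
    exact (abs_ker_clip_sub hN hgq (hs a).cont_u o.sys.cont_u R fun x hx =>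
      (hcl a x (by rwa [← uIcc_of_le hR])).1).trans_eq (by ring)

theorem Hit.eventually_second (hN : 2 < N) (hp : 0 < p) (hq : 0 < q) (H : Hit N p q u₀ v₀) :
    ∀ᶠ a in 𝓝 v₀, Hit N p q u₀ a := by
  obtain ⟨R, h, U, V, o, h0, hR, a₁, b₁⟩ := H
  obtain ⟨UU, VV, ho, tU, tV, tK, -⟩ := posPair_near hN hp hq o (h0.le.trans hR)
  have hA := tU.eventually_lt ((tK.div_const 2).const_mul (half N * h)) a₁
  filter_upwards [ho, hA, tV.eventually (eventually_gt_nhds b₁)] with a h1 h2 h3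
  exact ⟨R, h, UU a, VV a, h1, h0, hR, h2, h3⟩

theorem Hit.eventually_first (hN : 2 < N) (hp : 0 < p) (hq : 0 < q) (H : Hit N p q u₀ v₀) :
    ∀ᶠ a in 𝓝 u₀, Hit N p q a v₀ := by
  obtain ⟨R, h, U, V, o, h0, hR, a₁, b₁⟩ := H
  obtain ⟨VV, UU, ho, tV, tU, -, tK⟩ := posPair_near hN hq hp o.swap (h0.le.trans hR)
  have hA := tU.eventually_lt ((tK.div_const 2).const_mul (half N * h)) a₁
  have hc : Tendsto (fun a : ℝ => h * (a ^ q / N)) (𝓝 u₀) (𝓝 (h * (u₀ ^ q / N))) :=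
    (((continuous_id.rpow_const fun _ => Or.inr hq.le).div_const N).const_mul h).tendsto u₀
  filter_upwards [ho, hA, hc.eventually_lt tV b₁] with a h1 h2 h3
  exact ⟨R, h, UU a, VV a, h1.swap, h0, hR, h2, h3⟩

/-- A much smaller component vanishes first. -/
theorem exists_hit_of_small (hN : 2 < N) (hp : 0 < p) (hq : 0 < q) :
    ∃ ε > 0, ∀ u₀ v₀, 0 < u₀ → 0 < v₀ → v₀ ^ (p + 1) ≤ ε * u₀ ^ (q + 1) → Hit N q p v₀ u₀ := by
  have hc := half_pos N
  set θ := 1 / (1 + half N / 2)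
  have hθ : 0 < θ := by positivity
  have hθ1 : θ < 1 := by rw [div_lt_one (by linarith)]; linarith
  have hgt : 1 < (1 + half N) * θ := by
    rw [mul_one_div, one_lt_div (by linarith)]; linarith
  have hf : Tendsto (fun ε : ℝ => (1 + half N) * θ * (1 - θ * ε) ^ q) (𝓝[>] 0)
      (𝓝 ((1 + half N) * θ)) := by
    have : Continuous fun ε : ℝ => (1 + half N) * θ * (1 - θ * ε) ^ q :=
      continuous_const.mul ((continuous_const.sub (continuous_const.mul continuous_id)).rpow_const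
        fun _ => Or.inr hq.le)
    simpa using (this.tendsto 0).mono_left nhdsWithin_le_nhds
  obtain ⟨ε, h1, h2, hε⟩ := ((hf.eventually (eventually_gt_nhds hgt)).and
    (((eventually_lt_nhds (by norm_num : (0 : ℝ) < 1 / 2)).filter_mono nhdsWithin_le_nhds).and
      self_mem_nhdsWithin)).exists
  refine ⟨ε, hε, fun u₀ v₀ hu hv hsmall => ?_⟩
  have hε : 0 < ε := hε
  have huq : 0 < u₀ ^ q := Real.rpow_pos_of_pos hu q
  have hNp : 0 < N := by linarith
  set R := θ * N * v₀ / u₀ ^ q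
  have hR : 0 < R := by positivity
  have hθε : θ * ε < 1 / 2 := lt_of_le_of_lt (mul_le_of_le_one_left hε.le hθ1.le) h2
  have hRv : R * (u₀ ^ q / N) = θ * v₀ := by simp only [R]; field_simp
  have hRu : R * (v₀ ^ p / N) ≤ θ * ε * u₀ := by
    have e : R * (v₀ ^ p / N) = θ * (v₀ ^ (p + 1) / u₀ ^ q) := by
      rw [Real.rpow_add_one hv.ne']; simp only [R]; field_simp
    rw [e, mul_assoc]
    refine mul_le_mul_of_nonneg_left ?_ hθ.le
    rw [div_le_iff₀ huq]
    exact hsmall.trans_eq (by rw [Real.rpow_add_one hu.ne']; ring)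
  set M := max u₀ v₀
  set δ := min (v₀ * (1 - θ)) (u₀ * (1 - θ * ε))
  have hδ : 0 < δ := lt_min (mul_pos hv (by linarith)) (mul_pos hu (by linarith))
  have hδu : δ ≤ u₀ := (min_le_right _ _).trans (mul_le_of_le_one_right hu.le (by
    have := mul_pos hθ hε; linarith))
  have hδv : δ ≤ v₀ := (min_le_left _ _).trans (mul_le_of_le_one_right hv.le (by linarith))
  have hu' : u₀ ≤ M := le_max_left _ _
  have hv' : v₀ ≤ M := le_max_right _ _
  have hδM := hδu.trans hu'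
  have hgp := (nice_clip hp hδ hδM).continuous
  have hgq := (nice_clip hq hδ hδM).continuous
  obtain ⟨U, V, s⟩ := exists_trunc hN hp hq hδ hδM u₀ v₀
  have hU : ∀ T ∈ Icc 0 R, u₀ * (1 - θ * ε) ≤ U T := by
    intro T hT
    have h := s.le_u hN hgp le_rfl hT.1 (B := v₀ ^ p) fun x hx =>
      clip_le hp.le hδ.le hδM (s.swap.u_le hN hgq (clip_nonneg hδ.le hδM) hx.1) hδv
    have e : U 0 = u₀ := by simpa using s.eq_u 0
    rw [e, sub_zero] at h
    have := mul_le_mul_of_nonneg_right hT.2 (div_nonneg (Real.rpow_nonneg hv.le p) hNp.le)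
    linarith
  have hV : ∀ T ∈ Icc 0 R, v₀ * (1 - θ) ≤ V T := by
    intro T hT
    have h := s.swap.le_u hN hgq le_rfl hT.1 (B := u₀ ^ q) fun x hx =>
      clip_le hq.le hδ.le hδM (s.u_le hN hgp (clip_nonneg hδ.le hδM) hx.1) hδu
    have e : V 0 = v₀ := by simpa using s.eq_v 0
    rw [e, sub_zero] at h
    have := mul_le_mul_of_nonneg_right hT.2 (div_nonneg huq.le hNp.le)
    linarith
  have o := orbit_of_trunc hN hp hq hδ hδM hu' hv' s hR.le fun T hT =>
    ⟨(min_le_right _ _).trans (hU T hT), (min_le_left _ _).trans (hV T hT)⟩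
  set L := u₀ * (1 - θ * ε)
  have hL : 0 < L := mul_pos hu (by linarith)
  have hup := s.swap.u_upper hN hgq hR.le (m := L ^ q) fun x hx =>
    le_clip hq.le hL.le ((mul_le_of_le_one_right hu.le (by
      have := mul_pos hθ hε; linarith)).trans hu') (hU x hx)
  have hk := le_ker (T := R) (B := L ^ q) hN (continuous_pow_comp hq o.sys.cont_u) fun x hx => by
    rw [uIcc_of_le hR.le] at hx
    exact Real.rpow_le_rpow hL.le (hU x hx) hq.le
  have hLq : L ^ q = u₀ ^ q * (1 - θ * ε) ^ q := Real.mul_rpow hu.le (by linarith)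
  have hRL : R * (L ^ q / N) = θ * v₀ * (1 - θ * ε) ^ q := by
    rw [← hRv, hLq]; ring
  refine ⟨R, R, V, U, o.swap, hR, le_rfl, ?_, ?_⟩
  · have h3 : half N * (R * (L ^ q / N)) ≤ half N * R * (ker N (fun x => U x ^ q) R / 2) := by
      rw [mul_assoc]
      refine mul_le_mul_of_nonneg_left (mul_le_mul_of_nonneg_left ?_ hR.le) hc.le
      have e : (2 : ℝ) / N * L ^ q = 2 * (L ^ q / N) := by ring
      linarith
    rw [hRL] at hup h3
    have := mul_lt_mul_of_pos_left h1 hv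
    linarith
  · have := hU R ⟨hR.le, le_rfl⟩
    have := mul_lt_mul_of_pos_left (show θ * ε < 1 - θ * ε by linarith) hu
    linarith

theorem exists_not_hit (hN : 2 < N) (hp : 0 < p) (hq : 0 < q) :
    ∃ a > 0, ¬ Hit N p q 1 a ∧ ¬ Hit N q p a 1 := by
  let A : Set ℝ := {a | Hit N p q 1 a}
  let B : Set ℝ := {a | Hit N q p a 1}
  have hA : IsOpen A := isOpen_iff_eventually.2 fun a ha => ha.eventually_second hN hp hq
  have hB : IsOpen B := isOpen_iff_eventually.2 fun a ha => ha.eventually_first hN hq hp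
  obtain ⟨ε, hε, hsm⟩ := exists_hit_of_small hN hp hq
  obtain ⟨ε', hε', hsm'⟩ := exists_hit_of_small hN hq hp
  by_contra hcon
  push Not at hcon
  have hcov : Ioi (0 : ℝ) ⊆ A ∪ B := fun a ha => by
    by_cases h : Hit N p q 1 a
    · exact Or.inl h
    · exact Or.inr (hcon a ha h)
  have hB' : (Ioi (0 : ℝ) ∩ B).Nonempty := by
    refine ⟨ε ^ (1 / (p + 1)), Real.rpow_pos_of_pos hε _, hsm 1 _ one_pos
      (Real.rpow_pos_of_pos hε _) ?_⟩
    rw [Real.one_rpow, mul_one, ← Real.rpow_mul hε.le, one_div_mul_cancel (by linarith),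
      Real.rpow_one]
  have hA' : (Ioi (0 : ℝ) ∩ A).Nonempty := by
    refine ⟨(1 / ε') ^ (1 / (p + 1)), Real.rpow_pos_of_pos (by positivity) _,
      hsm' _ _ (Real.rpow_pos_of_pos (by positivity) _) one_pos ?_⟩
    rw [Real.one_rpow, ← Real.rpow_mul (by positivity), one_div_mul_cancel (by linarith),
      Real.rpow_one, mul_one_div_cancel hε'.ne']
  obtain ⟨x, -, hxA, hxB⟩ := isPreconnected_Ioi A B hA hB hcov hA' hB'
  exact not_hit_both hN hp hq hxA hxB

theorem exists_posPair_of_not_hit (hN : 2 < N) (hp : 0 < p) (hq : 0 < q)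
    (hc : N / (p + 1) + N / (q + 1) = N - 2) {a : ℝ} (ha : 0 < a)
    (h₁ : ¬ Hit N p q 1 a) (h₂ : ¬ Hit N q p a 1) {Rb : ℝ} (hRb : 0 < Rb) :
    ∃ U V, PosPair N p q 1 a Rb U V := by
  by_contra hno
  push Not at hno
  have hNp : 0 < N := by linarith
  have hap : 0 < a ^ p := Real.rpow_pos_of_pos ha p
  set τ₀ := min (N / (2 * a ^ p)) (min (a * N / 2) Rb)
  have hτ₀ : 0 < τ₀ := lt_min (by positivity) (lt_min (by positivity) hRb)
  set cR := (τ₀ / Rb) ^ (N / 2)
  have hcR : 0 < cR := Real.rpow_pos_of_pos (by positivity) _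
  set mu := cR * ((a / 2) ^ p / N)
  set mv := cR * ((1 / 2 : ℝ) ^ q / N)
  have hmu : 0 < mu := by positivity
  have hmv : 0 < mv := by positivity
  have hc0 := half_pos N
  set C := 1 + 2 / (half N * mu) * (1 / N) + 2 / (half N * mv) * (a ^ p / N)
  have hC : 0 < C := by positivity
  have hne : ∀ f : ℝ → ℝ, Tendsto f (𝓝[>] 0) (𝓝 0) → ∀ b > 0, ∀ᶠ δ in 𝓝[>] (0 : ℝ), f δ < b :=
    fun f hf b hb => hf.eventually (eventually_lt_nhds hb)
  have hlin : ∀ k : ℝ, Tendsto (fun δ : ℝ => δ * k) (𝓝[>] 0) (𝓝 0) := fun k => by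
    simpa using ((continuous_mul_const k).tendsto 0).mono_left nhdsWithin_le_nhds
  obtain ⟨δ, hd1, hd2, hd3, hd4, hd5, hδ⟩ :=
    ((hne _ (hlin 1) (1 / 2) (by norm_num)).and ((hne _ (hlin 1) (a / 2) (by positivity)).and
      ((hne _ (hlin (2 / (half N * mu))) τ₀ hτ₀).and ((hne _ (hlin (2 / (half N * mv))) τ₀ hτ₀).and
        ((hne _ (hlin (N / (q + 1) * C * (1 / N) + N / (p + 1) * C * (a ^ p / N)))
          (2 * τ₀ * mu * mv) (by positivity)).and self_mem_nhdsWithin))))).exists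
  have hδ : 0 < δ := hδ
  rw [mul_one] at hd1 hd2
  set M := max 1 a
  have h1M : (1 : ℝ) ≤ M := le_max_left _ _
  have haM : a ≤ M := le_max_right _ _
  have hδM : δ ≤ M := by linarith
  have hgp := (nice_clip hp hδ hδM).continuous
  have hgq := (nice_clip hq hδ hδM).continuous
  obtain ⟨U, V, s⟩ := exists_trunc hN hp hq hδ hδM 1 a
  let f : ℝ → ℝ := fun T => min (U T) (V T)
  have hf : Continuous f := s.cont_u.min s.cont_v
  set K := Icc 0 Rb ∩ f ⁻¹' Iic δ
  have hKne : K.Nonempty := by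
    by_contra hK
    refine hno U V (orbit_of_trunc hN hp hq hδ hδM h1M haM s hRb.le fun T hT => ?_)
    have h : δ < f T := not_le.1 fun h => hK ⟨T, hT, h⟩
    exact ⟨h.le.trans (min_le_left _ _), h.le.trans (min_le_right _ _)⟩
  have hKc : IsClosed K := isClosed_Icc.inter (isClosed_Iic.preimage hf)
  have hKb : BddBelow K := ⟨0, fun T hT => hT.1.1⟩
  set τ := sInf K
  obtain ⟨hτI, hτf⟩ : τ ∈ K := hKc.csInf_mem hKne hKb
  have hbefore : ∀ T ∈ Ico 0 τ, δ < f T := fun T hT => not_le.1 fun h =>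
    not_le.2 hT.2 (csInf_le hKb ⟨⟨hT.1, hT.2.le.trans hτI.2⟩, h⟩)
  have hf0 : δ < f 0 := by
    have e1 : U 0 = 1 := by simpa using s.eq_u 0
    have e2 : V 0 = a := by simpa using s.eq_v 0
    show δ < min (U 0) (V 0)
    rw [e1, e2]
    exact lt_min (by linarith) (by linarith)
  have hfτ : f τ = δ := by
    refine le_antisymm hτf (not_lt.1 fun hlt => ?_)
    obtain ⟨T, hT, e⟩ := intermediate_value_Ioo' hτI.1 hf.continuousOn ⟨hlt, hf0⟩
    exact (hbefore T ⟨hT.1.le, hT.2⟩).ne' e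
  have hge : ∀ T ∈ Icc 0 τ, δ ≤ f T := fun T hT => by
    rcases hT.2.eq_or_lt with h | h
    · rw [h, hfτ]
    · exact (hbefore T ⟨hT.1, h⟩).le
  have hlowU : ∀ T ∈ Icc 0 τ₀, 1 / 2 ≤ U T := by
    intro T hT
    have h := s.le_u hN hgp le_rfl hT.1 (B := a ^ p) fun x hx =>
      clip_le hp.le hδ.le hδM (s.swap.u_le hN hgq (clip_nonneg hδ.le hδM) hx.1) (by linarith)
    have e : U 0 = 1 := by simpa using s.eq_u 0
    rw [e, sub_zero] at h
    have h' : T * (a ^ p / N) ≤ 1 / 2 := by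
      calc T * (a ^ p / N) ≤ N / (2 * a ^ p) * (a ^ p / N) :=
            mul_le_mul_of_nonneg_right (hT.2.trans (min_le_left _ _)) (by positivity)
        _ = 1 / 2 := by field_simp
    linarith
  have hlowV : ∀ T ∈ Icc 0 τ₀, a / 2 ≤ V T := by
    intro T hT
    have h := s.swap.le_u hN hgq le_rfl hT.1 (B := (1 : ℝ) ^ q) fun x hx =>
      clip_le hq.le hδ.le hδM (s.u_le hN hgp (clip_nonneg hδ.le hδM) hx.1) (by linarith)
    have e : V 0 = a := by simpa using s.eq_v 0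
    rw [e, sub_zero, Real.one_rpow] at h
    have h' : T * (1 / N) ≤ a / 2 := by
      calc T * (1 / N) ≤ a * N / 2 * (1 / N) :=
            mul_le_mul_of_nonneg_right (hT.2.trans ((min_le_right _ _).trans (min_le_left _ _))) (by positivity)
        _ = a / 2 := by field_simp
    linarith
  have hττ : τ₀ < τ := not_le.1 fun h => by
    have h1 := hlowU τ ⟨hτI.1, h⟩
    have h2 := hlowV τ ⟨hτI.1, h⟩
    have h3 : δ < f τ := lt_min (by linarith) (by linarith)
    linarith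
  have hτ : 0 < τ := hτ₀.trans hττ
  have o : PosPair N p q 1 a τ U V := orbit_of_trunc hN hp hq hδ hδM h1M haM s hτ.le fun T hT =>
    ⟨(hge T hT).trans (min_le_left _ _), (hge T hT).trans (min_le_right _ _)⟩
  set ku := ker N (fun x => V x ^ p) τ / 2 with hku
  set kv := ker N (fun x => U x ^ q) τ / 2 with hkv
  have lower : ∀ (W : ℝ → ℝ), Continuous W → (∀ T ∈ Icc 0 τ, 0 ≤ W T) → ∀ m r : ℝ, 0 < r → 0 ≤ m →
      (∀ T ∈ Icc 0 τ₀, m ≤ W T) → cR * (m ^ r / N) ≤ ker N (fun x => W x ^ r) τ / 2 := by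
    intro W hW hW0 m r hr hm hWm
    have hcW := continuous_pow_comp hr hW
    have h1 := le_ker (T := τ₀) (B := m ^ r) hN hcW fun x hx => by
      rw [uIcc_of_le hτ₀.le] at hx
      exact Real.rpow_le_rpow hm (hWm x hx) hr.le
    have h2 := rpow_mul_ker_mono hN hcW hτ₀.le hττ.le fun x hx =>
      Real.rpow_nonneg (hW0 x ⟨hτ₀.le.trans hx.1, hx.2⟩) _
    have hb : cR ≤ τ₀ ^ (N / 2) / τ ^ (N / 2) := by
      rw [← Real.div_rpow hτ₀.le hτ.le]
      exact Real.rpow_le_rpow (by positivity)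
        (div_le_div_of_nonneg_left hτ₀.le hτ hτI.2) (by linarith)
    have hmr : 0 ≤ m ^ r := Real.rpow_nonneg hm _
    calc cR * (m ^ r / N) ≤ τ₀ ^ (N / 2) / τ ^ (N / 2) * (2 / N * m ^ r / 2) :=
          mul_le_mul hb (le_of_eq (by ring)) (by positivity) (by positivity)
      _ ≤ τ₀ ^ (N / 2) / τ ^ (N / 2) * (ker N (fun x => W x ^ r) τ₀ / 2) := by gcongr
      _ = τ₀ ^ (N / 2) * ker N (fun x => W x ^ r) τ₀ / τ ^ (N / 2) / 2 := by ring
      _ ≤ _ := by
          gcongr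
          rw [div_le_iff₀ (Real.rpow_pos_of_pos hτ _)]
          linarith
  have hτu : τ ∈ uIcc 0 τ := right_mem_uIcc
  have hmu' : mu ≤ ku := lower V s.cont_v (fun T hT =>
    hδ.le.trans ((hge T hT).trans (min_le_right _ _))) (a / 2) p hp (by positivity) hlowV
  have hmv' : mv ≤ kv := lower U s.cont_u (fun T hT =>
    hδ.le.trans ((hge T hT).trans (min_le_left _ _))) (1 / 2) q hq (by norm_num) hlowU
  have upper : ku ≤ a ^ p / N ∧ kv ≤ 1 / N := by
    have h1 := ker_le (T := τ) (B := a ^ p) hN (continuous_pow_comp hp s.cont_v) fun x hx =>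
      Real.rpow_le_rpow (o.pos_v x hx).le
        (o.swap.u_le hN hq hτ.le (by rwa [← uIcc_of_le hτ.le])) hp.le
    have h2 := ker_le (T := τ) (B := (1 : ℝ) ^ q) hN (continuous_pow_comp hq s.cont_u) fun x hx =>
      Real.rpow_le_rpow (o.pos_u x hx).le
        (o.u_le hN hp hτ.le (by rwa [← uIcc_of_le hτ.le])) hq.le
    rw [Real.one_rpow] at h2
    have e1 : (2 : ℝ) / N * a ^ p = 2 * (a ^ p / N) := by ring
    have e2 : (2 : ℝ) / N * 1 = 2 * (1 / N) := by ring
    exact ⟨by rw [hku]; linarith, by rw [hkv]; linarith⟩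
  have hδC : δ ≤ δ * C := le_mul_of_one_le_right hδ.le (by
    have : 0 ≤ 2 / (half N * mu) * (1 / N) := by positivity
    have : 0 ≤ 2 / (half N * mv) * (a ^ p / N) := by positivity
    linarith)
  have hboth : U τ ≤ δ * C ∧ V τ ≤ δ * C := by
    rcases min_choice (U τ) (V τ) with e | e
    · have hUτ : U τ = δ := e.symm.trans hfτ
      refine ⟨hUτ ▸ hδC, ?_⟩
      have hh : δ * (2 / (half N * mu)) ≤ τ := hd3.le.trans hττ.le
      have hd : U τ < half N * (δ * (2 / (half N * mu))) * ku := by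
        calc U τ < 2 * δ := by linarith
          _ = half N * (δ * (2 / (half N * mu))) * mu := by field_simp
          _ ≤ _ := by gcongr
      have := not_lt.1 fun h => h₁ ⟨τ, _, U, V, o, by positivity, hh, hd, h⟩
      rw [Real.one_rpow] at this
      refine this.trans ?_
      rw [mul_assoc]
      refine mul_le_mul_of_nonneg_left ?_ hδ.le
      have : 0 ≤ 2 / (half N * mv) * (a ^ p / N) := by positivity
      linarith
    · have hVτ : V τ = δ := e.symm.trans hfτ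
      refine ⟨?_, hVτ ▸ hδC⟩
      have hh : δ * (2 / (half N * mv)) ≤ τ := hd4.le.trans hττ.le
      have hd : V τ < half N * (δ * (2 / (half N * mv))) * kv := by
        calc V τ < 2 * δ := by linarith
          _ = half N * (δ * (2 / (half N * mv))) * mv := by field_simp
          _ ≤ _ := by gcongr
      have := not_lt.1 fun h => h₂ ⟨τ, _, V, U, o.swap, by positivity, hh, hd, h⟩
      refine this.trans ?_
      rw [mul_assoc]
      refine mul_le_mul_of_nonneg_left ?_ hδ.le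
      have : 0 ≤ 2 / (half N * mu) * (1 / N) := by positivity
      linarith
  have hE := energy_eq_zero hN hp hq hc o hτ
  unfold energy at hE
  rw [← hku, ← hkv] at hE
  have hUp := o.pos_u τ hτu
  have hVp := o.pos_v τ hτu
  have hF : 0 ≤ V τ ^ (p + 1) / (p + 1) + U τ ^ (q + 1) / (q + 1) := by positivity
  have hku0 : 0 < ku := hmu.trans_le hmu'
  have h3 : 2 * τ₀ * mu * mv ≤ 2 * τ * ku * kv := by gcongr
  have h4 : U τ * kv ≤ δ * C * (1 / N) := mul_le_mul hboth.1 upper.2 (hmv.le.trans hmv') (by positivity)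
  have h5 : V τ * ku ≤ δ * C * (a ^ p / N) := mul_le_mul hboth.2 upper.1 (hmu.le.trans hmu') (by positivity)
  have h6 := mul_le_mul_of_nonneg_left h4 (show 0 ≤ N / (q + 1) by positivity)
  have h7 := mul_le_mul_of_nonneg_left h5 (show 0 ≤ N / (p + 1) by positivity)
  linarith

/-- A globally positive radial pair on the critical hyperbola. -/
theorem exists_ground (hN : 2 < N) (hp : 0 < p) (hq : 0 < q)
    (hc : N / (p + 1) + N / (q + 1) = N - 2) :
    ∃ a > 0, ∃ U V : ℝ → ℝ, ∀ R, 0 ≤ R → PosPair N p q 1 a R U V := by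
  obtain ⟨a, ha, h₁, h₂⟩ := exists_not_hit hN hp hq
  choose U V h using fun n : ℕ => exists_posPair_of_not_hit hN hp hq hc ha h₁ h₂
    (Rb := (n : ℝ) + 1) (Nat.cast_add_one_pos n)
  have hmono : ∀ m n : ℕ, m ≤ n → ∀ T ∈ Icc 0 ((m : ℝ) + 1), U m T = U n T ∧ V m T = V n T := by
    intro m n hmn
    refine (h m).agree hN hp hq ((h n).mono ?_) (by positivity)
    rw [uIcc_of_le (by positivity)]
    exact ⟨by positivity, by exact_mod_cast Nat.add_le_add_right hmn 1⟩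
  let idx : ℝ → ℕ := fun T => ⌊max T 0⌋₊
  have hidx : ∀ (n : ℕ) (T : ℝ), max T 0 ≤ (n : ℝ) + 1 →
      U (idx T) (max T 0) = U n (max T 0) ∧ V (idx T) (max T 0) = V n (max T 0) := by
    intro n T hT
    rcases le_total (idx T) n with h' | h'
    · exact hmono _ _ h' _ ⟨le_max_right _ _, (Nat.lt_floor_add_one _).le⟩
    · have := hmono _ _ h' _ ⟨le_max_right _ _, hT⟩
      exact ⟨this.1.symm, this.2.symm⟩
  have hloc : ∀ W : ℕ → ℝ → ℝ, (∀ n, Continuous (W n)) →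
      (∀ (n : ℕ) (T : ℝ), max T 0 ≤ (n : ℝ) + 1 → W (idx T) (max T 0) = W n (max T 0)) →
      Continuous fun T => W (idx T) (max T 0) := by
    intro W hW hWn
    refine continuous_iff_continuousAt.2 fun T₀ => ?_
    have hev : ∀ᶠ T in 𝓝 T₀, max T 0 ≤ ((idx T₀ : ℕ) : ℝ) + 1 :=
      ((continuous_id.max continuous_const).tendsto T₀).eventually
        (eventually_le_nhds (Nat.lt_floor_add_one _))
    exact ((hW (idx T₀)).comp (continuous_id.max continuous_const)).continuousAt.congr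
      (hev.mono fun T hT => (hWn _ T hT).symm)
  refine ⟨a, ha, fun T => U (idx T) (max T 0), fun T => V (idx T) (max T 0), fun R hR => ?_⟩
  have hn : R ≤ ((⌊R⌋₊ : ℕ) : ℝ) + 1 := (Nat.lt_floor_add_one _).le
  have o := (h ⌊R⌋₊).mono (R' := R) (by rw [uIcc_of_le (by positivity)]; exact ⟨hR, hn⟩)
  have heq : ∀ T ∈ uIcc 0 R, U (idx T) (max T 0) = U ⌊R⌋₊ T ∧ V (idx T) (max T 0) = V ⌊R⌋₊ T := by
    intro T hT
    rw [uIcc_of_le hR] at hT
    have := hidx ⌊R⌋₊ T (by rw [max_eq_left hT.1]; exact hT.2.trans hn)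
    rwa [max_eq_left hT.1] at this ⊢
  refine ⟨⟨hloc U (fun n => (h n).sys.cont_u) fun n T hT => (hidx n T hT).1,
    hloc V (fun n => (h n).sys.cont_v) fun n T hT => (hidx n T hT).2, fun T hT => ?_, fun T hT => ?_⟩,
    fun T hT => by rw [(heq T hT).1]; exact o.pos_u T hT,
    fun T hT => by rw [(heq T hT).2]; exact o.pos_v T hT⟩
  · rw [(heq T hT).1, o.sys.eq_u T hT]
    congr 2
    exact intervalIntegral.integral_congr fun τ hτ => ker_congr fun x hx => by
      rw [(heq x (uIcc_subset_uIcc left_mem_uIcc hT (uIcc_subset_uIcc left_mem_uIcc hτ hx))).2]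
  · rw [(heq T hT).2, o.sys.eq_v T hT]
    congr 2
    exact intervalIntegral.integral_congr fun τ hτ => ker_congr fun x hx => by
      rw [(heq x (uIcc_subset_uIcc left_mem_uIcc hT (uIcc_subset_uIcc left_mem_uIcc hτ hx))).1]

end

end Vale.Agent.P100.Orbit
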