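import Vale.Agent.P100.Orbit.Tail

/-!
# P100: differentiating the radial kernel through `T = 0`

For differentiable `f`, the derivative of `ker N f` is `ker (N + 2) f'` on both sides of `0`.
-/

namespace Vale.Agent.P100.Orbit

open MeasureTheory Set Filter Topology intervalIntegral

noncomputable section

variable {N : ℝ} {f f' : ℝ → ℝ} {J : Set ℝ} {T : ℝ}

theorem uIcc_subset_of_mem (hJ : J.OrdConnected) (h0 : (0 : ℝ) ∈ J) (hT : T ∈ J) : uIcc 0 T ⊆ J :=
  hJ.uIcc_subset h0 hT

theorem continuousOn_weight_mul (hN : 2 < N) (hJ : J.OrdConnected) (h0 : (0 : ℝ) ∈ J)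
    (hf : ContinuousOn f J) (hT : T ∈ J) :
    ContinuousOn (fun s => s ^ (N / 2 - 1) * f (T * s)) (uIcc 0 1) :=
  (continuous_weight hN).continuousOn.mul (hf.comp (continuous_const.mul continuous_id).continuousOn
    fun s hs => uIcc_subset_of_mem hJ h0 hT (mem_uIcc_mul (by rwa [uIcc_of_le zero_le_one] at hs) T))

/-- Differentiation under the integral. -/
theorem hasDerivAt_ker_smooth (hN : 2 < N) (hJo : IsOpen J) (hJ : J.OrdConnected) (h0 : (0 : ℝ) ∈ J)
    (hd : ∀ x ∈ J, HasDerivAt f (f' x) x) (hf' : ContinuousOn f' J) (hT : T ∈ J) :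
    HasDerivAt (ker N f) (ker (N + 2) f' T) T := by
  have hf : ContinuousOn f J := fun x hx => (hd x hx).continuousAt.continuousWithinAt
  have hw : Continuous fun s : ℝ => s ^ (N / 2) := continuous_id.rpow_const fun _ => Or.inr (by linarith)
  obtain ⟨l, u, hlu, hsub⟩ := mem_nhds_iff_exists_Ioo_subset.1 (hJo.mem_nhds hT)
  obtain ⟨A, hA1, hA2⟩ := exists_between hlu.1
  obtain ⟨B, hB1, hB2⟩ := exists_between hlu.2
  have hAB : A ≤ B := (hA2.trans hB1).le
  have hI : Icc A B ⊆ J := fun x hx => hsub ⟨hA1.trans_le hx.1, hx.2.trans_lt hB2⟩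
  set m := min A 0
  set M := max B 0
  have hmJ : m ∈ J := by
    rcases min_choice A 0 with h | h <;> simp only [m, h]
    · exact hI ⟨le_rfl, hAB⟩
    · exact h0
  have hMJ : M ∈ J := by
    rcases max_choice B 0 with h | h <;> simp only [M, h]
    · exact hI ⟨hAB, le_rfl⟩
    · exact h0
  have hmM : Icc m M ⊆ J := hJ.out hmJ hMJ
  obtain ⟨x₀, hx₀, hmax⟩ := isCompact_Icc.exists_isMaxOn
    (nonempty_Icc.2 ((min_le_right A 0).trans (le_max_right B 0))) (hf'.mono hmM).abs
  have hs : ∀ s ∈ uIoc (0 : ℝ) 1, ∀ x ∈ Icc A B, x * s ∈ Icc m M := by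
    intro s hs x hx
    rw [uIoc_of_le zero_le_one] at hs
    have h := mem_uIcc_mul ⟨hs.1.le, hs.2⟩ x
    refine ⟨le_trans ?_ h.1, h.2.trans ?_⟩
    · exact le_min (min_le_right _ _) ((min_le_left _ _).trans hx.1)
    · exact max_le (le_max_right _ _) (hx.2.trans (le_max_left _ _))
  have hmeas : ∀ᶠ x in 𝓝 T, AEStronglyMeasurable (fun s => s ^ (N / 2 - 1) * f (x * s))
      (volume.restrict (uIoc (0 : ℝ) 1)) := by
    filter_upwards [hJo.mem_nhds hT] with x hx
    exact ((continuousOn_weight_mul hN hJ h0 hf hx).mono uIoc_subset_uIcc).aestronglyMeasurable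
      measurableSet_uIoc
  have hF' : AEStronglyMeasurable (fun s => s ^ (N / 2) * f' (T * s))
      (volume.restrict (uIoc (0 : ℝ) 1)) :=
    (hw.continuousOn.mul (hf'.comp (continuous_const.mul continuous_id).continuousOn fun s hs' =>
      hmM (hs s hs' T ⟨hA2.le, hB1.le⟩))).aestronglyMeasurable measurableSet_uIoc
  have h := intervalIntegral.hasDerivAt_integral_of_dominated_loc_of_deriv_le (μ := volume)
    (F := fun x s => s ^ (N / 2 - 1) * f (x * s)) (F' := fun x s => s ^ (N / 2) * f' (x * s))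
    (bound := fun _ => |f' x₀|) (Icc_mem_nhds hA2 hB1) hmeas
    ((continuousOn_weight_mul hN hJ h0 hf hT).intervalIntegrable) hF' ?_ intervalIntegrable_const ?_
  · refine h.2.congr_deriv ?_
    rw [ker, show (N + 2) / 2 - 1 = N / 2 by ring]
  · refine ae_of_all _ fun s hs' x hx => ?_
    rw [uIoc_of_le zero_le_one] at hs'
    rw [Real.norm_eq_abs, abs_mul, abs_of_nonneg (Real.rpow_nonneg hs'.1.le _)]
    refine (mul_le_of_le_one_left (abs_nonneg _) (Real.rpow_le_one hs'.1.le hs'.2 (by linarith))).trans ?_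
    exact hmax (hs s (by rwa [uIoc_of_le zero_le_one]) x hx)
  · refine ae_of_all _ fun s hs' x hx => ?_
    rw [uIoc_of_le zero_le_one] at hs'
    have h1 := ((hd _ (hmM (hs s (by rwa [uIoc_of_le zero_le_one]) x hx))).comp x
      ((hasDerivAt_id x).mul_const s)).const_mul (s ^ (N / 2 - 1))
    refine h1.congr_deriv ?_
    rw [one_mul, show s ^ (N / 2) = s ^ (N / 2 - 1) * s by
      rw [← Real.rpow_add_one hs'.1.ne']; ring_nf]
    ring

theorem continuousOn_ker (hN : 2 < N) (hJo : IsOpen J) (hJ : J.OrdConnected) (h0 : (0 : ℝ) ∈ J)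
    (hf : ContinuousOn f J) : ContinuousOn (ker N f) J := by
  refine hJo.continuousOn_iff.2 fun T hT => ?_
  obtain ⟨l, u, hlu, hsub⟩ := mem_nhds_iff_exists_Ioo_subset.1 (hJo.mem_nhds hT)
  obtain ⟨A, hA1, hA2⟩ := exists_between hlu.1
  obtain ⟨B, hB1, hB2⟩ := exists_between hlu.2
  have hm : min A 0 ≤ max B 0 := (min_le_right A 0).trans (le_max_right B 0)
  have hI : Icc A B ⊆ J := fun x hx => hsub ⟨hA1.trans_le hx.1, hx.2.trans_lt hB2⟩
  have hIJ : Icc (min A 0) (max B 0) ⊆ J := by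
    refine hJ.out ?_ ?_
    · rcases min_choice A 0 with h | h <;> rw [h]
      exacts [hI ⟨le_rfl, (hA2.trans hB1).le⟩, h0]
    · rcases max_choice B 0 with h | h <;> rw [h]
      exacts [hI ⟨(hA2.trans hB1).le, le_rfl⟩, h0]
  have hg : Continuous (Set.IccExtend hm fun x : Icc (min A 0) (max B 0) => f x) :=
    (((hf.mono hIJ).restrict).Icc_extend')
  refine (continuous_ker hN hg).continuousAt.congr ?_
  filter_upwards [Ioo_mem_nhds hA2 hB1] with x hx
  refine ker_congr fun y hy => ?_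
  have hy' : y ∈ Icc (min A 0) (max B 0) :=
    ⟨le_trans (le_min (min_le_right _ _) ((min_le_left _ _).trans hx.1.le)) hy.1,
      hy.2.trans (max_le (le_max_right _ _) (hx.2.le.trans (le_max_left _ _)))⟩
  exact Set.IccExtend_of_mem hm (fun x : Icc (min A 0) (max B 0) => f x) hy'

theorem contDiffOn_ker (hJo : IsOpen J) (hJ : J.OrdConnected) (h0 : (0 : ℝ) ∈ J) :
    ∀ (n : ℕ) (N : ℝ) (f : ℝ → ℝ), 2 < N → ContDiffOn ℝ n f J → ContDiffOn ℝ n (ker N f) J := by
  intro n
  induction n with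
  | zero =>
    intro N f hN hf
    simpa using continuousOn_ker hN hJo hJ h0 (by simpa using hf)
  | succ n ih =>
    intro N f hN hf
    rw [Nat.cast_add, Nat.cast_one] at hf ⊢
    rw [contDiffOn_succ_iff_deriv_of_isOpen hJo] at hf ⊢
    have hd : ∀ x ∈ J, HasDerivAt (ker N f) (ker (N + 2) (deriv f) x) x := fun x hx =>
      hasDerivAt_ker_smooth hN hJo hJ h0
        (fun y hy => (hf.1.differentiableAt (hJo.mem_nhds hy)).hasDerivAt) hf.2.2.continuousOn hx
    exact ⟨fun x hx => (hd x hx).differentiableAt.differentiableWithinAt, by simp,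
      (ih (N + 2) _ (by linarith) hf.2.2).congr fun x hx => (hd x hx).deriv⟩

end

end Vale.Agent.P100.Orbit
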