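import Vale.Agent.P100.Orbit.Backward

/-!
# P100: uniform gap of the logarithmic slopes, hence `V / U^σ → 0`

While `η` is near `1` the quotient `χ = φ / X` decreases at a definite rate, so `η ≥ c > 1`.
-/

namespace Vale.Agent.P100.Orbit

open MeasureTheory Set Filter Topology intervalIntegral

noncomputable section

variable {N p q a T : ℝ} {U V : ℝ → ℝ}

theorem tail_algebra {N q k σ e g X Z : ℝ} (he : 0 ≤ e) (hrel : (1 + e) * ((q + 1) * X + (Z + (k + g) * X) - N) = N - Z) :
    (Z + (k + g) * X) * (N - q * X - (Z + (k + g) * X)) - Z * (N - (q + k) * (1 + e) * X - Z)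
        - k * X * (X + Z - N + 2) + σ * X * (X + Z - N + 2) * e
        + σ * X * ((1 + e) * ((g + σ * e) * X)) - (g + σ * e) * (X * (X + Z - N + 2))
      = X * (-2 * k + (e * ((q + k) * Z + k * (q + 1 + k) * X / (2 + e))
          + g * (-2 * Z + N - q * X - 2 * k * X - g * X + 2 * k * X * (1 + e) / (2 + e))
          - g * (X + Z - N + 2) + σ * (1 + e) * (g + σ * e) * X)) := by
  have h2 : 2 + e ≠ 0 := by linarith
  have hZ : Z = N - (1 + e) * (q + 1 + k + g) * X / (2 + e) := by
    field_simp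
    linear_combination hrel
  subst hZ
  field_simp
  ring

theorem abs_mul_le_of {a b A B : ℝ} (ha : |a| ≤ A) (hb : |b| ≤ B) : |a * b| ≤ A * B := by
  rw [abs_mul]; exact mul_le_mul ha hb (abs_nonneg _) ((abs_nonneg _).trans ha)

/-- `φ / X`. -/
def qchi (N p q : ℝ) (U V : ℝ → ℝ) (T : ℝ) : ℝ := qphi N p q U V T / qX N p U V T

/-- `2 T` times the derivative of `χ`. -/
def qchi' (N p q : ℝ) (U V : ℝ → ℝ) (T : ℝ) : ℝ :=
  (qG' N p q U V T
      + sig p q * qX N p U V T * (qX N p U V T + qZ N p V T - N + 2) * (eta N p q U V T - 1)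
      + sig p q * qX N p U V T * (eta N p q U V T * qphi N p q U V T)
    - qchi N p q U V T * (qX N p U V T * (qX N p U V T + qZ N p V T - N + 2))) / qX N p U V T

namespace Ground

variable (hN : 2 < N) (hp : 0 < p) (hq : 0 < q) (g : Ground N p q a U V)
include hN hp hq g

theorem qZ_le (hT : 0 ≤ T) : qZ N p V T ≤ N := by
  have hk := le_ker (T := T) (B := V T ^ p) hN (continuous_pow_comp hp g.cont_v) fun x hx => by
    rw [uIcc_of_le hT] at hx
    exact Real.rpow_le_rpow (g.pair_v hT).le (g.antitone_v hN hq hx.1 hx.2) hp.le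
  have hN0 : 0 < N := by linarith
  unfold qZ
  rw [div_le_iff₀ (g.du_u_pos hN hp hT)]
  unfold du
  have e : N * (2 / N * V T ^ p / 2) = V T ^ p := by field_simp
  have := mul_le_mul_of_nonneg_left (div_le_div_of_nonneg_right hk (by norm_num : (0 : ℝ) ≤ 2)) hN0.le
  linarith

theorem hasDerivAt_qchi (hT : 0 < T) :
    HasDerivAt (qchi N p q U V) (qchi' N p q U V T / (2 * T)) T := by
  have hX := (g.qX_pos hN hp hq hT).ne'
  have h := ((g.hasDerivAt_qX hN hp hq hT).mul ((g.hasDerivAt_eta hN hp hq hT).sub_const 1)).const_mul (sig p q)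
  have hphi : HasDerivAt (qphi N p q U V) _ T :=
    ((g.hasDerivAt_qG hN hp hq hT).add h).congr_of_eventuallyEq
      (Eventually.of_forall fun y => by simp only [qphi, Pi.add_apply, Pi.mul_apply]; ring)
  refine (hphi.div (g.hasDerivAt_qX hN hp hq hT) hX).congr_deriv ?_
  unfold qchi' qchi
  field_simp
  ring

/-- Near `η = 1` and `χ = 0` the derivative of `χ` is at most `-k / (2 T)`. -/
theorem exists_rate (hqp : q < p) (hc : N / (p + 1) + N / (q + 1) = N - 2) :
    ∃ δ > (0 : ℝ), ∀ x, 0 < x → eta N p q U V x ≤ 1 + δ → -δ ≤ qchi N p q U V x →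
      qchi N p q U V x ≤ 0 → qchi' N p q U V x ≤ -(1 - sig p q) := by
  have hs := sig_pos hp hq
  have hs1 := sig_lt_one hp hqp (q := q)
  set k := 1 - sig p q
  have hk : 0 < k := sub_pos.2 hs1
  have hN0 : 0 < N := by linarith
  set K := 2 * (((q + k) * N + k * (q + 1 + k) * (2 * N)) + 2 * (2 * N + N + q * (2 * N) + 2 * k * (2 * N)
    + 2 * (2 * N) + 2 * k * (2 * N)) + 2 * (2 * N + N + N + 2) + 2 * 3 * (2 * N))
  have hK : 0 < K := by positivity
  set δ := min 1 (k / K)
  have hδ : 0 < δ := by positivity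
  have hδ1 : δ ≤ 1 := min_le_left _ _
  refine ⟨δ, hδ, ?_⟩
  intro x hx he hc1 hc2
  have hsa : |sig p q| ≤ 1 := by rw [abs_of_pos hs]; exact hs1.le
  have he0 := (g.one_lt_eta hN hp hq hqp hc hx.le).le
  have hX := g.qX_pos hN hp hq hx
  set e := eta N p q U V x - 1
  set gg := qchi N p q U V x - sig p q * e
  have hchi : qphi N p q U V x = qchi N p q U V x * qX N p U V x := by
    unfold qchi; field_simp
  have hW : qZ N q U x = qZ N p V x + (k + gg) * qX N p U V x := by
    have h := hchi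
    conv_lhs at h => unfold qphi qG
    simp only [gg, e]
    linarith
  have hr := g.relation hN hp hq hc hx
  rw [hW, show eta N p q U V x = 1 + e by simp [e]] at hr
  have hY : p * qX N q V U x = (q + k) * (1 + e) * qX N p U V x := by
    rw [g.qY_eq hN hp hq hx.le, show q + k = sig p q * p by rw [sig_mul hp]; ring]
    simp only [e]
    ring
  have hA := tail_algebra (σ := sig p q) (by simp only [e]; linarith) hr
  have hphi : qphi N p q U V x = (gg + sig p q * e) * qX N p U V x := by
    rw [hchi]; simp only [gg]; ring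
  have heq : qchi' N p q U V x = -2 * k + (e * ((q + k) * qZ N p V x + k * (q + 1 + k) * qX N p U V x / (2 + e))
        + gg * (-2 * qZ N p V x + N - q * qX N p U V x - 2 * k * qX N p U V x - gg * qX N p U V x
          + 2 * k * qX N p U V x * (1 + e) / (2 + e))
        - gg * (qX N p U V x + qZ N p V x - N + 2) + sig p q * (1 + e) * (gg + sig p q * e) * qX N p U V x) := by
    unfold qchi' qG'
    rw [hW, hY, hphi, show eta N p q U V x = 1 + e by simp [e],
      show qchi N p q U V x = gg + sig p q * e by simp [gg], div_eq_iff hX.ne']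
    rw [show (1 + e - 1 : ℝ) = e by ring]
    linarith [hA]
  set X := qX N p U V x
  set Z := qZ N p V x
  have hZ0 : 0 ≤ Z := g.qZ_nonneg hN hp hq hx.le
  have hZN : Z ≤ N := g.qZ_le hN hp hq hx.le
  have hW0 : 0 ≤ qZ N q U x := by
    have := g.du_v_pos hN hq hx.le
    have := g.pair_u hx.le
    unfold qZ; positivity
  have hX2 : X ≤ 2 * N := by
    have h1 : (1 + e) * ((q + 1) * X + (Z + (k + gg) * X) - N) ≤ N := by rw [hr]; linarith
    rcases le_total ((q + 1) * X + (Z + (k + gg) * X) - N) 0 with h | h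
    · rw [hW] at hW0
      have := mul_nonneg hq.le hX.le
      linarith
    · have h2 := le_trans (le_mul_of_one_le_left h (show 1 ≤ 1 + e by simp only [e]; linarith)) h1
      rw [hW] at hW0
      have := mul_nonneg hq.le hX.le
      linarith
  have he1 : |e| ≤ δ := by rw [abs_le]; constructor <;> simp only [e] <;> linarith
  have hg1 : |gg| ≤ 2 * δ := by
    have := abs_mul_le_of (hsa : |sig p q| ≤ 1) he1
    rw [abs_le] at this ⊢
    simp only [gg]
    constructor <;> linarith
  have hXa : |X| ≤ 2 * N := by rw [abs_of_pos hX]; exact hX2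
  have h2e : (1 : ℝ) ≤ 2 + e := by simp only [e]; linarith
  have b1 : |(q + k) * Z + k * (q + 1 + k) * X / (2 + e)| ≤ (q + k) * N + k * (q + 1 + k) * (2 * N) := by
    have h0 : 0 ≤ k * (q + 1 + k) * X := by positivity
    rw [abs_of_nonneg (by positivity)]
    exact add_le_add (mul_le_mul_of_nonneg_left hZN (by positivity))
      ((div_le_self h0 h2e).trans (mul_le_mul_of_nonneg_left hX2 (by positivity)))
  have b2 : |(-2 * Z + N - q * X - 2 * k * X - gg * X + 2 * k * X * (1 + e) / (2 + e))|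
      ≤ 2 * N + N + q * (2 * N) + 2 * k * (2 * N) + 2 * (2 * N) + 2 * k * (2 * N) := by
    have hgX := abs_mul_le_of hg1 hXa
    have h1 : q * X ≤ q * (2 * N) := mul_le_mul_of_nonneg_left hX2 hq.le
    have h2 : k * X ≤ k * (2 * N) := mul_le_mul_of_nonneg_left hX2 hk.le
    have h3 : 2 * k * X * (1 + e) / (2 + e) ≤ 2 * k * X := by
      rw [div_le_iff₀ (by linarith)]
      exact mul_le_mul_of_nonneg_left (by linarith) (by positivity)
    have h4 : 0 ≤ 2 * k * X * (1 + e) / (2 + e) := by
      have : 0 ≤ 1 + e := by linarith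
      have : 0 ≤ 2 + e := by linarith
      positivity
    have h5 := mul_nonneg hq.le hX.le
    have h6 := mul_nonneg hk.le hX.le
    have h7 : 2 * δ * (2 * N) ≤ 2 * (2 * N) := mul_le_mul_of_nonneg_right (by linarith) (by linarith)
    rw [abs_le] at hgX ⊢
    constructor <;> linarith
  have b3 : |X + Z - N + 2| ≤ 2 * N + N + N + 2 := by rw [abs_le]; constructor <;> linarith
  have b4 : |sig p q * (1 + e) * (gg + sig p q * e) * X| ≤ 1 * 2 * (3 * δ) * (2 * N) := by
    refine abs_mul_le_of (abs_mul_le_of (abs_mul_le_of hsa ?_) ?_) hXa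
    · rw [abs_le] at he1 ⊢; constructor <;> linarith
    · have h1 := abs_mul_le_of (hsa : |sig p q| ≤ 1) he1
      rw [abs_le] at hg1 h1 ⊢
      constructor <;> linarith
  have t1 := (abs_le.1 (abs_mul_le_of he1 b1)).2
  have t2 := (abs_le.1 (abs_mul_le_of hg1 b2)).2
  have t3 := (abs_le.1 (abs_mul_le_of hg1 b3)).1
  have t4 := (abs_le.1 b4).2
  have t5 : δ * K ≤ k := by
    have := mul_le_mul_of_nonneg_right (min_le_right 1 (k / K)) hK.le
    rwa [div_mul_cancel₀ _ hK.ne'] at this
  have t6 : 0 ≤ δ * ((q + k) * N + k * (q + 1 + k) * (2 * N)) := by positivity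
  rw [heq]
  simp only [K] at t5
  linarith

theorem eta_rate_eq {x : ℝ} (hx : 0 < x) : eta N p q U V x * qphi N p q U V x / (2 * x)
    = eta N p q U V x * qchi N p q U V x * (du N p V x / U x) := by
  have := (g.pair_u hx.le).ne'
  have := (g.du_u_pos hN hp hx.le).ne'
  unfold qchi qX
  field_simp

theorem chi_invariant {δ : ℝ} (hqp : q < p)
    (key : ∀ x, 0 < x → eta N p q U V x ≤ 1 + δ → -δ ≤ qchi N p q U V x →
      qchi N p q U V x ≤ 0 → qchi' N p q U V x ≤ -(1 - sig p q)) :
    ∀ d y, 0 ≤ d → d ≤ δ → 0 < y → eta N p q U V y ≤ 1 + δ → qchi N p q U V y ≤ -d →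
      ∀ z, y < z → eta N p q U V z < 1 + δ ∧ qchi N p q U V z < -d := by
  have hk : 0 < 1 - sig p q := sub_pos.2 (sig_lt_one hp hqp)
  intro d y hd hdδ hy hye hyc z hz
  have hcE : ∀ w, y < w → (∀ v ∈ Ioo y w, qchi N p q U V v < 0) →
      eta N p q U V w < eta N p q U V y := by
    intro w hw hneg
    obtain ⟨c, hc', e⟩ := exists_hasDerivAt_eq_slope _ _ hw
      ((g.continuousOn_eta hN hp hq).mono fun v hv => hy.le.trans hv.1)
      fun v hv => g.hasDerivAt_eta hN hp hq (hy.trans hv.1)
    have hc0 : 0 < c := hy.trans hc'.1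
    have hneg' : eta N p q U V c * qphi N p q U V c / (2 * c) < 0 := by
      rw [g.eta_rate_eq hN hp hq hc0]
      exact mul_neg_of_neg_of_pos (mul_neg_of_pos_of_neg (g.eta_pos hN hp hq hc0.le) (hneg c hc'))
        (div_pos (g.du_u_pos hN hp hc0.le) (g.pair_u hc0.le))
    rw [e, div_neg_iff] at hneg'
    rcases hneg' with ⟨-, h⟩ | ⟨h, -⟩ <;> linarith
  have hdn : ∀ v, 0 < v → eta N p q U V v ≤ 1 + δ → qchi N p q U V v = -d →
      qchi' N p q U V v / (2 * v) < 0 := fun v hv he he' =>
    div_neg_of_neg_of_pos (lt_of_le_of_lt (key v hv he (by linarith) (by linarith)) (neg_lt_zero.2 hk))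
      (by linarith)
  have hright : ∀ᶠ v in 𝓝[>] y, qchi N p q U V v < -d := by
    rcases hyc.lt_or_eq with h | h
    · exact ((g.hasDerivAt_qchi hN hp hq hy).continuousAt.eventually
        (eventually_lt_nhds h)).filter_mono nhdsWithin_le_nhds
    · exact (eventually_lt_of_deriv_neg (g.hasDerivAt_qchi hN hp hq hy) (hdn y hy hye h)).1.mono
        fun v hv => hv.trans_eq h
  obtain ⟨b, hb, hsub⟩ := mem_nhdsGT_iff_exists_Ioo_subset.1 hright
  have hb : y < b := hb
  suffices h : ∀ v ∈ Ioc y z, qchi N p q U V v < -d by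
    exact ⟨(hcE z hz fun v hv => (h v ⟨hv.1, hv.2.le⟩).trans_le (neg_nonpos.2 hd)).trans_le hye,
      h z ⟨hz, le_rfl⟩⟩
  by_contra hbad
  push Not at hbad
  obtain ⟨v₀, hv₀, hv₀c⟩ := hbad
  obtain ⟨y', hy', hy'b⟩ := exists_between (lt_min hb hv₀.1)
  have hy'v : y' < v₀ := hy'b.trans_le (min_le_right _ _)
  have hcl : IsClosed (Icc y' v₀ ∩ qchi N p q U V ⁻¹' Ici (-d)) :=
    ContinuousOn.preimage_isClosed_of_isClosed (fun v hv =>
      (g.hasDerivAt_qchi hN hp hq (hy.trans (hy'.trans_le hv.1))).continuousAt.continuousWithinAt)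
      isClosed_Icc isClosed_Ici
  have hbd : BddBelow (Icc y' v₀ ∩ qchi N p q U V ⁻¹' Ici (-d)) := ⟨y', fun v hv => hv.1.1⟩
  obtain ⟨hS, hSv⟩ := hcl.csInf_mem ⟨v₀, ⟨hy'v.le, le_rfl⟩, hv₀c⟩ hbd
  set s := sInf (Icc y' v₀ ∩ qchi N p q U V ⁻¹' Ici (-d))
  have hs' : y' < s := hS.1.lt_of_ne fun e => by
    rw [← e] at hSv
    have h1 : qchi N p q U V y' < -d := hsub ⟨hy', hy'b.trans_le (min_le_left _ _)⟩
    have h2 : -d ≤ qchi N p q U V y' := hSv
    linarith
  have hbef : ∀ v ∈ Ioo y s, qchi N p q U V v < -d := fun v hv => by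
    rcases lt_or_ge v b with h | h
    · exact hsub ⟨hv.1, h⟩
    · exact not_le.1 fun h' => not_le.2 hv.2
        (csInf_le hbd ⟨⟨(hy'b.trans_le (min_le_left _ _)).le.trans h, hv.2.le.trans hS.2⟩, h'⟩)
  have hs0 : 0 < s := hy.trans (hy'.trans hs')
  have hse : eta N p q U V s ≤ 1 + δ :=
    ((hcE s (hy'.trans hs') fun v hv => (hbef v hv).trans_le (neg_nonpos.2 hd)).trans_le hye).le
  have heq : qchi N p q U V s = -d := le_antisymm
    (le_of_tendsto ((g.hasDerivAt_qchi hN hp hq hs0).continuousAt.mono_left nhdsWithin_le_nhds)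
      (mem_of_superset (Ioo_mem_nhdsLT (hy'.trans hs')) fun v hv => (hbef v hv).le)) hSv
  obtain ⟨v, hv1, hv2⟩ := ((eventually_lt_of_deriv_neg (g.hasDerivAt_qchi hN hp hq hs0)
    (hdn s hs0 hse heq)).2.and (Ioo_mem_nhdsLT (hy'.trans hs'))).exists
  linarith [hbef v hv2]

theorem exists_eta_bound (hqp : q < p) (hc : N / (p + 1) + N / (q + 1) = N - 2) :
    ∃ c > 1, ∀ T, 0 ≤ T → c ≤ eta N p q U V T := by
  obtain ⟨δ, hδ, key⟩ := g.exists_rate hN hp hq hqp hc
  have hs := sig_pos hp hq
  set k := 1 - sig p q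
  have hk : 0 < k := sub_pos.2 (sig_lt_one hp hqp)
  have hη := fun {x : ℝ} (hx : 0 < x) => g.eta_rate_eq hN hp hq hx
  by_cases hI : ∀ x, 0 < x → eta N p q U V x ≤ 1 + δ → 0 < qchi N p q U V x
  · set c := min (eta N p q U V 0) (1 + δ)
    refine ⟨c, lt_min (g.one_lt_eta hN hp hq hqp hc le_rfl) (by linarith), fun T hT => ?_⟩
    by_contra hlt
    push Not at hlt
    obtain ⟨S, hS, hmax⟩ : ∃ S ∈ Icc 0 T, c ≤ eta N p q U V S ∧ ∀ y ∈ Ioc S T, eta N p q U V y < c := by
      have hcl : IsClosed (Icc 0 T ∩ eta N p q U V ⁻¹' Ici c) :=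
        ((g.continuousOn_eta hN hp hq).mono Icc_subset_Ici_self).preimage_isClosed_of_isClosed
          isClosed_Icc isClosed_Ici
      have hb : BddAbove (Icc 0 T ∩ eta N p q U V ⁻¹' Ici c) := ⟨T, fun y hy => hy.1.2⟩
      obtain ⟨h1, h2⟩ := hcl.csSup_mem ⟨0, ⟨⟨le_rfl, hT⟩, (min_le_left _ _ : c ≤ eta N p q U V 0)⟩⟩ hb
      exact ⟨_, h1, h2, fun y hy => not_le.1 fun h =>
        not_le.2 hy.1 (le_csSup hb ⟨⟨h1.1.trans hy.1.le, hy.2⟩, h⟩)⟩
    have := le_slope (f := eta N p q U V) (C := 0) hS.2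
      ((g.continuousOn_eta hN hp hq).mono fun y hy => hS.1.trans hy.1)
      (fun y hy => g.hasDerivAt_eta hN hp hq (hS.1.trans_lt hy.1)) fun y hy => by
        have hy0 : 0 < y := hS.1.trans_lt hy.1
        have h1 := hI y hy0 ((hmax.2 y ⟨hy.1, hy.2.le⟩).le.trans (min_le_right _ _))
        have := g.eta_pos hN hp hq hy0.le
        have := g.du_u_pos hN hp hy0.le
        have := g.pair_u hy0.le
        rw [hη hy0]
        positivity
    linarith [hmax.1]
  exfalso
  push Not at hI
  obtain ⟨x, hx, hxe, hxc⟩ := hI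
  have inv := g.chi_invariant hN hp hq hqp key
  have h0 := inv 0 x le_rfl hδ.le hx hxe (by rw [neg_zero]; exact hxc)
  -- a point where `χ ≤ -δ`
  obtain ⟨y, hy, hyc⟩ : ∃ y, x < y ∧ qchi N p q U V y ≤ -δ := by
    by_contra hno
    push Not at hno
    set x₁ := x + 1
    set y := x₁ * Real.exp (2 * δ / k + 1)
    have hx₁ : 0 < x₁ := by linarith
    have hxy : x₁ < y := lt_mul_of_one_lt_right hx₁ (Real.one_lt_exp_iff.2 (by positivity))
    have := slope_le (f := fun v => qchi N p q U V v + k / 2 * Real.log v) (C := 0) hxy.le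
      (fun v hv => (((g.hasDerivAt_qchi hN hp hq (hx₁.trans_le hv.1)).add
        ((Real.hasDerivAt_log (hx₁.trans_le hv.1).ne').const_mul (k / 2))).continuousAt).continuousWithinAt)
      (fun v hv => (g.hasDerivAt_qchi hN hp hq (hx₁.trans hv.1)).add
        ((Real.hasDerivAt_log (hx₁.trans hv.1).ne').const_mul (k / 2))) fun v hv => by
        have hv0 : 0 < v := hx₁.trans hv.1
        have hxv : x < v := (lt_add_one x).trans hv.1
        have h := div_le_div_of_nonneg_right (key v hv0 (h0 v hxv).1.le (hno v hxv).le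
          (by linarith [(h0 v hxv).2])) (show 0 ≤ 2 * v by linarith)
        have e : k / 2 * v⁻¹ = k / (2 * v) := by field_simp
        have e' : -k / (2 * v) = -(k / (2 * v)) := neg_div _ _
        linarith
    have e : Real.log y = Real.log x₁ + (2 * δ / k + 1) := by
      rw [Real.log_mul hx₁.ne' (Real.exp_pos _).ne', Real.log_exp]
    have e' : k / 2 * (2 * δ / k + 1) = δ + k / 2 := by field_simp
    rw [e] at this
    linarith [hno y ((lt_add_one x).trans hxy), (h0 x₁ (lt_add_one x)).2]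
  have hy0 : 0 < y := hx.trans hy
  have hd := inv δ y hδ.le le_rfl hy0 (h0 y hy).1.le hyc
  have hbound : ∀ z, y < z → Real.exp (-(Real.log (eta N p q U V y) - δ * Real.log (U y)) / δ) ≤ U z := by
    intro z hz
    have := slope_le (f := fun v => Real.log (eta N p q U V v) - δ * Real.log (U v)) (C := 0) hz.le
      (fun v hv => (((g.hasDerivAt_eta hN hp hq (hy0.trans_le hv.1)).log
        (g.eta_pos hN hp hq (hy0.le.trans hv.1)).ne').sub (((g.hasDerivAt_u hN hp (hy0.trans_le hv.1)).log
          (g.pair_u (hy0.le.trans hv.1)).ne').const_mul δ)).continuousAt.continuousWithinAt)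
      (fun v hv => ((g.hasDerivAt_eta hN hp hq (hy0.trans hv.1)).log
        (g.eta_pos hN hp hq (hy0.trans hv.1).le).ne').sub (((g.hasDerivAt_u hN hp (hy0.trans hv.1)).log
          (g.pair_u (hy0.trans hv.1).le).ne').const_mul δ)) fun v hv => by
        have hv0 : 0 < v := hy0.trans hv.1
        rw [hη hv0, mul_assoc, mul_div_cancel_left₀ _ (g.eta_pos hN hp hq hv0.le).ne']
        have hpos : 0 ≤ du N p V v / U v := (div_pos (g.du_u_pos hN hp hv0.le) (g.pair_u hv0.le)).le
        have h := mul_le_mul_of_nonneg_right (hd v hv.1).2.le hpos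
        have e : δ * (-du N p V v / U v) = -δ * (du N p V v / U v) := by ring
        linarith
    have hu := g.pair_u (hy0.trans hz).le
    rw [← Real.le_log_iff_exp_le hu, div_le_iff₀ hδ]
    have := Real.log_nonneg (g.one_lt_eta hN hp hq hqp hc (hy0.trans hz).le).le
    linarith
  obtain ⟨z, hz1, hz2⟩ := (((g.tendsto_u hN hp hq).eventually (eventually_lt_nhds
    (Real.exp_pos (-(Real.log (eta N p q U V y) - δ * Real.log (U y)) / δ)))).and
      (eventually_gt_atTop y)).exists
  exact not_le.2 hz1 (hbound z hz2)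

/-- The ratio decays like a positive power of `U`. -/
theorem exists_ratio_decay (hqp : q < p) (hc : N / (p + 1) + N / (q + 1) = N - 2) :
    ∃ d > (0 : ℝ), ∀ T, 0 ≤ T → ratio p q U V T ≤ a * U T ^ d := by
  obtain ⟨c, hc1, hb⟩ := g.exists_eta_bound hN hp hq hqp hc
  have hs := sig_pos hp hq
  refine ⟨sig p q * (c - 1), mul_pos hs (by linarith), fun T hT => ?_⟩
  set d := sig p q * (c - 1)
  have := slope_le (f := fun x => ratio p q U V x * U x ^ (-d)) (C := 0) hT
    (((g.continuousOn_ratio hN hp hq).mul (g.cont_u.continuousOn.rpow_const fun _ hx =>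
      Or.inl (g.pair_u hx).ne')).mono Icc_subset_Ici_self)
    (fun x hx => (g.hasDerivAt_ratio hN hp hq hx.1).mul
      ((g.hasDerivAt_u hN hp hx.1).rpow_const (Or.inl (g.pair_u hx.1.le).ne'))) fun x hx => by
      have h1 := g.pair_u hx.1.le
      have h2 := g.pair_v hx.1.le
      have h3 := g.du_u_pos hN hp hx.1.le
      have hr : 0 ≤ ratio p q U V x := by unfold ratio; positivity
      have h := hb x hx.1.le
      have e : du N q U x / V x = sig p q * eta N p q U V x * (du N p V x / U x) := by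
        unfold eta; field_simp
      rw [e, Real.rpow_sub_one h1.ne']
      have : ratio p q U V x * (sig p q * (du N p V x / U x) - sig p q * eta N p q U V x * (du N p V x / U x))
            * U x ^ (-d) + ratio p q U V x * (-du N p V x * -d * (U x ^ (-d) / U x))
          = -(ratio p q U V x * U x ^ (-d) * (du N p V x / U x) * (sig p q * (eta N p q U V x - c))) := by
        simp only [d]; ring
      rw [this]
      exact neg_nonpos.2 (mul_nonneg (by positivity) (mul_nonneg hs.le (by linarith)))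
  have h0 : ratio p q U V 0 = a := by rw [ratio, g.u_zero, g.v_zero, Real.one_rpow, div_one]
  rw [h0, g.u_zero, Real.one_rpow, mul_one, Real.rpow_neg (g.pair_u hT).le, ← div_eq_mul_inv] at this
  rw [← div_le_iff₀ (Real.rpow_pos_of_pos (g.pair_u hT) _)]
  linarith

theorem tendsto_ratio (hqp : q < p) (hc : N / (p + 1) + N / (q + 1) = N - 2) :
    Tendsto (ratio p q U V) atTop (𝓝 0) := by
  obtain ⟨d, hd, hb⟩ := g.exists_ratio_decay hN hp hq hqp hc
  have h := ((g.tendsto_u hN hp hq).rpow_const (p := d) (Or.inr hd.le)).const_mul a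
  rw [Real.zero_rpow hd.ne', mul_zero] at h
  refine squeeze_zero' ?_ ?_ h
  · filter_upwards [eventually_ge_atTop 0] with T hT
    have := g.pair_u hT
    have := g.pair_v hT
    unfold ratio; positivity
  · filter_upwards [eventually_ge_atTop 0] with T hT using hb T hT

end Ground

end

end Vale.Agent.P100.Orbit
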